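import Vale.Agent.Lib.P209.TwoDust
import Vale.Agent.Lib.P209.BinAssignGen

/-!
# Assembling a packing from cells

Given a packing of cells (closed balls) into the open ball of capacity `R`, some of which
are assigned one big ball each, the small balls are distributed among the cells, and every
cell is packed with its big ball (if any) and its small balls.
-/

namespace Vale.Agent.Lib.P209

open Finset

/-- small balls in a cell, for an arbitrary finite index type -/
theorem dust_cell {n : ℕ} (δc εd : ℝ)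
    (hdust : ∀ (k : ℕ) (c : ℝ), 0 < c → ∀ a : Fin k → ℝ, (∀ i, 0 < a i) →
      (∀ i, a i ≤ εd * c) → ∑ i, a i ^ n ≤ (1 - δc) * c ^ n → Packing n k c a)
    {T : Type} [Fintype T] (c : ℝ) (hc : 0 < c) (a : T → ℝ) (ha : ∀ i, 0 < a i)
    (hsmall : ∀ i, a i ≤ εd * c) (hvol : ∑ i, a i ^ n ≤ (1 - δc) * c ^ n) :
    PackingInto n (capBall n c) a := by
  apply packingInto_of_fin
  apply hdust _ c hc
  · intro i
    exact ha _
  · intro i
    exact hsmall _
  · have h5 : ∑ i, (a ∘ (Fintype.equivFin T).symm) i ^ n = ∑ x : T, a x ^ n :=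
      Equiv.sum_comp (Fintype.equivFin T).symm (fun x => a x ^ n)
    rw [h5]
    exact hvol

/-- one big ball and small balls in a cell, for an arbitrary finite index type -/
theorem big_cell {n : ℕ} (δc εb : ℝ)
    (hbig : ∀ (k : ℕ) (c : ℝ) (a : Fin (k + 1) → ℝ), (∀ i, 0 < a i) → a 0 < c →
      (∀ i, i ≠ 0 → a i ≤ εb * (c - a 0)) →
      ∑ i, a i ^ n ≤ a 0 ^ n + (1 - δc) * (c ^ n - a 0 ^ n) → Packing n (k + 1) c a)
    {T : Type} [Fintype T] (i₀ : T) (c : ℝ) (a : T → ℝ) (ha : ∀ i, 0 < a i)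
    (h0 : a i₀ < c) (hsmall : ∀ i, i ≠ i₀ → a i ≤ εb * (c - a i₀))
    (hvol : ∑ i, a i ^ n ≤ a i₀ ^ n + (1 - δc) * (c ^ n - a i₀ ^ n)) :
    PackingInto n (capBall n c) a := by
  classical
  have hcard : Fintype.card T = (Fintype.card T - 1) + 1 := by
    have h1 : 0 < Fintype.card T := Fintype.card_pos_iff.mpr ⟨i₀⟩
    omega
  obtain ⟨k, hk⟩ : ∃ k : ℕ, Fintype.card T = k + 1 := ⟨_, hcard⟩
  obtain ⟨e, he⟩ : ∃ e : T ≃ Fin (k + 1), e i₀ = 0 := by
    refine ⟨(Fintype.equivFinOfCardEq hk).trans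
      (Equiv.swap ((Fintype.equivFinOfCardEq hk) i₀) 0), ?_⟩
    simp
  have hsymm : e.symm 0 = i₀ := by
    rw [Equiv.symm_apply_eq]
    exact he.symm
  have h1 : Packing n (k + 1) c (a ∘ e.symm) := by
    apply hbig k c (a ∘ e.symm)
    · intro i
      exact ha _
    · show a (e.symm 0) < c
      rw [hsymm]
      exact h0
    · intro i hi
      show a (e.symm i) ≤ εb * (c - a (e.symm 0))
      rw [hsymm]
      apply hsmall
      intro h
      apply hi
      rw [← he, ← h]
      simp
    · have h5 : ∑ i, (a ∘ e.symm) i ^ n = ∑ x : T, a x ^ n :=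
        Equiv.sum_comp e.symm (fun x => a x ^ n)
      rw [h5]
      show ∑ x : T, a x ^ n ≤ a (e.symm 0) ^ n + (1 - δc) * (c ^ n - a (e.symm 0) ^ n)
      rw [hsymm]
      exact hvol
  have h2 : PackingInto n (capBall n c) (a ∘ e.symm) :=
    PackingInto.mono h1 (capOpenBall_subset_capBall n c)
  have h3 := h2.reindex e e.injective
  have h4 : (a ∘ e.symm) ∘ e = a := by
    funext i
    simp
  rw [h4] at h3
  exact h3

/-- The assembly: cells `cap j`, big balls assigned injectively to cells by `e`, small balls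
distributed greedily. -/
theorem assemble {n : ℕ} (hn : 0 < n) (δc εb εd : ℝ) (hδc : δc ≤ 1)
    (hbig : ∀ (k : ℕ) (c : ℝ) (a : Fin (k + 1) → ℝ), (∀ i, 0 < a i) → a 0 < c →
      (∀ i, i ≠ 0 → a i ≤ εb * (c - a 0)) →
      ∑ i, a i ^ n ≤ a 0 ^ n + (1 - δc) * (c ^ n - a 0 ^ n) → Packing n (k + 1) c a)
    (hdust : ∀ (k : ℕ) (c : ℝ), 0 < c → ∀ a : Fin k → ℝ, (∀ i, 0 < a i) →
      (∀ i, a i ≤ εd * c) → ∑ i, a i ^ n ≤ (1 - δc) * c ^ n → Packing n k c a)
    (hεb : 0 ≤ εb) (hεd : 0 ≤ εd)
    {β : Type} [Fintype β] [Nonempty β] [DecidableEq β] (cap bcap : β → ℝ) (R : ℝ)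
    (hcells : PackingInto n (capOpenBall n R) cap)
    {N : ℕ} (a : Fin N → ℝ) (ha : ∀ i, 0 < a i) (S : Finset (Fin N))
    (e : {i : Fin N // i ∈ S} → β) (he : Function.Injective e) (G η : ℝ) (hG : 0 < G)
    (hb1 : ∀ x : {i : Fin N // i ∈ S}, bcap (e x) = a x.1)
    (hb0 : ∀ j, (∀ x : {i : Fin N // i ∈ S}, e x ≠ j) → bcap j = 0)
    (hgap : ∀ j, bcap j + G ≤ cap j)
    (hsmallb : ∀ i, i ∉ S → a i ≤ εb * G) (hsmalld : ∀ i, i ∉ S → a i ≤ εd * G)
    (hη0 : 0 ≤ η) (hη : ∀ i, i ∉ S → a i ^ n ≤ η)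
    (hvol : ∑ i ∈ Sᶜ, a i ^ n ≤ ∑ j, ((1 - δc) * (cap j ^ n - bcap j ^ n) - η)) :
    Packing n N R a := by
  classical
  rw [packing_iff_packingInto]
  have hbcap0 : ∀ j, 0 ≤ bcap j := by
    intro j
    by_cases h : ∃ x : {i : Fin N // i ∈ S}, e x = j
    · obtain ⟨x, hx⟩ := h
      rw [← hx, hb1 x]
      exact (ha _).le
    · rw [hb0 j (fun x hx => h ⟨x, hx⟩)]
  obtain ⟨w, hw⟩ : ∃ w : Fin N → ℝ, ∀ i, w i = if i ∈ S then 0 else a i ^ n :=
    ⟨_, fun _ => rfl⟩
  have hw0 : ∀ i, 0 ≤ w i := by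
    intro i
    rw [hw]
    split_ifs
    · exact le_refl _
    · exact pow_nonneg (ha i).le n
  have hwη : ∀ i, w i ≤ η := by
    intro i
    rw [hw]
    split_ifs with h
    · exact hη0
    · exact hη i h
  have hwsum : ∑ i, w i = ∑ i ∈ Sᶜ, a i ^ n := by
    rw [← Finset.sum_add_sum_compl S w]
    have h1 : ∑ i ∈ S, w i = 0 := by
      apply Finset.sum_eq_zero
      intro i hi
      rw [hw, if_pos hi]
    have h2 : ∑ i ∈ Sᶜ, w i = ∑ i ∈ Sᶜ, a i ^ n := by
      apply Finset.sum_congr rfl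
      intro i hi
      rw [hw, if_neg (Finset.mem_compl.mp hi)]
    rw [h1, h2, zero_add]
  have hcapge : ∀ j, bcap j ≤ cap j := by
    intro j
    linarith [hgap j]
  have hQ0 : ∀ j, 0 ≤ (1 - δc) * (cap j ^ n - bcap j ^ n) := by
    intro j
    apply mul_nonneg (by linarith)
    have h1 := pow_le_pow_left₀ (hbcap0 j) (hcapge j) n
    linarith
  obtain ⟨φ0, hφ0⟩ := bin_assign_gen w η (fun j => (1 - δc) * (cap j ^ n - bcap j ^ n))
    hw0 hwη hQ0 (by rw [hwsum]; exact hvol)
  obtain ⟨φ, hφ⟩ : ∃ φ : Fin N → β, ∀ i, φ i = if h : i ∈ S then e ⟨i, h⟩ else φ0 i :=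
    ⟨_, fun _ => rfl⟩
  have hφS : ∀ i, i ∉ S → φ i = φ0 i := by
    intro i hi
    rw [hφ, dif_neg hi]
  apply PackingInto.refine hcells φ
  intro j
  by_cases hj : ∃ x : {i : Fin N // i ∈ S}, e x = j
  · obtain ⟨x, hx⟩ := hj
    have hbx : bcap j = a x.1 := by rw [← hx, hb1 x]
    have hφx : φ x.1 = j := by
      rw [hφ, dif_pos x.2]
      exact hx
    have hne : ∀ i, φ i = j → i ≠ x.1 → i ∉ S := by
      intro i hi hix hiS
      rw [hφ, dif_pos hiS] at hi
      have h1 : (⟨i, hiS⟩ : {i : Fin N // i ∈ S}) = x := he (hi.trans hx.symm)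
      exact hix (congrArg Subtype.val h1)
    have hgapx : a x.1 + G ≤ cap j := by
      rw [← hbx]
      exact hgap j
    apply big_cell δc εb hbig (⟨x.1, hφx⟩ : {i : Fin N // φ i = j}) (cap j)
      (fun y : {i : Fin N // φ i = j} => a y.1) (fun y => ha y.1)
    · show a x.1 < cap j
      linarith
    · intro y hy
      show a y.1 ≤ εb * (cap j - a x.1)
      have hyS : y.1 ∉ S := hne y.1 y.2 (fun h => hy (Subtype.ext h))
      calc a y.1 ≤ εb * G := hsmallb y.1 hyS
        _ ≤ εb * (cap j - a x.1) := mul_le_mul_of_nonneg_left (by linarith) hεb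
    · show ∑ y : {i : Fin N // φ i = j}, a y.1 ^ n ≤
        a x.1 ^ n + (1 - δc) * (cap j ^ n - a x.1 ^ n)
      have hxF : x.1 ∈ Finset.univ.filter (fun i => φ i = j) :=
        Finset.mem_filter.mpr ⟨Finset.mem_univ _, hφx⟩
      have h1 : ∑ y : {i : Fin N // φ i = j}, a y.1 ^ n =
          ∑ i ∈ Finset.univ.filter (fun i => φ i = j), a i ^ n :=
        (Finset.sum_subtype (Finset.univ.filter (fun i => φ i = j))
          (fun x => by simp) (fun i => a i ^ n)).symm
      have h2 : a x.1 ^ n + ∑ i ∈ (Finset.univ.filter (fun i => φ i = j)).erase x.1, a i ^ n =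
          ∑ i ∈ Finset.univ.filter (fun i => φ i = j), a i ^ n :=
        Finset.add_sum_erase _ (fun i => a i ^ n) hxF
      have h3 : ∑ i ∈ (Finset.univ.filter (fun i => φ i = j)).erase x.1, a i ^ n ≤
          (1 - δc) * (cap j ^ n - bcap j ^ n) := by
        calc ∑ i ∈ (Finset.univ.filter (fun i => φ i = j)).erase x.1, a i ^ n
            = ∑ i ∈ (Finset.univ.filter (fun i => φ i = j)).erase x.1, w i := by
              apply Finset.sum_congr rfl
              intro i hi
              have hi1 := Finset.ne_of_mem_erase hi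
              have hi2 := (Finset.mem_filter.mp (Finset.mem_of_mem_erase hi)).2
              rw [hw, if_neg (hne i hi2 hi1)]
          _ ≤ ∑ i ∈ Finset.univ.filter (fun i => φ0 i = j), w i := by
              apply Finset.sum_le_sum_of_subset_of_nonneg
              · intro i hi
                have hi1 := Finset.ne_of_mem_erase hi
                have hi2 := (Finset.mem_filter.mp (Finset.mem_of_mem_erase hi)).2
                have hi3 := hne i hi2 hi1
                rw [hφS i hi3] at hi2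
                exact Finset.mem_filter.mpr ⟨Finset.mem_univ _, hi2⟩
              · intro i _ _
                exact hw0 i
          _ ≤ (1 - δc) * (cap j ^ n - bcap j ^ n) := hφ0 j
      rw [h1, ← h2, ← hbx]
      linarith
  · have hnoS : ∀ i, φ i = j → i ∉ S := by
      intro i hi hiS
      rw [hφ, dif_pos hiS] at hi
      exact hj ⟨⟨i, hiS⟩, hi⟩
    have hb : bcap j = 0 := hb0 j (fun x hx => hj ⟨x, hx⟩)
    have hcapG : G ≤ cap j := by
      have := hgap j
      rw [hb] at this
      linarith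
    apply dust_cell δc εd hdust (cap j) (by linarith)
      (fun y : {i : Fin N // φ i = j} => a y.1) (fun y => ha y.1)
    · intro y
      show a y.1 ≤ εd * cap j
      calc a y.1 ≤ εd * G := hsmalld y.1 (hnoS y.1 y.2)
        _ ≤ εd * cap j := mul_le_mul_of_nonneg_left hcapG hεd
    · show ∑ y : {i : Fin N // φ i = j}, a y.1 ^ n ≤ (1 - δc) * cap j ^ n
      have h1 : ∑ y : {i : Fin N // φ i = j}, a y.1 ^ n =
          ∑ i ∈ Finset.univ.filter (fun i => φ i = j), a i ^ n :=
        (Finset.sum_subtype (Finset.univ.filter (fun i => φ i = j))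
          (fun x => by simp) (fun i => a i ^ n)).symm
      rw [h1]
      calc ∑ i ∈ Finset.univ.filter (fun i => φ i = j), a i ^ n
          = ∑ i ∈ Finset.univ.filter (fun i => φ i = j), w i := by
            apply Finset.sum_congr rfl
            intro i hi
            have hi2 := (Finset.mem_filter.mp hi).2
            rw [hw, if_neg (hnoS i hi2)]
        _ ≤ ∑ i ∈ Finset.univ.filter (fun i => φ0 i = j), w i := by
            apply Finset.sum_le_sum_of_subset_of_nonneg
            · intro i hi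
              have hi2 := (Finset.mem_filter.mp hi).2
              have hi3 := hnoS i hi2
              rw [hφS i hi3] at hi2
              exact Finset.mem_filter.mpr ⟨Finset.mem_univ _, hi2⟩
            · intro i _ _
              exact hw0 i
        _ ≤ (1 - δc) * (cap j ^ n - bcap j ^ n) := hφ0 j
        _ = (1 - δc) * cap j ^ n := by
            rw [hb, zero_pow (by omega : n ≠ 0), sub_zero]

end Vale.Agent.Lib.P209
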