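import Vale.Agent.Lib.P209.StairGeom

/-!
# Staircase simplices for several bands

The interval `(0, ∑ b_j)` is cut into `m` consecutive bands of lengths `b_j`.  A colouring
`κ : Fin n → Fin m` of the positions determines a unimodular simplex of any size `s` not
exceeding the lengths of the bands it uses; distinct colourings give disjoint simplices.
-/

namespace Vale.Agent.Lib.P209

open Finset

/-- the simplex in partial-sum coordinates with offsets `t`, size `s` and permutation `ρ` -/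
def midSetG (n : ℕ) (s : ℝ) (t : Fin n → ℝ) (ρ : Equiv.Perm (Fin n)) : Set (Fin n → ℝ) :=
  {y | ∃ w ∈ incSet n s, ∀ i, y i = w (ρ i) + t i}

/-- the left end of band `j` -/
def bandOff {m : ℕ} (b : Fin m → ℝ) (j : Fin m) : ℝ := ∑ l, if l < j then b l else 0

theorem bandOff_nonneg {m : ℕ} {b : Fin m → ℝ} (hb : ∀ j, 0 ≤ b j) (j : Fin m) :
    0 ≤ bandOff b j := by
  apply Finset.sum_nonneg
  intro l _
  split_ifs
  · exact hb l
  · exact le_refl _

theorem bandOff_add_le {m : ℕ} {b : Fin m → ℝ} (hb : ∀ j, 0 ≤ b j) {j j' : Fin m}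
    (h : j < j') : bandOff b j + b j ≤ bandOff b j' := by
  unfold bandOff
  have e : b j = ∑ l, if l = j then b l else 0 := by simp
  rw [e, ← Finset.sum_add_distrib]
  apply Finset.sum_le_sum
  intro l _
  by_cases h1 : l < j
  · rw [if_pos h1, if_neg (ne_of_lt h1), if_pos (h1.trans h), add_zero]
  · by_cases h2 : l = j
    · rw [if_neg h1, if_pos h2, if_pos (h2 ▸ h), zero_add]
    · rw [if_neg h1, if_neg h2, add_zero]
      split_ifs
      · exact hb l
      · exact le_refl _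

theorem bandOff_add_le_sum {m : ℕ} {b : Fin m → ℝ} (hb : ∀ j, 0 ≤ b j) (j : Fin m) :
    bandOff b j + b j ≤ ∑ l, b l := by
  unfold bandOff
  have e : b j = ∑ l, if l = j then b l else 0 := by simp
  rw [e, ← Finset.sum_add_distrib]
  apply Finset.sum_le_sum
  intro l _
  by_cases h1 : l < j
  · rw [if_pos h1, if_neg (ne_of_lt h1), add_zero]
  · by_cases h2 : l = j
    · rw [if_neg h1, if_pos h2, zero_add]
    · rw [if_neg h1, if_neg h2, add_zero]
      exact hb l

/-- the offsets attached to a colouring of the positions -/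
def offK {n m : ℕ} (b : Fin m → ℝ) (κ : Fin n → Fin m) : Fin n → ℝ :=
  fun i => bandOff b (κ (Tuple.sort κ i))

/-- the simplex of size `s` attached to a colouring, in moment coordinates -/
def bandSet {n m : ℕ} (b : Fin m → ℝ) (κ : Fin n → Fin m) (s : ℝ) : Set (Fin n → ℝ) :=
  dmap '' midSetG n s (offK b κ) (Tuple.sort κ)

theorem sort_mono {n m : ℕ} (κ : Fin n → Fin m) {i j : Fin n} (h : i ≤ j) :
    κ (Tuple.sort κ i) ≤ κ (Tuple.sort κ j) :=
  Tuple.monotone_sort κ h

theorem sort_stable {n m : ℕ} (κ : Fin n → Fin m) {i j : Fin n} (h : i < j)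
    (he : κ (Tuple.sort κ i) = κ (Tuple.sort κ j)) : Tuple.sort κ i < Tuple.sort κ j :=
  (Tuple.eq_sort_iff.mp (rfl : Tuple.sort κ = Tuple.sort κ)).2 i j h he

theorem band_pos {n m : ℕ} {b : Fin m → ℝ} {κ : Fin n → Fin m} {s : ℝ}
    (hs : ∀ p, s ≤ b (κ p)) {y : Fin n → ℝ}
    (hy : y ∈ midSetG n s (offK b κ) (Tuple.sort κ)) (i : Fin n) :
    bandOff b (κ (Tuple.sort κ i)) < y i ∧
      y i < bandOff b (κ (Tuple.sort κ i)) + b (κ (Tuple.sort κ i)) := by
  obtain ⟨w, ⟨hw0, hws, -⟩, hyw⟩ := hy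
  have h1 := hyw i
  have h2 := hw0 (Tuple.sort κ i)
  have h3 := hws (Tuple.sort κ i)
  have h4 := hs (Tuple.sort κ i)
  have h5 : offK b κ i = bandOff b (κ (Tuple.sort κ i)) := rfl
  constructor <;> linarith

theorem dmap_pos_band {n m : ℕ} {b : Fin m → ℝ} (hb : ∀ j, 0 ≤ b j) {κ : Fin n → Fin m} {s : ℝ}
    (hs : ∀ p, s ≤ b (κ p)) {y : Fin n → ℝ}
    (hy : y ∈ midSetG n s (offK b κ) (Tuple.sort κ)) (i : Fin n) : 0 < dmap y i := by
  have hband := band_pos hs hy
  obtain ⟨w, ⟨hw0, hws, hwm⟩, hyw⟩ := hy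
  unfold dmap
  by_cases h : 0 < i.val
  · rw [dif_pos h]
    have hi'lt : i.val - 1 < n := by
      have := i.isLt
      omega
    have hlt : (⟨i.val - 1, hi'lt⟩ : Fin n) < i := by
      rw [Fin.lt_def]
      show i.val - 1 < i.val
      omega
    by_cases hc : κ (Tuple.sort κ ⟨i.val - 1, hi'lt⟩) = κ (Tuple.sort κ i)
    · have h1 := hwm (sort_stable κ hlt hc)
      have h2 : offK b κ ⟨i.val - 1, hi'lt⟩ = offK b κ i := by
        unfold offK
        rw [hc]
      rw [hyw i, hyw ⟨i.val - 1, hi'lt⟩, h2]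
      linarith
    · have h1 : κ (Tuple.sort κ ⟨i.val - 1, hi'lt⟩) < κ (Tuple.sort κ i) :=
        lt_of_le_of_ne (sort_mono κ hlt.le) hc
      have h2 := bandOff_add_le hb h1
      have h3 := (hband i).1
      have h4 := (hband ⟨i.val - 1, hi'lt⟩).2
      linarith
  · rw [dif_neg h]
    have h3 := (hband i).1
    have h4 := bandOff_nonneg hb (κ (Tuple.sort κ i))
    linarith

theorem bandSet_sub {n m : ℕ} (hn : 0 < n) {b : Fin m → ℝ} (hb : ∀ j, 0 ≤ b j)
    {κ : Fin n → Fin m} {s : ℝ} (hs : ∀ p, s ≤ b (κ p)) {x : Fin n → ℝ}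
    (hx : x ∈ bandSet b κ s) : (∀ j, 0 < x j) ∧ ∑ j, x j < ∑ j, b j := by
  obtain ⟨y, hy, rfl⟩ := hx
  refine ⟨dmap_pos_band hb hs hy, ?_⟩
  rw [sum_eq_psum_last hn, psum_dmap]
  have h1 := (band_pos hs hy ⟨n - 1, by omega⟩).2
  have h2 := bandOff_add_le_sum hb (κ (Tuple.sort κ ⟨n - 1, by omega⟩))
  linarith

theorem perm_eq_of_strictMono_comp {n : ℕ} {ρ ρ' : Equiv.Perm (Fin n)} {w w' : Fin n → ℝ}
    (hw : StrictMono w) (hw' : StrictMono w') (h : ∀ i, w (ρ i) = w' (ρ' i)) : ρ = ρ' := by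
  have hiff : ∀ i j, ρ i < ρ j → ρ' i < ρ' j := by
    intro i j hij
    have h1 := hw hij
    rw [h i, h j] at h1
    exact hw'.lt_iff_lt.mp h1
  have hσ : StrictMono (fun x => ρ' (ρ.symm x)) := by
    intro x y hxy
    apply hiff
    simpa using hxy
  apply Equiv.ext
  intro i
  have h1 : ρ' (ρ.symm (ρ i)) = ρ i := le_antisymm hσ.apply_le hσ.le_apply
  simpa using h1.symm

theorem bandSet_disjoint {n m : ℕ} {b : Fin m → ℝ} (hb : ∀ j, 0 ≤ b j)
    {κ κ' : Fin n → Fin m} {s s' : ℝ} (hs : ∀ p, s ≤ b (κ p)) (hs' : ∀ p, s' ≤ b (κ' p))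
    (hne : κ ≠ κ') : Disjoint (bandSet b κ s) (bandSet b κ' s') := by
  rw [Set.disjoint_left]
  rintro x ⟨y, hy, rfl⟩ ⟨y', hy', hxy⟩
  have h1 := dmap_injective hxy
  subst h1
  apply hne
  have hband := band_pos hs hy
  have hband' := band_pos hs' hy'
  have hc : ∀ i, κ (Tuple.sort κ i) = κ' (Tuple.sort κ' i) := by
    intro i
    by_contra hci
    rcases lt_or_gt_of_ne hci with h | h
    · have h2 := bandOff_add_le hb h
      linarith [(hband i).2, (hband' i).1]
    · have h2 := bandOff_add_le hb h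
      linarith [(hband' i).2, (hband i).1]
  obtain ⟨w, ⟨-, -, hwm⟩, hyw⟩ := hy
  obtain ⟨w', ⟨-, -, hwm'⟩, hyw'⟩ := hy'
  have hww : ∀ i, w (Tuple.sort κ i) = w' (Tuple.sort κ' i) := by
    intro i
    have h3 := hyw i
    have h4 := hyw' i
    have h5 : offK b κ i = offK b κ' i := by
      unfold offK
      rw [hc i]
    linarith
  have hρ := perm_eq_of_strictMono_comp hwm hwm' hww
  funext p
  have h6 := hc ((Tuple.sort κ).symm p)
  rw [← hρ] at h6
  simpa using h6

theorem goodEmb_band {n m : ℕ} {b : Fin m → ℝ} (hb : ∀ j, 0 ≤ b j) {κ : Fin n → Fin m}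
    {r s : ℝ} (hr : 0 ≤ r) (hrs : r < s) (hs : ∀ p, s ≤ b (κ p)) :
    ∃ Ψ, GoodEmb n r Ψ (bandSet b κ s) := by
  obtain ⟨Ψ0, h0⟩ := goodEmb_base n hr hrs
  have h1 := (h0.stepLin (unimod_L n) (fun _ => 0) (fun X hX j => hX.1 j) (by
    intro X hX j
    rw [linMom_L]
    exact (psum_mem_incSet hX).1 j)).mono (S' := incSet n s) (by
    rintro _ ⟨X, hX, rfl⟩
    rw [linMom_L]
    exact psum_mem_incSet hX)
  have h2 := (h1.stepLin (unimod_P (Tuple.sort κ)) (offK b κ) (fun w hw j => hw.1 j) (by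
    intro w hw j
    rw [linMom_P]
    have h3 := hw.1 (Tuple.sort κ j)
    have h4 : 0 ≤ offK b κ j := bandOff_nonneg hb _
    linarith)).mono (S' := midSetG n s (offK b κ) (Tuple.sort κ)) (by
    rintro _ ⟨w, hw, rfl⟩
    exact ⟨w, hw, fun i => linMom_P (Tuple.sort κ) _ w i⟩)
  have h3 := h2.stepLin (unimod_D n) (fun _ => 0) (by
    intro y hy j
    have h4 := (band_pos hs hy j).1
    have h5 := bandOff_nonneg hb (κ (Tuple.sort κ j))
    linarith) (by
    intro y hy j
    rw [linMom_D]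
    exact dmap_pos_band hb hs hy j)
  refine ⟨_, h3.mono ?_⟩
  rintro _ ⟨y, hy, rfl⟩
  exact ⟨y, hy, (linMom_D y).symm⟩

/-- Packing by band simplices: each ball gets its own colouring and a size not exceeding the
lengths of the bands which that colouring uses. -/
theorem packing_bands {n m k : ℕ} (hn : 0 < n) (b : Fin m → ℝ) (hb : ∀ j, 0 ≤ b j)
    (a : Fin k → ℝ) (ha : ∀ i, 0 < a i) (slot : Fin k → Fin n → Fin m)
    (hslot : Function.Injective slot) (s : Fin k → ℝ) (has : ∀ i, a i < s i)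
    (hs : ∀ i p, s i ≤ b (slot i p)) : Packing n k (∑ j, b j) a := by
  apply packing_of_goodEmb (fun i => bandSet b (slot i) (s i))
  · intro i
    exact goodEmb_band hb (ha i).le (has i) (hs i)
  · intro i x hx
    exact (bandSet_sub hn hb (hs i) hx).2
  · intro i i' hii'
    exact bandSet_disjoint hb (hs i) (hs i') (fun h => hii' (hslot h))

theorem Packing.mono_R {n k : ℕ} {R R' : ℝ} {a : Fin k → ℝ} (h : Packing n k R a)
    (hRR' : R ≤ R') : Packing n k R' a := by
  obtain ⟨f, h1, h2, h3⟩ := h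
  refine ⟨f, h1, fun i => ?_, h3⟩
  intro y hy
  have h4 : Real.pi * ∑ j, ‖y j‖ ^ 2 < R := h2 i hy
  show Real.pi * ∑ j, ‖y j‖ ^ 2 < R'
  linarith

theorem Packing.perm {n k : ℕ} {R : ℝ} {a : Fin k → ℝ} (σ : Equiv.Perm (Fin k))
    (h : Packing n k R (a ∘ σ)) : Packing n k R a := by
  obtain ⟨f, h1, h2, h3⟩ := h
  refine ⟨fun i => f (σ.symm i), fun i => ?_, fun i => ?_, fun i j hij => ?_⟩
  · have h4 := h1 (σ.symm i)
    simpa using h4
  · have h4 := h2 (σ.symm i)
    simpa using h4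
  · have h4 := h3 (σ.symm i) (σ.symm j) (fun e => hij (σ.symm.injective e))
    simpa using h4

end Vale.Agent.Lib.P209
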