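import Mathlib

namespace Vale.Agent.Lib.P209

/-- Greedy assignment of the items of a finite set `s` to bins: every bin gets total weight at
most `Q`, as soon as every weight is at most `η` and the total weight is at most the number of
bins times `Q - η`. -/
theorem bin_assign_aux {ι β : Type} [Fintype ι] [Fintype β] [Nonempty β] [DecidableEq β]
    (w : ι → ℝ) (η Q : ℝ) (hw0 : ∀ i, 0 ≤ w i) (hwη : ∀ i, w i ≤ η)
    (hsum : ∑ i, w i ≤ (Fintype.card β : ℝ) * (Q - η)) (hQ : 0 ≤ Q) (s : Finset ι) :
    ∃ φ : ι → β, ∀ j : β, ∑ i ∈ s.filter (fun i => φ i = j), w i ≤ Q := by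
  classical
  induction s using Finset.induction_on with
  | empty =>
    refine ⟨fun _ => Classical.arbitrary β, fun j => ?_⟩
    rw [Finset.filter_empty, Finset.sum_empty]
    exact hQ
  | insert i0 s hi0 ih =>
    obtain ⟨φ, hφ⟩ := ih
    have hex : ∃ j0 : β, ∑ i ∈ s.filter (fun i => φ i = j0), w i ≤ Q - η := by
      by_contra hcon
      push Not at hcon
      have h1 : ∑ _j : β, (Q - η) < ∑ j : β, ∑ i ∈ s.filter (fun i => φ i = j), w i :=
        Finset.sum_lt_sum_of_nonempty Finset.univ_nonempty (fun j _ => hcon j)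
      rw [Finset.sum_fiberwise, Finset.sum_const, Finset.card_univ, nsmul_eq_mul] at h1
      have h2 : ∑ i ∈ s, w i ≤ ∑ i, w i :=
        Finset.sum_le_sum_of_subset_of_nonneg (Finset.subset_univ s) (fun i _ _ => hw0 i)
      linarith
    obtain ⟨j0, hj0⟩ := hex
    refine ⟨Function.update φ i0 j0, fun j => ?_⟩
    have hfilt : s.filter (fun i => Function.update φ i0 j0 i = j)
        = s.filter (fun i => φ i = j) := by
      refine Finset.filter_congr (fun i hi => ?_)
      have hne : i ≠ i0 := fun h => hi0 (h ▸ hi)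
      rw [Function.update_of_ne hne]
    rw [Finset.filter_insert, Function.update_self]
    by_cases hj : j0 = j
    · rw [if_pos hj, hfilt, Finset.sum_insert (fun hmem => hi0 (Finset.mem_filter.mp hmem).1)]
      subst hj
      have h3 := hwη i0
      linarith
    · rw [if_neg hj, hfilt]
      exact hφ j

/-- Greedy bin assignment: items of weight in `[0, η]` with total weight at most
`card β * (Q - η)` can be distributed over the bins `β` so that every bin gets total weight at
most `Q`. -/
theorem bin_assign {ι β : Type} [Fintype ι] [Fintype β] [Nonempty β] [DecidableEq β]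
    (w : ι → ℝ) (η Q : ℝ) (hw0 : ∀ i, 0 ≤ w i) (hwη : ∀ i, w i ≤ η)
    (hsum : ∑ i, w i ≤ (Fintype.card β : ℝ) * (Q - η)) (hη : 0 ≤ η) :
    ∃ φ : ι → β, ∀ j : β, ∑ i ∈ Finset.univ.filter (fun i => φ i = j), w i ≤ Q := by
  have hcard : (0 : ℝ) < Fintype.card β := by exact_mod_cast Fintype.card_pos
  have hs0 : 0 ≤ ∑ i, w i := Finset.sum_nonneg (fun i _ => hw0 i)
  have hQη : 0 ≤ Q - η := by
    by_contra hneg
    push Not at hneg
    have h1 := mul_neg_of_pos_of_neg hcard hneg
    linarith
  exact bin_assign_aux w η Q hw0 hwη hsum (by linarith) Finset.univ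

end Vale.Agent.Lib.P209
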