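import Mathlib

namespace Vale.Agent.Lib.P209

/-- Among the maps from `Fin n` to `Fin m`, all but at most `s ^ n` take a value of size at
least `s` somewhere. -/
theorem shell_card (n m s : ℕ) :
    m ^ n ≤ Fintype.card {κ : Fin n → Fin m // ∃ p, s ≤ (κ p).val} + s ^ n := by
  let F : (Fin n → Fin m) →
      {κ : Fin n → Fin m // ∃ p, s ≤ (κ p).val} ⊕ (Fin n → Fin s) :=
    fun κ => if h : ∃ p, s ≤ (κ p).val then Sum.inl ⟨κ, h⟩
      else Sum.inr (fun p => ⟨(κ p).val, by
        by_contra hc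
        exact h ⟨p, not_lt.mp hc⟩⟩)
  have hinj : Function.Injective F := by
    intro κ κ' hk
    by_cases h : ∃ p, s ≤ (κ p).val
    · by_cases h' : ∃ p, s ≤ (κ' p).val
      · simp only [F, dif_pos h, dif_pos h'] at hk
        exact congrArg Subtype.val (Sum.inl.inj hk)
      · simp only [F, dif_pos h, dif_neg h'] at hk
        exact absurd hk (by simp)
    · by_cases h' : ∃ p, s ≤ (κ' p).val
      · simp only [F, dif_neg h, dif_pos h'] at hk
        exact absurd hk (by simp)
      · simp only [F, dif_neg h, dif_neg h'] at hk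
        have h2 := Sum.inr.inj hk
        funext p
        have h3 := congrArg Fin.val (congrFun h2 p)
        exact Fin.ext h3
  have hcard := Fintype.card_le_of_injective F hinj
  rw [Fintype.card_sum, Fintype.card_fun, Fintype.card_fun, Fintype.card_fin, Fintype.card_fin,
    Fintype.card_fin] at hcard
  exact hcard

/-- Volume of a thin shell: `R^n - (b + t)^n` is at least `1 - θ` times `R^n - b^n` when
`n t ≤ θ (R - b)`. -/
theorem shell_volume (n : ℕ) (hn : 1 ≤ n) (R b t θ : ℝ) (hb : 0 ≤ b) (ht : 0 < t)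
    (htR : b + t ≤ R) (hθ : (n : ℝ) * t ≤ θ * (R - b)) :
    (1 - θ) * (R ^ n - b ^ n) ≤ R ^ n - (b + t) ^ n := by
  have hc0 : 0 ≤ b + t := by linarith
  have hR0 : 0 ≤ R := by linarith
  have hbR : b ≤ R := by linarith
  have hRb : 0 < R - b := by linarith
  have hnpos : (0 : ℝ) < n := by exact_mod_cast hn
  have hθpos : 0 < θ := by
    by_contra hneg
    have h1 : θ * (R - b) ≤ 0 := mul_nonpos_of_nonpos_of_nonneg (not_lt.mp hneg) hRb.le
    have h2 : 0 < (n : ℝ) * t := mul_pos hnpos ht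
    linarith
  have hA : (b + t) ^ n - b ^ n ≤ (n : ℝ) * t * R ^ (n - 1) := by
    rw [← geom_sum₂_mul (b + t) b n]
    have hsum : ∑ i ∈ Finset.range n, (b + t) ^ i * b ^ (n - 1 - i) ≤ (n : ℝ) * R ^ (n - 1) := by
      have hterm : ∀ i ∈ Finset.range n, (b + t) ^ i * b ^ (n - 1 - i) ≤ R ^ (n - 1) := by
        intro i hi
        rw [Finset.mem_range] at hi
        have e : R ^ (n - 1) = R ^ i * R ^ (n - 1 - i) := by
          rw [← pow_add]
          congr 1
          omega
        rw [e]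
        exact mul_le_mul (pow_le_pow_left₀ hc0 htR i) (pow_le_pow_left₀ hb hbR _)
          (pow_nonneg hb _) (pow_nonneg hR0 _)
      have h := Finset.sum_le_sum hterm
      rw [Finset.sum_const, Finset.card_range, nsmul_eq_mul] at h
      exact h
    have e2 : b + t - b = t := by ring
    rw [e2]
    calc (∑ i ∈ Finset.range n, (b + t) ^ i * b ^ (n - 1 - i)) * t
        ≤ ((n : ℝ) * R ^ (n - 1)) * t := mul_le_mul_of_nonneg_right hsum ht.le
      _ = (n : ℝ) * t * R ^ (n - 1) := by ring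
  have hB : (R - b) * R ^ (n - 1) ≤ R ^ n - b ^ n := by
    rw [← geom_sum₂_mul R b n]
    have hle : R ^ (n - 1) ≤ ∑ i ∈ Finset.range n, R ^ i * b ^ (n - 1 - i) := by
      have h := Finset.single_le_sum (f := fun i => R ^ i * b ^ (n - 1 - i))
        (fun i _ => mul_nonneg (pow_nonneg hR0 i) (pow_nonneg hb _))
        (Finset.mem_range.mpr (show n - 1 < n by omega))
      simpa using h
    calc (R - b) * R ^ (n - 1) = R ^ (n - 1) * (R - b) := by ring
      _ ≤ (∑ i ∈ Finset.range n, R ^ i * b ^ (n - 1 - i)) * (R - b) :=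
          mul_le_mul_of_nonneg_right hle hRb.le
  have hC : (b + t) ^ n - b ^ n ≤ θ * (R ^ n - b ^ n) := by
    have h1 : (n : ℝ) * t * R ^ (n - 1) ≤ θ * (R - b) * R ^ (n - 1) :=
      mul_le_mul_of_nonneg_right hθ (pow_nonneg hR0 _)
    have h2 : θ * ((R - b) * R ^ (n - 1)) ≤ θ * (R ^ n - b ^ n) :=
      mul_le_mul_of_nonneg_left hB hθpos.le
    have e3 : θ * (R - b) * R ^ (n - 1) = θ * ((R - b) * R ^ (n - 1)) := by ring
    linarith
  have e4 : (1 - θ) * (R ^ n - b ^ n) = (R ^ n - b ^ n) - θ * (R ^ n - b ^ n) := by ring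
  rw [e4]
  linarith

end Vale.Agent.Lib.P209
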