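import Vale.Agent.Lib.P209.Dust
import Vale.Agent.Lib.P209.BinAssign
import Vale.Agent.Lib.P209.ShellCount

/-!
# One ball of arbitrary size together with many small balls

The corner simplex of the big ball is a union of cells of the subdivision of the moment
simplex into `m ^ n` unimodular simplices; the small balls are distributed among the remaining
cells and packed into them by the packing stability theorem for small balls.
-/

namespace Vale.Agent.Lib.P209

open Finset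

theorem packingInto_of_goodEmb {n : ℕ} {R : ℝ} {ι : Type} {a : ι → ℝ}
    (S : ι → Set (Fin n → ℝ)) (hex : ∀ i, ∃ Ψ, GoodEmb n (a i) Ψ (S i))
    (hR : ∀ i, ∀ X ∈ S i, ∑ j, X j < R)
    (hdisj : ∀ i i', i ≠ i' → Disjoint (S i) (S i')) : PackingInto n (capOpenBall n R) a := by
  choose Ψ hΨ using hex
  refine ⟨Ψ, fun i => (hΨ i).isSympEmb, ?_, ?_⟩
  · rintro i y ⟨z, hz, rfl⟩
    have := hR i _ ((hΨ i).mom_mem z hz)
    show Real.pi * ∑ j, ‖Ψ i z j‖ ^ 2 < R
    rw [Finset.mul_sum]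
    have e : ∀ j, Real.pi * ‖Ψ i z j‖ ^ 2 = mom (Ψ i z) j := by
      intro j
      unfold mom
      rw [Complex.normSq_eq_norm_sq]
    rw [Finset.sum_congr rfl (fun j _ => e j)]
    exact this
  · intro i i' hii'
    rw [Set.disjoint_left]
    rintro y ⟨z, hz, rfl⟩ ⟨z', hz', heq⟩
    have h1 := (hΨ i).mom_mem z hz
    have h2 := (hΨ i').mom_mem z' hz'
    rw [heq] at h2
    exact Set.disjoint_left.mp (hdisj i i' hii') h1 h2

theorem bandOff_mono {m : ℕ} {b : Fin m → ℝ} (hb : ∀ j, 0 ≤ b j) {j j' : Fin m}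
    (h : j ≤ j') : bandOff b j ≤ bandOff b j' := by
  rcases eq_or_lt_of_le h with h1 | h1
  · rw [h1]
  · have h2 := bandOff_add_le hb h1
    linarith [hb j]

theorem bandOff_const {m : ℕ} (t : ℝ) (j : Fin m) :
    bandOff (fun _ : Fin m => t) j = (j.val : ℝ) * t := by
  unfold bandOff
  rw [← Finset.sum_filter, Finset.sum_const, nsmul_eq_mul]
  congr 1
  have h1 : (Finset.univ.filter (fun l : Fin m => l < j)) = Finset.Iio j := by
    ext l
    simp
  rw [h1, Fin.card_Iio]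

/-- every point of the simplex of a colouring has coordinate sum beyond the left end of
every band which the colouring uses -/
theorem bandSet_sum_gt {n m : ℕ} (hn : 0 < n) {b : Fin m → ℝ} (hb : ∀ j, 0 ≤ b j)
    {κ : Fin n → Fin m} {s : ℝ} (hs : ∀ p, s ≤ b (κ p)) {x : Fin n → ℝ}
    (hx : x ∈ bandSet b κ s) (p : Fin n) : bandOff b (κ p) < ∑ j, x j := by
  obtain ⟨y, hy, rfl⟩ := hx
  rw [sum_eq_psum_last hn, psum_dmap]
  have h1 := (band_pos hs hy ⟨n - 1, by omega⟩).1
  have h2 : κ p ≤ κ (Tuple.sort κ ⟨n - 1, by omega⟩) := by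
    have hle : (Tuple.sort κ).symm p ≤ (⟨n - 1, by omega⟩ : Fin n) := by
      rw [Fin.le_def]
      have := ((Tuple.sort κ).symm p).isLt
      show ((Tuple.sort κ).symm p).val ≤ n - 1
      omega
    have h3 := sort_mono κ hle
    simpa using h3
  have h4 := bandOff_mono hb h2
  linarith

/-- The corner simplex of size `s * t` together with all the cells of size `t` whose
colouring uses a band beyond the first `s` bands. -/
theorem packing_corner_shell {n : ℕ} (hn : 0 < n) (m s : ℕ) (hsm : s ≤ m) (t b0 τ : ℝ)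
    (ht : 0 < t) (hb0 : 0 < b0) (hb0s : b0 < s * t) (hτ0 : 0 < τ) (hτ : τ < t) :
    PackingInto n (capOpenBall n (m * t))
      (fun o : Option {κ : Fin n → Fin m // ∃ p, s ≤ (κ p).val} =>
        o.elim b0 (fun _ => τ)) := by
  have hb : ∀ j : Fin m, 0 ≤ (fun _ : Fin m => t) j := fun _ => ht.le
  have hsum : ∑ _j : Fin m, t = m * t := by
    rw [Finset.sum_const, Finset.card_univ, Fintype.card_fin, nsmul_eq_mul]
  apply packingInto_of_goodEmb
    (fun o : Option {κ : Fin n → Fin m // ∃ p, s ≤ (κ p).val} =>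
      o.elim (simplexO n (s * t)) (fun κ => bandSet (fun _ : Fin m => t) κ.1 t))
  · intro o
    cases o with
    | none => exact goodEmb_base n hb0.le hb0s
    | some κ => exact goodEmb_band hb hτ0.le hτ (fun _ => le_refl t)
  · intro o X hX
    cases o with
    | none =>
      have h1 : ∑ j, X j < s * t := (show X ∈ simplexO n (s * t) from hX).2
      have h2 : (s : ℝ) * t ≤ m * t := by
        apply mul_le_mul_of_nonneg_right _ ht.le
        exact_mod_cast hsm
      linarith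
    | some κ =>
      have h1 := (bandSet_sub hn hb (fun _ => le_refl t)
        (show X ∈ bandSet (fun _ : Fin m => t) κ.1 t from hX)).2
      rw [hsum] at h1
      exact h1
  · have key : ∀ (κ : {κ : Fin n → Fin m // ∃ p, s ≤ (κ p).val}) (X : Fin n → ℝ),
        X ∈ simplexO n (s * t) → X ∈ bandSet (fun _ : Fin m => t) κ.1 t → False := by
      intro κ X hX hX'
      obtain ⟨p, hp⟩ := κ.2
      have h1 := bandSet_sum_gt hn hb (fun _ => le_refl t) hX' p
      rw [bandOff_const] at h1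
      have h2 : ∑ j, X j < s * t := hX.2
      have h3 : (s : ℝ) * t ≤ ((κ.1 p).val : ℝ) * t := by
        apply mul_le_mul_of_nonneg_right _ ht.le
        exact_mod_cast hp
      linarith
    intro o o' hne
    cases o with
    | none =>
      cases o' with
      | none => exact absurd rfl hne
      | some κ' =>
        rw [Set.disjoint_left]
        intro X hX hX'
        exact key κ' X hX hX'
    | some κ =>
      cases o' with
      | none =>
        rw [Set.disjoint_left]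
        intro X hX hX'
        exact key κ X hX' hX
      | some κ' =>
        exact bandSet_disjoint hb (fun _ => le_refl t) (fun _ => le_refl t)
          (fun h => hne (by rw [Subtype.ext h]))

theorem packingInto_of_fin {n : ℕ} {T : Type} [Fintype T] (c : ℝ) (a : T → ℝ)
    (h : Packing n (Fintype.card T) c (a ∘ (Fintype.equivFin T).symm)) :
    PackingInto n (capBall n c) a := by
  have h2 : PackingInto n (capBall n c) (a ∘ (Fintype.equivFin T).symm) :=
    PackingInto.mono h (capOpenBall_subset_capBall n c)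
  have h3 := h2.reindex (Fintype.equivFin T) (Fintype.equivFin T).injective
  have h4 : (a ∘ (Fintype.equivFin T).symm) ∘ (Fintype.equivFin T) = a := by
    funext i
    simp
  rw [h4] at h3
  exact h3

/-- One big ball in the corner and small balls distributed among the cells of size `t`
outside of the corner. -/
theorem big_dust_explicit {n : ℕ} (hn : 0 < n) (δd εd : ℝ)
    (hdust : ∀ (k : ℕ) (c : ℝ), 0 < c → ∀ a : Fin k → ℝ, (∀ i, 0 < a i) →
      (∀ i, a i ≤ εd * c) → ∑ i, a i ^ n ≤ (1 - δd) * c ^ n → Packing n k c a)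
    (m s : ℕ) (hsm : s ≤ m) (t τ R wmax : ℝ) (ht : 0 < t) (hmt : (m : ℝ) * t = R)
    (hτ0 : 0 < τ) (hτ : τ < t) (hwmax : 0 ≤ wmax)
    {k : ℕ} (a : Fin (k + 1) → ℝ) (ha : ∀ i, 0 < a i) (ha0 : a 0 < s * t)
    (hsmall : ∀ i, i ≠ 0 → a i ≤ εd * τ) (hsmall' : ∀ i, i ≠ 0 → a i ^ n ≤ wmax)
    (hne : Nonempty {κ : Fin n → Fin m // ∃ p, s ≤ (κ p).val})
    (hvol : ∑ i, a i ^ n - a 0 ^ n ≤
      (Fintype.card {κ : Fin n → Fin m // ∃ p, s ≤ (κ p).val} : ℝ) *
        ((1 - δd) * τ ^ n - wmax)) :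
    Packing n (k + 1) R a := by
  classical
  rw [packing_iff_packingInto, ← hmt]
  have hcells := packing_corner_shell hn m s hsm t (a 0) τ ht (ha 0) ha0 hτ0 hτ
  obtain ⟨w, hw⟩ : ∃ w : Fin (k + 1) → ℝ, ∀ i, w i = if i = 0 then 0 else a i ^ n :=
    ⟨_, fun _ => rfl⟩
  have hw0 : ∀ i, 0 ≤ w i := by
    intro i
    rw [hw]
    split_ifs
    · exact le_refl _
    · exact pow_nonneg (ha i).le n
  have hwη : ∀ i, w i ≤ wmax := by
    intro i
    rw [hw]
    split_ifs with h
    · exact hwmax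
    · exact hsmall' i h
  have hwsum : ∑ i, w i = ∑ i, a i ^ n - a 0 ^ n := by
    have h1 : w 0 + ∑ i ∈ Finset.univ.erase (0 : Fin (k + 1)), w i = ∑ i, w i :=
      Finset.add_sum_erase Finset.univ w (Finset.mem_univ (0 : Fin (k + 1)))
    have h2 : a 0 ^ n + ∑ i ∈ Finset.univ.erase (0 : Fin (k + 1)), a i ^ n = ∑ i, a i ^ n :=
      Finset.add_sum_erase Finset.univ (fun i => a i ^ n) (Finset.mem_univ (0 : Fin (k + 1)))
    have h3 : ∑ i ∈ Finset.univ.erase (0 : Fin (k + 1)), w i =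
        ∑ i ∈ Finset.univ.erase (0 : Fin (k + 1)), a i ^ n := by
      apply Finset.sum_congr rfl
      intro i hi
      rw [hw, if_neg (Finset.ne_of_mem_erase hi)]
    have h4 : w 0 = 0 := by rw [hw, if_pos rfl]
    linarith
  obtain ⟨φ0, hφ0⟩ := bin_assign w wmax ((1 - δd) * τ ^ n) hw0 hwη
    (by rw [hwsum]; exact hvol) hwmax
  obtain ⟨φ, hφ⟩ : ∃ φ : Fin (k + 1) → Option {κ : Fin n → Fin m // ∃ p, s ≤ (κ p).val},
      ∀ i, φ i = if i = 0 then none else some (φ0 i) := ⟨_, fun _ => rfl⟩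
  apply PackingInto.refine hcells φ
  intro o
  cases o with
  | none =>
    have hfib : ∀ x : {i : Fin (k + 1) // φ i = none}, x.1 = 0 := by
      intro x
      by_contra h
      have h1 := x.2
      rw [hφ, if_neg h] at h1
      exact Option.some_ne_none _ h1
    have hsub : Subsingleton {i : Fin (k + 1) // φ i = none} :=
      ⟨fun x x' => Subtype.ext (by rw [hfib x, hfib x'])⟩
    apply PackingInto.of_subsingleton
    intro x
    show capBall n (a x.1) ⊆ capBall n (a 0)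
    rw [hfib x]
  | some j =>
    show PackingInto n (capBall n τ) (fun x : {i : Fin (k + 1) // φ i = some j} => a x.1)
    have hfib : ∀ i : Fin (k + 1), φ i = some j → i ≠ 0 ∧ φ0 i = j := by
      intro i h1
      rw [hφ] at h1
      by_cases h : i = 0
      · rw [if_pos h] at h1
        exact absurd h1.symm (Option.some_ne_none _)
      · rw [if_neg h] at h1
        exact ⟨h, Option.some.inj h1⟩
    apply packingInto_of_fin
    apply hdust _ τ hτ0
    · intro i
      exact ha _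
    · intro i
      exact hsmall _ (hfib _ ((Fintype.equivFin {i : Fin (k + 1) // φ i = some j}).symm i).2).1
    · have h5 : ∑ i, ((fun x : {i : Fin (k + 1) // φ i = some j} => a x.1) ∘
          (Fintype.equivFin {i : Fin (k + 1) // φ i = some j}).symm) i ^ n =
          ∑ x : {i : Fin (k + 1) // φ i = some j}, a x.1 ^ n :=
        Equiv.sum_comp (Fintype.equivFin {i : Fin (k + 1) // φ i = some j}).symm
          (fun x => a x.1 ^ n)
      rw [h5]
      calc ∑ x : {i : Fin (k + 1) // φ i = some j}, a x.1 ^ n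
          = ∑ i ∈ Finset.univ.filter (fun i => φ i = some j), a i ^ n :=
            (Finset.sum_subtype (Finset.univ.filter (fun i => φ i = some j))
              (fun x => by simp) (fun i => a i ^ n)).symm
        _ = ∑ i ∈ Finset.univ.filter (fun i => φ i = some j), w i := by
            apply Finset.sum_congr rfl
            intro i hi
            have hi' := (Finset.mem_filter.mp hi).2
            rw [hw, if_neg (hfib i hi').1]
        _ ≤ ∑ i ∈ Finset.univ.filter (fun i => φ0 i = j), w i := by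
            apply Finset.sum_le_sum_of_subset_of_nonneg
            · intro i hi
              have hi' := (Finset.mem_filter.mp hi).2
              exact Finset.mem_filter.mpr ⟨Finset.mem_univ _, (hfib i hi').2⟩
            · intro i _ _
              exact hw0 i
        _ ≤ (1 - δd) * τ ^ n := hφ0 j

theorem big_dust_arith1 (d : ℝ) : 1 - d / 2 ≤ (1 - d / 4) * (1 - d / 8) - d / 8 := by
  nlinarith [sq_nonneg d]

theorem big_dust_arith2 (d Y : ℝ) (hd : 0 ≤ d) (hY : 0 ≤ Y) :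
    (1 - d) * Y ≤ (1 - d / 2) * ((1 - d / 4) * Y) := by
  nlinarith [mul_nonneg hd hY, mul_nonneg (mul_nonneg hd hd) hY]

/-- One ball of arbitrary capacity `a 0 < R` together with any number of small balls: for every
`δ > 0` there is `ε > 0` such that the balls pack as soon as the small ones have capacities
at most `ε * (R - a 0)` and total volume at most `1 - δ` times the volume left over by the
big ball. -/
theorem big_dust_packing (n : ℕ) (hn : 2 ≤ n) (δ : ℝ) (hδ : 0 < δ) :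
    ∃ ε : ℝ, 0 < ε ∧ ∀ (k : ℕ) (R : ℝ) (a : Fin (k + 1) → ℝ), (∀ i, 0 < a i) → a 0 < R →
      (∀ i, i ≠ 0 → a i ≤ ε * (R - a 0)) →
      ∑ i, a i ^ n ≤ a 0 ^ n + (1 - δ) * (R ^ n - a 0 ^ n) → Packing n (k + 1) R a := by
  obtain ⟨δ₁, hδ₁, hδ₁le, hδ₁half⟩ : ∃ δ₁ : ℝ, 0 < δ₁ ∧ δ₁ ≤ δ ∧ δ₁ ≤ 1 / 2 :=
    ⟨min δ (1 / 2), lt_min hδ (by norm_num), min_le_left _ _, min_le_right _ _⟩
  obtain ⟨εd, hεd, hdust⟩ := dust_packing n hn (δ₁ / 4) (by positivity)
  have hn0 : 0 < n := by omega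
  have hnR : (2 : ℝ) ≤ n := by exact_mod_cast hn
  obtain ⟨θ, hθdef⟩ : ∃ θ : ℝ, θ = δ₁ / (4 * n) := ⟨_, rfl⟩
  obtain ⟨η, hηdef⟩ : ∃ η : ℝ, η = δ₁ / (8 * n) := ⟨_, rfl⟩
  have hθ0 : 0 < θ := by
    rw [hθdef]
    positivity
  have hη0 : 0 < η := by
    rw [hηdef]
    positivity
  have hnθ : (n : ℝ) * θ = δ₁ / 4 := by
    rw [hθdef]
    field_simp
  have hnη : (n : ℝ) * η = δ₁ / 8 := by
    rw [hηdef]
    field_simp
  have hθle : θ ≤ 1 / 16 := by
    nlinarith [mul_nonneg (sub_nonneg.mpr hnR) hθ0.le]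
  have hηle : η ≤ 1 / 32 := by
    nlinarith [mul_nonneg (sub_nonneg.mpr hnR) hη0.le]
  obtain ⟨ε₁, hε₁0, hε₁a, hε₁b⟩ : ∃ ε₁ : ℝ, 0 < ε₁ ∧ ε₁ ≤ δ₁ / 8 ∧ ε₁ ≤ εd * (1 - η) :=
    ⟨min (δ₁ / 8) (εd * (1 - η)), lt_min (by positivity) (mul_pos hεd (by linarith)),
      min_le_left _ _, min_le_right _ _⟩
  refine ⟨θ * ε₁ / 2, by positivity, ?_⟩
  intro k R a ha haR hsmall hvol
  have ha0 := ha 0
  have hD : 0 < R - a 0 := by linarith
  have hR : 0 < R := by linarith
  obtain ⟨X, hXdef⟩ : ∃ X : ℝ, X = θ * (R - a 0) := ⟨_, rfl⟩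
  have hX0 : 0 < X := by
    rw [hXdef]
    positivity
  have hX16 : 16 * X ≤ R - a 0 := by
    rw [hXdef]
    nlinarith [mul_le_mul_of_nonneg_right hθle hD.le]
  have hXR : X ≤ R := by linarith
  obtain ⟨m, hm1, hm2⟩ : ∃ m : ℕ, R / X ≤ m ∧ (m : ℝ) < R / X + 1 :=
    ⟨⌈R / X⌉₊, Nat.le_ceil _, Nat.ceil_lt_add_one (by positivity)⟩
  have hRX : 1 ≤ R / X := by
    rw [le_div_iff₀ hX0]
    linarith
  have hmpos : (0 : ℝ) < m := by linarith
  have hmX1 : R ≤ m * X := (div_le_iff₀ hX0).mp hm1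
  have hmX2 : (m : ℝ) * X < R + X := by
    have h1 : (m : ℝ) * X < (R / X + 1) * X := mul_lt_mul_of_pos_right hm2 hX0
    have h2 : (R / X + 1) * X = R + X := by field_simp
    linarith
  obtain ⟨t, htdef⟩ : ∃ t : ℝ, t = R / m := ⟨_, rfl⟩
  have ht : 0 < t := by
    rw [htdef]
    positivity
  have hmt : (m : ℝ) * t = R := by
    rw [htdef]
    field_simp
  have htX : t ≤ X := by
    have h1 : (m : ℝ) * t ≤ m * X := by
      rw [hmt]
      exact hmX1
    exact le_of_mul_le_mul_left h1 hmpos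
  have hXt : X ≤ 2 * t := by
    have h1 : (m : ℝ) * X ≤ m * (2 * t) := by
      have h2 : (m : ℝ) * (2 * t) = 2 * R := by
        rw [← hmt]
        ring
      rw [h2]
      linarith
    exact le_of_mul_le_mul_left h1 hmpos
  obtain ⟨s, hs1, hs2⟩ : ∃ s : ℕ, a 0 < s * t ∧ (s : ℝ) * t ≤ a 0 + t := by
    refine ⟨⌊a 0 / t⌋₊ + 1, ?_, ?_⟩
    · have h1 := Nat.lt_floor_add_one (a 0 / t)
      rw [div_lt_iff₀ ht] at h1
      push_cast
      exact h1
    · have h1 := Nat.floor_le (div_nonneg ha0.le ht.le)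
      rw [le_div_iff₀ ht] at h1
      push_cast
      linarith
  have hsm1 : s + 1 ≤ m := by
    have h1 : (s : ℝ) * t + t ≤ m * t := by
      rw [hmt]
      linarith
    have h2 : ((s : ℝ) + 1) * t ≤ m * t := by linarith
    have h3 : (s : ℝ) + 1 ≤ m := le_of_mul_le_mul_right h2 ht
    exact_mod_cast h3
  have hne : Nonempty {κ : Fin n → Fin m // ∃ p, s ≤ (κ p).val} :=
    ⟨⟨fun _ => ⟨s, by omega⟩, ⟨⟨0, hn0⟩, le_refl _⟩⟩⟩
  obtain ⟨τ, hτdef⟩ : ∃ τ : ℝ, τ = (1 - η) * t := ⟨_, rfl⟩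
  have hτ0 : 0 < τ := by
    rw [hτdef]
    exact mul_pos (by linarith) ht
  have hτt : τ < t := by
    rw [hτdef]
    nlinarith
  have htn : 0 < t ^ n := pow_pos ht n
  have hsmall1 : ∀ i, i ≠ 0 → a i ≤ ε₁ * t := by
    intro i hi
    calc a i ≤ θ * ε₁ / 2 * (R - a 0) := hsmall i hi
      _ = ε₁ * (X / 2) := by
          rw [hXdef]
          ring
      _ ≤ ε₁ * t := mul_le_mul_of_nonneg_left (by linarith) hε₁0.le
  refine big_dust_explicit hn0 (δ₁ / 4) εd hdust m s (by omega) t τ R (δ₁ / 8 * t ^ n) ht hmt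
    hτ0 hτt (by positivity) a ha hs1 ?_ ?_ hne ?_
  · intro i hi
    calc a i ≤ ε₁ * t := hsmall1 i hi
      _ ≤ εd * (1 - η) * t := mul_le_mul_of_nonneg_right hε₁b ht.le
      _ = εd * τ := by
          rw [hτdef]
          ring
  · intro i hi
    calc a i ^ n ≤ (ε₁ * t) ^ n := pow_le_pow_left₀ (ha i).le (hsmall1 i hi) n
      _ = ε₁ ^ n * t ^ n := mul_pow _ _ _
      _ ≤ ε₁ * t ^ n :=
          mul_le_mul_of_nonneg_right (pow_le_of_le_one hε₁0.le (by linarith) (by omega)) htn.le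
      _ ≤ δ₁ / 8 * t ^ n := mul_le_mul_of_nonneg_right hε₁a htn.le
  · have hRa : 0 ≤ R ^ n - a 0 ^ n := by
      have h0 := pow_le_pow_left₀ ha0.le haR.le n
      linarith
    have h1 : ∑ i, a i ^ n - a 0 ^ n ≤ (1 - δ₁) * (R ^ n - a 0 ^ n) := by
      have h0 : (1 - δ) * (R ^ n - a 0 ^ n) ≤ (1 - δ₁) * (R ^ n - a 0 ^ n) :=
        mul_le_mul_of_nonneg_right (by linarith) hRa
      linarith
    have h2 := shell_volume n (by omega) R (a 0) t (δ₁ / 4) ha0.le ht (by linarith) (by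
      calc (n : ℝ) * t ≤ n * X := mul_le_mul_of_nonneg_left htX (by positivity)
        _ = (n * θ) * (R - a 0) := by
            rw [hXdef]
            ring
        _ = δ₁ / 4 * (R - a 0) := by rw [hnθ])
    have h3 := shell_card n m s
    obtain ⟨N, hN⟩ : ∃ N : ℝ,
        N = (Fintype.card {κ : Fin n → Fin m // ∃ p, s ≤ (κ p).val} : ℝ) := ⟨_, rfl⟩
    have h3' : (m : ℝ) ^ n ≤ N + (s : ℝ) ^ n := by
      rw [hN]
      exact_mod_cast h3
    have hN0 : 0 ≤ N := by
      rw [hN]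
      positivity
    have h4 : R ^ n - (a 0 + t) ^ n ≤ N * t ^ n := by
      have e1 : R ^ n = (m : ℝ) ^ n * t ^ n := by rw [← mul_pow, hmt]
      have e2 : ((s : ℝ) * t) ^ n ≤ (a 0 + t) ^ n := pow_le_pow_left₀ (by positivity) hs2 n
      have e3 : ((s : ℝ) * t) ^ n = (s : ℝ) ^ n * t ^ n := mul_pow _ _ _
      have e4 := mul_le_mul_of_nonneg_right h3' htn.le
      linarith
    have h5 : (1 - δ₁ / 2) * t ^ n ≤ (1 - δ₁ / 4) * τ ^ n - δ₁ / 8 * t ^ n := by
      have hb : 1 + (n : ℝ) * (-η) ≤ (1 + (-η)) ^ n := one_add_mul_le_pow (by linarith) n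
      have hb' : 1 - δ₁ / 8 ≤ (1 - η) ^ n := by
        have e1 : 1 + (n : ℝ) * (-η) = 1 - δ₁ / 8 := by
          rw [mul_neg, hnη]
          ring
        have e2 : (1 + (-η)) = 1 - η := by ring
        rw [e1, e2] at hb
        exact hb
      have e3 : τ ^ n = (1 - η) ^ n * t ^ n := by rw [hτdef, mul_pow]
      rw [e3]
      have e4 : (1 - δ₁ / 4) * (1 - δ₁ / 8) ≤ (1 - δ₁ / 4) * (1 - η) ^ n :=
        mul_le_mul_of_nonneg_left hb' (by linarith)
      have e5 : (1 - δ₁ / 2) ≤ (1 - δ₁ / 4) * (1 - η) ^ n - δ₁ / 8 := by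
        linarith only [e4, big_dust_arith1 δ₁]
      calc (1 - δ₁ / 2) * t ^ n ≤ ((1 - δ₁ / 4) * (1 - η) ^ n - δ₁ / 8) * t ^ n :=
            mul_le_mul_of_nonneg_right e5 htn.le
        _ = (1 - δ₁ / 4) * ((1 - η) ^ n * t ^ n) - δ₁ / 8 * t ^ n := by ring
    rw [← hN]
    calc ∑ i, a i ^ n - a 0 ^ n ≤ (1 - δ₁) * (R ^ n - a 0 ^ n) := h1
      _ ≤ (1 - δ₁ / 2) * ((1 - δ₁ / 4) * (R ^ n - a 0 ^ n)) :=
          big_dust_arith2 δ₁ (R ^ n - a 0 ^ n) hδ₁.le hRa
      _ ≤ (1 - δ₁ / 2) * (R ^ n - (a 0 + t) ^ n) :=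
          mul_le_mul_of_nonneg_left h2 (by linarith)
      _ ≤ (1 - δ₁ / 2) * (N * t ^ n) := mul_le_mul_of_nonneg_left h4 (by linarith)
      _ = N * ((1 - δ₁ / 2) * t ^ n) := by ring
      _ ≤ N * ((1 - δ₁ / 4) * τ ^ n - δ₁ / 8 * t ^ n) := mul_le_mul_of_nonneg_left h5 hN0

end Vale.Agent.Lib.P209
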