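import Mathlib

namespace Vale.Agent.Lib.P209

/-- Counting maps from Fin n to Fin m with m = s0 + s1 and s1 at most s0: the maps that take
somewhere a value of size at least s0 and somewhere a value in the middle band from s1 to s0,
together with s0 ^ n + (2 * s1) ^ n further ones, are at least m ^ n + s1 ^ n. -/
theorem coarse_fine_card (n m s0 s1 : ℕ) (hm : s0 + s1 = m) (hs : s1 ≤ s0) : m ^ n + s1 ^ n ≤ Fintype.card {κ : Fin n → Fin m // (∃ p, s0 ≤ (κ p).val) ∧ (∃ p, s1 ≤ (κ p).val ∧ (κ p).val < s0)} + s0 ^ n + (2 * s1) ^ n := by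
  let G : (Fin n → Fin m) →
      {κ : Fin n → Fin m // (∃ p, s0 ≤ (κ p).val) ∧ (∃ p, s1 ≤ (κ p).val ∧ (κ p).val < s0)} ⊕
        ((Fin n → Fin s0) ⊕ (Fin n → Fin (2 * s1))) :=
    fun κ => if h : (∃ p, s0 ≤ (κ p).val) ∧ (∃ p, s1 ≤ (κ p).val ∧ (κ p).val < s0) then
        Sum.inl ⟨κ, h⟩
      else if h0 : ∃ p, s0 ≤ (κ p).val then
        Sum.inr (Sum.inr (fun p =>
          ⟨if (κ p).val < s1 then (κ p).val else (κ p).val + s1 - s0, by
            have h2 : ¬ (s1 ≤ (κ p).val ∧ (κ p).val < s0) := fun h2 => h ⟨h0, ⟨p, h2⟩⟩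
            have h3 := (κ p).isLt
            split_ifs <;> omega⟩))
      else Sum.inr (Sum.inl (fun p => ⟨(κ p).val, by
        by_contra hc
        exact h0 ⟨p, not_lt.mp hc⟩⟩))
  let H : (Fin n → Fin s1) →
      {κ : Fin n → Fin m // (∃ p, s0 ≤ (κ p).val) ∧ (∃ p, s1 ≤ (κ p).val ∧ (κ p).val < s0)} ⊕
        ((Fin n → Fin s0) ⊕ (Fin n → Fin (2 * s1))) :=
    fun f => Sum.inr (Sum.inr (fun p => ⟨(f p).val, by
      have h3 := (f p).isLt
      omega⟩))
  have hGG : ∀ κ κ' : Fin n → Fin m, G κ = G κ' → κ = κ' := by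
    intro κ κ' hk
    by_cases h : (∃ p, s0 ≤ (κ p).val) ∧ (∃ p, s1 ≤ (κ p).val ∧ (κ p).val < s0)
    · by_cases h' : (∃ p, s0 ≤ (κ' p).val) ∧ (∃ p, s1 ≤ (κ' p).val ∧ (κ' p).val < s0)
      · simp only [G, dif_pos h, dif_pos h'] at hk
        exact congrArg Subtype.val (Sum.inl.inj hk)
      · by_cases h0' : ∃ p, s0 ≤ (κ' p).val
        · simp only [G, dif_pos h, dif_neg h', dif_pos h0'] at hk
          exact absurd hk (by simp)
        · simp only [G, dif_pos h, dif_neg h', dif_neg h0'] at hk
          exact absurd hk (by simp)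
    · by_cases h0 : ∃ p, s0 ≤ (κ p).val
      · by_cases h' : (∃ p, s0 ≤ (κ' p).val) ∧ (∃ p, s1 ≤ (κ' p).val ∧ (κ' p).val < s0)
        · simp only [G, dif_neg h, dif_pos h0, dif_pos h'] at hk
          exact absurd hk (by simp)
        · by_cases h0' : ∃ p, s0 ≤ (κ' p).val
          · simp only [G, dif_neg h, dif_pos h0, dif_neg h', dif_pos h0'] at hk
            have h2 := Sum.inr.inj (Sum.inr.inj hk)
            funext p
            have h3 : (if (κ p).val < s1 then (κ p).val else (κ p).val + s1 - s0) =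
                (if (κ' p).val < s1 then (κ' p).val else (κ' p).val + s1 - s0) :=
              congrArg Fin.val (congrFun h2 p)
            have h4 : ¬ (s1 ≤ (κ p).val ∧ (κ p).val < s0) := fun h4 => h ⟨h0, ⟨p, h4⟩⟩
            have h4' : ¬ (s1 ≤ (κ' p).val ∧ (κ' p).val < s0) := fun h4 => h' ⟨h0', ⟨p, h4⟩⟩
            have h5 := (κ p).isLt
            have h5' := (κ' p).isLt
            apply Fin.ext
            split_ifs at h3 <;> omega
          · simp only [G, dif_neg h, dif_pos h0, dif_neg h', dif_neg h0'] at hk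
            exact absurd hk (by simp)
      · by_cases h' : (∃ p, s0 ≤ (κ' p).val) ∧ (∃ p, s1 ≤ (κ' p).val ∧ (κ' p).val < s0)
        · simp only [G, dif_neg h, dif_neg h0, dif_pos h'] at hk
          exact absurd hk (by simp)
        · by_cases h0' : ∃ p, s0 ≤ (κ' p).val
          · simp only [G, dif_neg h, dif_neg h0, dif_neg h', dif_pos h0'] at hk
            exact absurd hk (by simp)
          · simp only [G, dif_neg h, dif_neg h0, dif_neg h', dif_neg h0'] at hk
            have h2 := Sum.inl.inj (Sum.inr.inj hk)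
            funext p
            have h3 := congrArg Fin.val (congrFun h2 p)
            exact Fin.ext h3
  have hHH : ∀ f f' : Fin n → Fin s1, H f = H f' → f = f' := by
    intro f f' hk
    simp only [H] at hk
    have h2 := Sum.inr.inj (Sum.inr.inj hk)
    funext p
    have h3 := congrArg Fin.val (congrFun h2 p)
    exact Fin.ext h3
  have hGH : ∀ (κ : Fin n → Fin m) (f : Fin n → Fin s1), G κ ≠ H f := by
    intro κ f hk
    by_cases h : (∃ p, s0 ≤ (κ p).val) ∧ (∃ p, s1 ≤ (κ p).val ∧ (κ p).val < s0)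
    · simp only [G, H, dif_pos h] at hk
      exact absurd hk (by simp)
    · by_cases h0 : ∃ p, s0 ≤ (κ p).val
      · simp only [G, H, dif_neg h, dif_pos h0] at hk
        have h2 := Sum.inr.inj (Sum.inr.inj hk)
        obtain ⟨p, hp⟩ := h0
        have h3 : (if (κ p).val < s1 then (κ p).val else (κ p).val + s1 - s0) = (f p).val :=
          congrArg Fin.val (congrFun h2 p)
        have h4 := (f p).isLt
        have h5 := (κ p).isLt
        split_ifs at h3 <;> omega
      · simp only [G, H, dif_neg h, dif_neg h0] at hk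
        exact absurd hk (by simp)
  have hinj : Function.Injective (Sum.elim G H) := by
    rintro (κ | f) (κ' | f') hk
    · simp only [Sum.elim_inl] at hk
      exact congrArg Sum.inl (hGG κ κ' hk)
    · simp only [Sum.elim_inl, Sum.elim_inr] at hk
      exact absurd hk (hGH κ f')
    · simp only [Sum.elim_inl, Sum.elim_inr] at hk
      exact absurd hk.symm (hGH κ' f)
    · simp only [Sum.elim_inr] at hk
      exact congrArg Sum.inr (hHH f f' hk)
  have hcard := Fintype.card_le_of_injective (Sum.elim G H) hinj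
  simp only [Fintype.card_sum, Fintype.card_fun, Fintype.card_fin] at hcard
  exact le_of_le_of_eq hcard (add_assoc _ _ _).symm

end Vale.Agent.Lib.P209
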