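import Mathlib

namespace Vale.Agent.Lib.P209

/-- Corner inequality for powers: for 0 ≤ y ≤ x,
x ^ n + (2 ^ n - 1) * y ^ n ≤ (x + y) ^ n. -/
theorem pow_corner_le (n : ℕ) (x y : ℝ) (hy : 0 ≤ y) (hyx : y ≤ x) :
    x ^ n + ((2 : ℝ) ^ n - 1) * y ^ n ≤ (x + y) ^ n := by
  induction n with
  | zero => simp
  | succ n ih =>
    have h2 : (0 : ℝ) ≤ (2 : ℝ) ^ n - 1 := by
      have h21 : (1 : ℝ) ≤ (2 : ℝ) ^ n := one_le_pow₀ (by norm_num)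
      linarith
    have hyn : 0 ≤ y ^ n := pow_nonneg hy n
    have hxn : y ^ n ≤ x ^ n := pow_le_pow_left₀ hy hyx n
    have hxy : 0 ≤ x + y := by linarith
    have h1 : (x + y) * (x ^ n + ((2 : ℝ) ^ n - 1) * y ^ n) ≤ (x + y) * (x + y) ^ n :=
      mul_le_mul_of_nonneg_left ih hxy
    have h3 : y * y ^ n ≤ x * y ^ n := mul_le_mul_of_nonneg_right hyx hyn
    have h4 : y * y ^ n ≤ y * x ^ n := mul_le_mul_of_nonneg_left hxn hy
    have h5 : ((2 : ℝ) ^ n - 1) * (y * y ^ n) ≤ ((2 : ℝ) ^ n - 1) * (x * y ^ n) :=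
      mul_le_mul_of_nonneg_left h3 h2
    rw [pow_succ, pow_succ, pow_succ, pow_succ]
    nlinarith [h1, h4, h5]

/-- Gap inequality for powers: for 0 ≤ G ≤ R and 1 ≤ n,
G * R ^ (n - 1) ≤ R ^ n - (R - G) ^ n. -/
theorem pow_gap_le (n : ℕ) (hn : 1 ≤ n) (R G : ℝ) (hG : 0 ≤ G) (hGR : G ≤ R) :
    G * R ^ (n - 1) ≤ R ^ n - (R - G) ^ n := by
  obtain ⟨k, rfl⟩ : ∃ k, n = k + 1 := ⟨n - 1, by omega⟩
  rw [Nat.add_sub_cancel]
  have hs : 0 ≤ R - G := by linarith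
  have hsR : R - G ≤ R := by linarith
  have hk : (R - G) ^ k ≤ R ^ k := pow_le_pow_left₀ hs hsR k
  have h : 0 ≤ (R - G) * (R ^ k - (R - G) ^ k) := mul_nonneg hs (by linarith)
  rw [pow_succ, pow_succ]
  nlinarith [h]

end Vale.Agent.Lib.P209
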