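import Vale.Agent.Lib.P209.Assemble
import Vale.Agent.Lib.P209.CoarseFineCount
import Vale.Agent.Lib.P209.PowCorner

/-!
# Two coarse bands refined by fine bands

The moment simplex of the ball of capacity `R = m t` is cut by two coarse bands of lengths
`s0 t ≥ s1 t` into `2 ^ n` coarse simplices (one of size `s0 t`, the others of size `s1 t`)
and a remainder, which is a union of simplices of size `t` of the fine subdivision.
-/

namespace Vale.Agent.Lib.P209

open Finset

/-- partial-sum coordinates of the points of the simplex of a colouring -/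
theorem bandSet_y {n m : ℕ} {b : Fin m → ℝ} {κ : Fin n → Fin m} {s : ℝ} {x : Fin n → ℝ}
    (hx : x ∈ bandSet b κ s) :
    ∃ y : Fin n → ℝ, dmap y = x ∧ ∀ i, bandOff b (κ (Tuple.sort κ i)) < y i ∧
      y i < bandOff b (κ (Tuple.sort κ i)) + s := by
  obtain ⟨y, ⟨w, ⟨hw0, hws, -⟩, hyw⟩, rfl⟩ := hx
  refine ⟨y, rfl, fun i => ?_⟩
  have h1 := hyw i
  have h2 := hw0 (Tuple.sort κ i)
  have h3 := hws (Tuple.sort κ i)
  have h5 : offK b κ i = bandOff b (κ (Tuple.sort κ i)) := rfl
  constructor <;> linarith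

/-- The `2 ^ n` coarse simplices of two bands of lengths `s0 t ≥ s1 t` together with the fine
simplices of size `t` in the remainder. -/
theorem packing_coarse_fine {n : ℕ} (hn : 0 < n) (m s0 s1 : ℕ) (hm : s0 + s1 = m)
    (hs : s1 ≤ s0) (t C0 C1 τ : ℝ) (ht : 0 < t) (hC0 : 0 < C0) (hC0' : C0 < s0 * t)
    (hC1 : 0 < C1) (hC1' : C1 < s1 * t) (hτ0 : 0 < τ) (hτ : τ < t) :
    PackingInto n (capOpenBall n (m * t))
      (fun j : (Fin n → Fin 2) ⊕ {κ : Fin n → Fin m //
          (∃ p, s0 ≤ (κ p).val) ∧ (∃ p, s1 ≤ (κ p).val ∧ (κ p).val < s0)} =>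
        Sum.elim (fun κc : Fin n → Fin 2 => if κc = 0 then C0 else C1) (fun _ => τ) j) := by
  classical
  have hs10 : (s1 : ℝ) * t ≤ s0 * t :=
    mul_le_mul_of_nonneg_right (by exact_mod_cast hs) ht.le
  have hs1R : (0 : ℝ) ≤ s1 * t := by positivity
  have hmt : (m : ℝ) * t = s0 * t + s1 * t := by
    rw [← hm]
    push_cast
    ring
  obtain ⟨bc, hbc0, hbc1⟩ : ∃ bc : Fin 2 → ℝ, bc 0 = s0 * t ∧ bc 1 = s1 * t :=
    ⟨fun c => if c = 0 then s0 * t else s1 * t, by simp, by simp⟩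
  have hbc : ∀ c, 0 ≤ bc c := by
    intro c
    rcases Fin.exists_fin_two.mp ⟨c, rfl⟩ with h | h
    · rw [h, hbc0]
      positivity
    · rw [h, hbc1]
      positivity
  have hbcsum : ∑ c, bc c = m * t := by
    rw [Fin.sum_univ_two, hbc0, hbc1, hmt]
  have hoff0 : bandOff bc 0 = 0 := by
    unfold bandOff
    simp
  have hoff1 : bandOff bc 1 = s0 * t := by
    unfold bandOff
    rw [Fin.sum_univ_two]
    simp [hbc0]
  have hbt : ∀ j : Fin m, 0 ≤ (fun _ : Fin m => t) j := fun _ => ht.le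
  have hsumt : ∑ _j : Fin m, t = m * t := by
    rw [Finset.sum_const, Finset.card_univ, Fintype.card_fin, nsmul_eq_mul]
  obtain ⟨sz, hsz⟩ : ∃ sz : (Fin n → Fin 2) → ℝ,
      ∀ κc, sz κc = if κc = 0 then s0 * t else s1 * t := ⟨_, fun _ => rfl⟩
  have hszle : ∀ (κc : Fin n → Fin 2) (p : Fin n), sz κc ≤ bc (κc p) := by
    intro κc p
    rw [hsz]
    by_cases h : κc = 0
    · rw [if_pos h, h]
      show (s0 : ℝ) * t ≤ bc 0
      rw [hbc0]
    · rw [if_neg h]
      rcases Fin.exists_fin_two.mp ⟨κc p, rfl⟩ with h2 | h2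
      · rw [h2, hbc0]
        exact hs10
      · rw [h2, hbc1]
  -- coordinates of the points of the three kinds of cells
  have F1 : ∀ X : Fin n → ℝ, X ∈ bandSet bc (0 : Fin n → Fin 2) (sz 0) →
      ∃ y : Fin n → ℝ, dmap y = X ∧ ∀ i, y i < s0 * t := by
    intro X hX
    obtain ⟨y, hy, hyi⟩ := bandSet_y hX
    refine ⟨y, hy, fun i => ?_⟩
    have h1 := (hyi i).2
    have h2 : (0 : Fin n → Fin 2) (Tuple.sort (0 : Fin n → Fin 2) i) = 0 := rfl
    rw [h2, hoff0, hsz, if_pos rfl] at h1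
    linarith
  have F2 : ∀ (κc : Fin n → Fin 2), κc ≠ 0 → ∀ X : Fin n → ℝ, X ∈ bandSet bc κc (sz κc) →
      ∃ y : Fin n → ℝ, dmap y = X ∧ ∀ i, y i < s1 * t ∨ s0 * t < y i := by
    intro κc hκc X hX
    obtain ⟨y, hy, hyi⟩ := bandSet_y hX
    refine ⟨y, hy, fun i => ?_⟩
    have h1 := hyi i
    rw [hsz, if_neg hκc] at h1
    rcases Fin.exists_fin_two.mp ⟨κc (Tuple.sort κc i), rfl⟩ with h2 | h2
    · rw [h2, hoff0] at h1
      left
      linarith [h1.2]
    · rw [h2, hoff1] at h1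
      right
      exact h1.1
  have F3 : ∀ (κ : {κ : Fin n → Fin m //
      (∃ p, s0 ≤ (κ p).val) ∧ (∃ p, s1 ≤ (κ p).val ∧ (κ p).val < s0)}) (X : Fin n → ℝ),
      X ∈ bandSet (fun _ : Fin m => t) κ.1 t →
      ∃ y : Fin n → ℝ, dmap y = X ∧ (∃ i, s0 * t < y i) ∧
        (∃ i, s1 * t < y i ∧ y i < s0 * t) := by
    intro κ X hX
    obtain ⟨y, hy, hyi⟩ := bandSet_y hX
    refine ⟨y, hy, ?_, ?_⟩
    · obtain ⟨p, hp⟩ := κ.2.1
      refine ⟨(Tuple.sort κ.1).symm p, ?_⟩
      have h1 := (hyi ((Tuple.sort κ.1).symm p)).1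
      rw [Equiv.apply_symm_apply, bandOff_const] at h1
      have h2 : (s0 : ℝ) * t ≤ ((κ.1 p).val : ℝ) * t :=
        mul_le_mul_of_nonneg_right (by exact_mod_cast hp) ht.le
      linarith
    · obtain ⟨p, hp1, hp2⟩ := κ.2.2
      refine ⟨(Tuple.sort κ.1).symm p, ?_, ?_⟩
      · have h1 := (hyi ((Tuple.sort κ.1).symm p)).1
        rw [Equiv.apply_symm_apply, bandOff_const] at h1
        have h2 : (s1 : ℝ) * t ≤ ((κ.1 p).val : ℝ) * t :=
          mul_le_mul_of_nonneg_right (by exact_mod_cast hp1) ht.le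
        linarith
      · have h1 := (hyi ((Tuple.sort κ.1).symm p)).2
        rw [Equiv.apply_symm_apply, bandOff_const] at h1
        have h3 : (((κ.1 p).val : ℝ) + 1) * t ≤ (s0 : ℝ) * t := by
          apply mul_le_mul_of_nonneg_right _ ht.le
          have h4 : (κ.1 p).val + 1 ≤ s0 := hp2
          exact_mod_cast h4
        linarith
  have key : ∀ (κc : Fin n → Fin 2) (κ : {κ : Fin n → Fin m //
      (∃ p, s0 ≤ (κ p).val) ∧ (∃ p, s1 ≤ (κ p).val ∧ (κ p).val < s0)}) (X : Fin n → ℝ),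
      X ∈ bandSet bc κc (sz κc) → X ∈ bandSet (fun _ : Fin m => t) κ.1 t → False := by
    intro κc κ X hX hX'
    obtain ⟨y', hy', ⟨i1, hi1⟩, ⟨i2, hi2, hi2'⟩⟩ := F3 κ X hX'
    by_cases h : κc = 0
    · rw [h] at hX
      obtain ⟨y, hy, hyi⟩ := F1 X hX
      have hyy : y = y' := dmap_injective (hy.trans hy'.symm)
      rw [hyy] at hyi
      linarith [hyi i1]
    · obtain ⟨y, hy, hyi⟩ := F2 κc h X hX
      have hyy : y = y' := dmap_injective (hy.trans hy'.symm)
      rw [hyy] at hyi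
      rcases hyi i2 with h1 | h1 <;> linarith
  apply packingInto_of_goodEmb
    (fun j : (Fin n → Fin 2) ⊕ {κ : Fin n → Fin m //
        (∃ p, s0 ≤ (κ p).val) ∧ (∃ p, s1 ≤ (κ p).val ∧ (κ p).val < s0)} =>
      Sum.elim (fun κc : Fin n → Fin 2 => bandSet bc κc (sz κc))
        (fun κ => bandSet (fun _ : Fin m => t) κ.1 t) j)
  · intro j
    cases j with
    | inl κc =>
      show ∃ Ψ, GoodEmb n (if κc = 0 then C0 else C1) Ψ (bandSet bc κc (sz κc))
      by_cases h : κc = 0
      · rw [if_pos h]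
        apply goodEmb_band hbc hC0.le _ (hszle κc)
        rw [hsz, if_pos h]
        exact hC0'
      · rw [if_neg h]
        apply goodEmb_band hbc hC1.le _ (hszle κc)
        rw [hsz, if_neg h]
        exact hC1'
    | inr κ => exact goodEmb_band hbt hτ0.le hτ (fun _ => le_refl t)
  · intro j X hX
    cases j with
    | inl κc =>
      have h1 := (bandSet_sub hn hbc (hszle κc)
        (show X ∈ bandSet bc κc (sz κc) from hX)).2
      rw [hbcsum] at h1
      exact h1
    | inr κ =>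
      have h1 := (bandSet_sub hn hbt (fun _ => le_refl t)
        (show X ∈ bandSet (fun _ : Fin m => t) κ.1 t from hX)).2
      rw [hsumt] at h1
      exact h1
  · intro j j' hne
    rw [Set.disjoint_left]
    intro X hX hX'
    cases j with
    | inl κc =>
      cases j' with
      | inl κc' =>
        have hd := bandSet_disjoint hbc (κ := κc) (κ' := κc') (hszle κc) (hszle κc')
          (fun h => hne (by rw [h]))
        exact Set.disjoint_left.mp hd hX hX'
      | inr κ' => exact key κc κ' X hX hX'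
    | inr κ =>
      cases j' with
      | inl κc' => exact key κc' κ X hX' hX
      | inr κ' =>
        have hd := bandSet_disjoint hbt (κ := κ.1) (κ' := κ'.1) (fun _ => le_refl t)
          (fun _ => le_refl t) (fun h => hne (by rw [Subtype.ext h]))
        exact Set.disjoint_left.mp hd hX hX'

end Vale.Agent.Lib.P209
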