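import Vale.Agent.Lib.P209.Defs

/-!
# Composition of symplectic embeddings of balls and refinement of packings
-/

namespace Vale.Agent.Lib.P209

/-- the composition of a symplectic embedding of the ball of capacity `r` whose image lies in
the closed ball of capacity `r'` with a symplectic embedding of that ball -/
theorem IsSympEmb.comp {n : ℕ} {r r' : ℝ} {F g : (Fin n → ℂ) → (Fin n → ℂ)}
    (hF : IsSympEmb n r' F) (hg : IsSympEmb n r g)
    (himg : g '' capBall n r ⊆ capBall n r') : IsSympEmb n r (F ∘ g) := by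
  obtain ⟨U, hU, hBU, hFs, hFi, hFω⟩ := hF
  obtain ⟨W, hW, hBW, hgs, hgi, hgω⟩ := hg
  have hmaps : Set.MapsTo g (W ∩ g ⁻¹' U) U := fun z hz => hz.2
  refine ⟨W ∩ g ⁻¹' U, hgs.continuousOn.isOpen_inter_preimage hW hU, ?_, ?_, ?_, ?_⟩
  · intro z hz
    exact ⟨hBW hz, hBU (himg (Set.mem_image_of_mem g hz))⟩
  · exact hFs.comp (hgs.mono Set.inter_subset_left) hmaps
  · exact hFi.comp (hgi.mono Set.inter_subset_left) hmaps
  · intro z hz u w
    have h1 : DifferentiableAt ℝ F (g z) :=
      (hFs.contDiffAt (hU.mem_nhds hz.2)).differentiableAt (by simp)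
    have h2 : DifferentiableAt ℝ g z :=
      (hgs.contDiffAt (hW.mem_nhds hz.1)).differentiableAt (by simp)
    rw [fderiv_comp z h1 h2]
    simp only [ContinuousLinearMap.comp_apply]
    rw [hFω (g z) hz.2, hgω z hz.1]

/-- the identity is a symplectic embedding of every ball -/
theorem isSympEmb_id (n : ℕ) (r : ℝ) : IsSympEmb n r id := by
  refine ⟨Set.univ, isOpen_univ, Set.subset_univ _, contDiffOn_id, Set.injOn_id _, ?_⟩
  intro z _ u w
  rw [fderiv_id]
  rfl

/-- A family of symplectic embeddings of closed balls of capacities `a i`, indexed by an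
arbitrary type, with pairwise disjoint images contained in a set `S`. -/
def PackingInto (n : ℕ) (S : Set (Fin n → ℂ)) {ι : Type} (a : ι → ℝ) : Prop :=
  ∃ f : ι → (Fin n → ℂ) → (Fin n → ℂ),
    (∀ i, IsSympEmb n (a i) (f i)) ∧
    (∀ i, f i '' capBall n (a i) ⊆ S) ∧
    (∀ i j, i ≠ j → Disjoint (f i '' capBall n (a i)) (f j '' capBall n (a j)))

theorem packing_iff_packingInto (n k : ℕ) (R : ℝ) (a : Fin k → ℝ) :
    Packing n k R a ↔ PackingInto n (capOpenBall n R) a := Iff.rfl

theorem capOpenBall_subset_capBall (n : ℕ) (R : ℝ) : capOpenBall n R ⊆ capBall n R := by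
  intro z hz
  exact le_of_lt (show Real.pi * ∑ j, ‖z j‖ ^ 2 < R from hz)

theorem PackingInto.mono {n : ℕ} {S S' : Set (Fin n → ℂ)} {ι : Type} {a : ι → ℝ}
    (h : PackingInto n S a) (hS : S ⊆ S') : PackingInto n S' a := by
  obtain ⟨f, h1, h2, h3⟩ := h
  exact ⟨f, h1, fun i => (h2 i).trans hS, h3⟩

theorem PackingInto.reindex {n : ℕ} {S : Set (Fin n → ℂ)} {ι ι' : Type} {a : ι → ℝ}
    (h : PackingInto n S a) (e : ι' → ι) (he : Function.Injective e) :
    PackingInto n S (a ∘ e) := by
  obtain ⟨f, h1, h2, h3⟩ := h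
  exact ⟨fun i => f (e i), fun i => h1 (e i), fun i => h2 (e i),
    fun i j hij => h3 (e i) (e j) (fun h => hij (he h))⟩

theorem PackingInto.of_isEmpty {n : ℕ} (S : Set (Fin n → ℂ)) {ι : Type} [IsEmpty ι]
    (a : ι → ℝ) : PackingInto n S a :=
  ⟨fun _ => id, fun i => isEmptyElim i, fun i => isEmptyElim i, fun i => isEmptyElim i⟩

/-- a single ball packs into every set containing it -/
theorem PackingInto.of_subsingleton {n : ℕ} (S : Set (Fin n → ℂ)) {ι : Type} [Subsingleton ι]
    (a : ι → ℝ) (h : ∀ i, capBall n (a i) ⊆ S) : PackingInto n S a := by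
  refine ⟨fun _ => id, fun i => isSympEmb_id n (a i), ?_, ?_⟩
  · intro i
    rw [Set.image_id]
    exact h i
  · intro i j hij
    exact absurd (Subsingleton.elim i j) hij

/-- Refinement: if the cells `a' i'` pack into `S` and, for every cell, the balls assigned to
it by `φ` pack into the closed ball of the capacity of the cell, then all the balls pack
into `S`. -/
theorem PackingInto.refine {n : ℕ} {S : Set (Fin n → ℂ)} {ι ι' : Type} {a : ι → ℝ}
    {a' : ι' → ℝ} (h : PackingInto n S a') (φ : ι → ι')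
    (hcell : ∀ i' : ι', PackingInto n (capBall n (a' i'))
      (fun x : {i : ι // φ i = i'} => a x.1)) : PackingInto n S a := by
  obtain ⟨F, hF1, hF2, hF3⟩ := h
  choose g hg1 hg2 hg3 using hcell
  refine ⟨fun i => F (φ i) ∘ g (φ i) ⟨i, rfl⟩, ?_, ?_, ?_⟩
  · intro i
    exact (hF1 (φ i)).comp (hg1 (φ i) ⟨i, rfl⟩) (hg2 (φ i) ⟨i, rfl⟩)
  · intro i
    rw [Set.image_comp]
    exact (Set.image_mono (hg2 (φ i) ⟨i, rfl⟩)).trans (hF2 (φ i))
  · intro i j hij
    rw [Set.image_comp, Set.image_comp]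
    by_cases hφ : φ i = φ j
    · obtain ⟨U, -, hBU, -, hinj, -⟩ := hF1 (φ j)
      have key : ∀ (i' : ι') (x y : {i : ι // φ i = i'}), x ≠ y →
          ∀ (U : Set (Fin n → ℂ)), capBall n (a' i') ⊆ U → Set.InjOn (F i') U →
          Disjoint (F i' '' (g i' x '' capBall n (a x.1)))
            (F i' '' (g i' y '' capBall n (a y.1))) := by
        intro i' x y hxy U hBU hinj
        rw [Set.disjoint_iff_inter_eq_empty,
          ← hinj.image_inter ((hg2 i' x).trans hBU) ((hg2 i' y).trans hBU),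
          Set.disjoint_iff_inter_eq_empty.mp (hg3 i' x y hxy), Set.image_empty]
      have hne : (⟨i, hφ⟩ : {l : ι // φ l = φ j}) ≠ ⟨j, rfl⟩ := by
        intro h
        exact hij (congrArg Subtype.val h)
      have h5 := key (φ j) ⟨i, hφ⟩ ⟨j, rfl⟩ hne U hBU hinj
      have h6 : ∀ (p : ι') (hp : φ i = p),
          F (φ i) '' (g (φ i) ⟨i, rfl⟩ '' capBall n (a i)) =
          F p '' (g p ⟨i, hp⟩ '' capBall n (a i)) := by
        intro p hp
        subst hp
        rfl
      rw [h6 (φ j) hφ]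
      exact h5
    · exact Set.disjoint_of_subset (Set.image_mono (hg2 (φ i) ⟨i, rfl⟩))
        (Set.image_mono (hg2 (φ j) ⟨j, rfl⟩)) (hF3 (φ i) (φ j) hφ)

end Vale.Agent.Lib.P209
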