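import Mathlib

/-!
# Symplectic embeddings of balls into `ℂ^n` and symplectic packings: definitions
-/

namespace Vale.Agent.Lib.P209

/-- The standard symplectic form `∑ dx_j ∧ dy_j` on `ℂ^n`, evaluated on two tangent vectors. -/
def omega (n : ℕ) (u w : Fin n → ℂ) : ℝ :=
  ∑ j, ((u j).re * (w j).im - (u j).im * (w j).re)

/-- The closed ball of capacity `R`: `π ∑ |z_j|^2 ≤ R`. -/
def capBall (n : ℕ) (R : ℝ) : Set (Fin n → ℂ) :=
  {z | Real.pi * ∑ j, ‖z j‖ ^ 2 ≤ R}

/-- The open ball of capacity `R`: `π ∑ |z_j|^2 < R`. -/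
def capOpenBall (n : ℕ) (R : ℝ) : Set (Fin n → ℂ) :=
  {z | Real.pi * ∑ j, ‖z j‖ ^ 2 < R}

/-- `f` restricts to a symplectic embedding of the closed ball of capacity `r`:
on some open neighbourhood `U` of the ball, `f` is smooth (of class `C^∞`), injective, and
its derivative preserves the standard symplectic form. -/
def IsSympEmb (n : ℕ) (r : ℝ) (f : (Fin n → ℂ) → (Fin n → ℂ)) : Prop :=
  ∃ U : Set (Fin n → ℂ), IsOpen U ∧ capBall n r ⊆ U ∧
    ContDiffOn ℝ ((⊤ : ℕ∞) : WithTop ℕ∞) f U ∧ Set.InjOn f U ∧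
    ∀ z ∈ U, ∀ u w : Fin n → ℂ, omega n (fderiv ℝ f z u) (fderiv ℝ f z w) = omega n u w

/-- A symplectic packing of the open ball of capacity `R` by closed balls of capacities
`a 0, ..., a (k-1)`: symplectic embeddings of the closed balls whose images are pairwise
disjoint and contained in the open ball. -/
def Packing (n k : ℕ) (R : ℝ) (a : Fin k → ℝ) : Prop :=
  ∃ f : Fin k → (Fin n → ℂ) → (Fin n → ℂ),
    (∀ i, IsSympEmb n (a i) (f i)) ∧
    (∀ i, f i '' capBall n (a i) ⊆ capOpenBall n R) ∧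
    (∀ i j, i ≠ j → Disjoint (f i '' capBall n (a i)) (f j '' capBall n (a j)))

end Vale.Agent.Lib.P209
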