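import Vale.Agent.Lib.P209.Symp

/-!
# An explicit area-preserving map pushing a closed disc off the origin

`discMap ρ ε (x + i y) = (x / v'(y) - ε) + i v(y)` with `v(y) = y + (ε/2) arctan (2 ρ y / ε^2)`.
It is a smooth area-preserving bijection of the plane; on the closed disc of radius `ρ`
it does not vanish and it increases `|z|^2` by at most `4 ε ρ + 2 ε^2`.
-/

namespace Vale.Agent.Lib.P209

noncomputable def dfun (ρ ε y : ℝ) : ℝ := 1 + (ρ / ε) / (1 + (2 * ρ * y / ε ^ 2) ^ 2)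

noncomputable def vfun (ρ ε y : ℝ) : ℝ := y + (ε / 2) * Real.arctan (2 * ρ * y / ε ^ 2)

noncomputable def discMap (ρ ε : ℝ) (z : ℂ) : ℂ :=
  ((z.re / dfun ρ ε z.im - ε : ℝ) : ℂ) + ((vfun ρ ε z.im : ℝ) : ℂ) * Complex.I

variable {ρ ε : ℝ}

theorem dfun_ge_one (hρ : 0 ≤ ρ) (hε : 0 < ε) (y : ℝ) : 1 ≤ dfun ρ ε y := by
  unfold dfun
  have : 0 ≤ (ρ / ε) / (1 + (2 * ρ * y / ε ^ 2) ^ 2) := by positivity
  linarith

theorem dfun_zero : dfun ρ ε 0 = 1 + ρ / ε := by
  simp [dfun]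

theorem vfun_zero : vfun ρ ε 0 = 0 := by
  simp [vfun]

theorem hasDerivAt_vfun (hε : 0 < ε) (y : ℝ) : HasDerivAt (vfun ρ ε) (dfun ρ ε y) y := by
  have h1 : HasDerivAt (fun y : ℝ => 2 * ρ * y / ε ^ 2) (2 * ρ / ε ^ 2) y := by
    have := ((hasDerivAt_id y).const_mul (2 * ρ)).div_const (ε ^ 2)
    simpa using this
  have h2 := (Real.hasDerivAt_arctan (2 * ρ * y / ε ^ 2)).comp y h1
  have h3 : HasDerivAt (vfun ρ ε)
      (1 + ε / 2 * (1 / (1 + (2 * ρ * y / ε ^ 2) ^ 2) * (2 * ρ / ε ^ 2))) y :=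
    (hasDerivAt_id y).add (h2.const_mul (ε / 2))
  have hε' : ε ≠ 0 := ne_of_gt hε
  have e : dfun ρ ε y = 1 + ε / 2 * (1 / (1 + (2 * ρ * y / ε ^ 2) ^ 2) * (2 * ρ / ε ^ 2)) := by
    unfold dfun
    field_simp
  rw [e]
  exact h3

theorem vfun_strictMono (hρ : 0 ≤ ρ) (hε : 0 < ε) : StrictMono (vfun ρ ε) := by
  intro y1 y2 h
  unfold vfun
  have h1 : 2 * ρ * y1 / ε ^ 2 ≤ 2 * ρ * y2 / ε ^ 2 := by
    apply div_le_div_of_nonneg_right _ (by positivity)
    nlinarith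
  have h2 := Real.arctan_strictMono.monotone h1
  nlinarith

theorem abs_vfun_sub_le (hε : 0 < ε) (y : ℝ) : |vfun ρ ε y - y| ≤ ε := by
  unfold vfun
  have h1 := Real.arctan_lt_pi_div_two (2 * ρ * y / ε ^ 2)
  have h2 := Real.neg_pi_div_two_lt_arctan (2 * ρ * y / ε ^ 2)
  have h3 := Real.pi_le_four
  rw [abs_le]
  constructor <;> nlinarith

theorem differentiableAt_dfun (y : ℝ) : DifferentiableAt ℝ (dfun ρ ε) y := by
  unfold dfun
  have : ∀ y : ℝ, 1 + (2 * ρ * y / ε ^ 2) ^ 2 ≠ 0 := fun y => by positivity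
  fun_prop (disch := exact this _)

theorem contDiff_dfun {m : WithTop ℕ∞} : ContDiff ℝ m (dfun ρ ε) := by
  unfold dfun
  have : ∀ y : ℝ, 1 + (2 * ρ * y / ε ^ 2) ^ 2 ≠ 0 := fun y => by positivity
  fun_prop (disch := exact this _)

theorem contDiff_vfun {m : WithTop ℕ∞} : ContDiff ℝ m (vfun ρ ε) := by
  unfold vfun
  exact contDiff_id.add (contDiff_const.mul
    (Real.contDiff_arctan.comp ((contDiff_const.mul contDiff_id).div_const _)))

theorem discMap_eq (z : ℂ) :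
    discMap ρ ε z = (z.re / dfun ρ ε z.im - ε) • (1 : ℂ) + vfun ρ ε z.im • Complex.I := by
  apply Complex.ext <;> simp [discMap]

theorem discMap_re (z : ℂ) : (discMap ρ ε z).re = z.re / dfun ρ ε z.im - ε := by
  simp [discMap]

theorem discMap_im (z : ℂ) : (discMap ρ ε z).im = vfun ρ ε z.im := by
  simp [discMap]

theorem contDiff_discMap (hρ : 0 ≤ ρ) (hε : 0 < ε) {m : WithTop ℕ∞} :
    ContDiff ℝ m (discMap ρ ε) := by
  have h1 : ContDiff ℝ m (fun z : ℂ => z.re) := Complex.reCLM.contDiff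
  have h2 : ContDiff ℝ m (fun z : ℂ => z.im) := Complex.imCLM.contDiff
  have hd : ContDiff ℝ m (fun z : ℂ => dfun ρ ε z.im) := contDiff_dfun.comp h2
  have hv : ContDiff ℝ m (fun z : ℂ => vfun ρ ε z.im) := contDiff_vfun.comp h2
  have hne : ∀ z : ℂ, dfun ρ ε z.im ≠ 0 := fun z => by
    have := dfun_ge_one hρ hε z.im
    linarith
  have hF1 : ContDiff ℝ m (fun z : ℂ => z.re / dfun ρ ε z.im - ε) :=
    (h1.div hd hne).sub contDiff_const
  have : discMap ρ ε = fun z : ℂ =>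
      (z.re / dfun ρ ε z.im - ε) • (1 : ℂ) + vfun ρ ε z.im • Complex.I := by
    funext z
    exact discMap_eq z
  rw [this]
  exact (hF1.smul contDiff_const).add (hv.smul contDiff_const)

theorem sympAt1_discMap (hρ : 0 ≤ ρ) (hε : 0 < ε) (z : ℂ) : SympAt1 (discMap ρ ε) z := by
  have hD1 := dfun_ge_one hρ hε z.im
  have hD : dfun ρ ε z.im ≠ 0 := by linarith
  obtain ⟨d', hd'⟩ : ∃ d', HasDerivAt (dfun ρ ε) d' z.im :=
    ⟨_, (differentiableAt_dfun z.im).hasDerivAt⟩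
  have hre : HasFDerivAt (fun z : ℂ => z.re) Complex.reCLM z := Complex.reCLM.hasFDerivAt
  have him : HasFDerivAt (fun z : ℂ => z.im) Complex.imCLM z := Complex.imCLM.hasFDerivAt
  have hdinv : HasDerivAt (fun y : ℝ => (dfun ρ ε y)⁻¹) (-d' / dfun ρ ε z.im ^ 2) z.im :=
    hd'.inv hD
  have hDc : HasFDerivAt (fun z : ℂ => (dfun ρ ε z.im)⁻¹)
      ((-d' / dfun ρ ε z.im ^ 2) • Complex.imCLM) z :=
    hdinv.comp_hasFDerivAt z him
  have hF1 := (hre.mul hDc).sub_const ε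
  have hF2 : HasFDerivAt (fun z : ℂ => vfun ρ ε z.im) (dfun ρ ε z.im • Complex.imCLM) z :=
    (hasDerivAt_vfun hε z.im).comp_hasFDerivAt z him
  have hσ := (hF1.smul_const (1 : ℂ)).add (hF2.smul_const Complex.I)
  have heq : discMap ρ ε = fun z : ℂ =>
      (z.re * (dfun ρ ε z.im)⁻¹ - ε) • (1 : ℂ) + vfun ρ ε z.im • Complex.I := by
    funext z
    rw [discMap_eq, div_eq_mul_inv]
  have hσ' : HasFDerivAt (discMap ρ ε)
      ((z.re • (-d' / dfun ρ ε z.im ^ 2) • Complex.imCLM +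
        (dfun ρ ε z.im)⁻¹ • Complex.reCLM).smulRight (1 : ℂ) +
      (dfun ρ ε z.im • Complex.imCLM).smulRight Complex.I) z := by
    rw [heq]
    exact hσ
  refine ⟨_, hσ', ?_⟩
  intro u w
  simp only [omega1, ContinuousLinearMap.add_apply, ContinuousLinearMap.smulRight_apply,
    ContinuousLinearMap.smul_apply, ContinuousLinearMap.sub_apply, Complex.reCLM_apply,
    Complex.imCLM_apply, Complex.add_re, Complex.add_im, Complex.real_smul, Complex.mul_re,
    Complex.mul_im, Complex.ofReal_re, Complex.ofReal_im, Complex.one_re, Complex.one_im,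
    Complex.I_re, Complex.I_im, smul_eq_mul]
  field_simp
  ring

theorem discMap_injective (hρ : 0 ≤ ρ) (hε : 0 < ε) : Function.Injective (discMap ρ ε) := by
  intro z1 z2 h
  have him : z1.im = z2.im := by
    have := congrArg Complex.im h
    rw [discMap_im, discMap_im] at this
    exact (vfun_strictMono hρ hε).injective this
  have hre : z1.re = z2.re := by
    have := congrArg Complex.re h
    rw [discMap_re, discMap_re, him] at this
    have hD1 := dfun_ge_one hρ hε z2.im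
    have hD : dfun ρ ε z2.im ≠ 0 := by linarith
    field_simp at this
    linarith
  exact Complex.ext hre him

theorem discMap_ne_zero (hρ : 0 ≤ ρ) (hε : 0 < ε) {z : ℂ} (hz : ‖z‖ ≤ ρ) :
    discMap ρ ε z ≠ 0 := by
  intro h
  have him : z.im = 0 := by
    have := congrArg Complex.im h
    rw [discMap_im, Complex.zero_im, ← vfun_zero (ρ := ρ) (ε := ε)] at this
    exact (vfun_strictMono hρ hε).injective this
  have hre := congrArg Complex.re h
  rw [discMap_re, him, dfun_zero, Complex.zero_re] at hre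
  have hpos : 0 < 1 + ρ / ε := by positivity
  have hx0 : z.re / (1 + ρ / ε) = ε := by linarith
  have hx : z.re = ε * (1 + ρ / ε) := by
    rw [div_eq_iff (ne_of_gt hpos)] at hx0
    exact hx0
  have hx' : z.re = ε + ρ := by
    rw [hx]
    field_simp
  have := (Complex.abs_re_le_norm z).trans hz
  rw [hx', abs_of_pos (by linarith)] at this
  linarith

theorem norm_discMap_sq_le (hρ : 0 ≤ ρ) (hε : 0 < ε) {z : ℂ} (hz : ‖z‖ ≤ ρ) :
    ‖discMap ρ ε z‖ ^ 2 ≤ ‖z‖ ^ 2 + (4 * ε * ρ + 2 * ε ^ 2) := by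
  rw [Complex.sq_norm, Complex.sq_norm, Complex.normSq_apply, Complex.normSq_apply,
    discMap_re, discMap_im]
  have hD1 := dfun_ge_one hρ hε z.im
  have hx : |z.re| ≤ ρ := (Complex.abs_re_le_norm z).trans hz
  have hy : |z.im| ≤ ρ := (Complex.abs_im_le_norm z).trans hz
  have hv := abs_vfun_sub_le (ρ := ρ) hε z.im
  have h1 : |z.re / dfun ρ ε z.im| ≤ |z.re| := by
    rw [abs_div]
    apply div_le_self (abs_nonneg _)
    rw [abs_of_pos (by linarith)]
    exact hD1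
  have hA : |z.re / dfun ρ ε z.im - ε| ≤ |z.re| + ε := by
    calc |z.re / dfun ρ ε z.im - ε| ≤ |z.re / dfun ρ ε z.im| + |ε| := abs_sub _ _
      _ ≤ |z.re| + ε := by rw [abs_of_pos hε]; linarith
  have hB : |vfun ρ ε z.im| ≤ |z.im| + ε := by
    calc |vfun ρ ε z.im| = |(vfun ρ ε z.im - z.im) + z.im| := by ring_nf
      _ ≤ |vfun ρ ε z.im - z.im| + |z.im| := abs_add_le _ _
      _ ≤ |z.im| + ε := by linarith
  have e1 : (z.re / dfun ρ ε z.im - ε) * (z.re / dfun ρ ε z.im - ε) ≤ (|z.re| + ε) ^ 2 := by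
    rw [← abs_mul_abs_self, ← sq]
    exact pow_le_pow_left₀ (abs_nonneg _) hA 2
  have e2 : vfun ρ ε z.im * vfun ρ ε z.im ≤ (|z.im| + ε) ^ 2 := by
    rw [← abs_mul_abs_self, ← sq]
    exact pow_le_pow_left₀ (abs_nonneg _) hB 2
  have e3 : z.re * z.re = |z.re| ^ 2 := by rw [sq_abs, sq]
  have e4 : z.im * z.im = |z.im| ^ 2 := by rw [sq_abs, sq]
  have := abs_nonneg z.re
  have := abs_nonneg z.im
  nlinarith

/-- the product map on `ℂ^n` -/
noncomputable def sig (n : ℕ) (ρ ε : ℝ) (z : Fin n → ℂ) : Fin n → ℂ :=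
  fun j => discMap ρ ε (z j)

theorem contDiff_sig (n : ℕ) (hρ : 0 ≤ ρ) (hε : 0 < ε) {m : WithTop ℕ∞} :
    ContDiff ℝ m (sig n ρ ε) := by
  rw [contDiff_pi]
  intro j
  exact (contDiff_discMap hρ hε).comp (contDiff_apply ℝ ℂ j)

theorem sympAt_sig (n : ℕ) (hρ : 0 ≤ ρ) (hε : 0 < ε) (z : Fin n → ℂ) :
    SympAt (sig n ρ ε) z :=
  sympAt_pi (fun j => sympAt1_discMap hρ hε (z j))

theorem sig_injective (n : ℕ) (hρ : 0 ≤ ρ) (hε : 0 < ε) : Function.Injective (sig n ρ ε) := by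
  intro z1 z2 h
  funext j
  exact discMap_injective hρ hε (congrFun h j)

end Vale.Agent.Lib.P209
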