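import Mathlib

namespace Vale.Agent.Lib.P209

/-- A finite geometric sum with ratio at most one half, starting at the first power. -/
theorem dust_geom (x : ℝ) (hx0 : 0 ≤ x) (hx : x ≤ 1 / 2) (T : ℕ) :
    ∑ t ∈ Finset.Icc 1 T, x ^ t ≤ 2 * x * (1 - x ^ T) := by
  induction T with
  | zero => simp
  | succ T ih =>
    rw [Finset.sum_Icc_succ_top (by omega), pow_succ]
    have hz : 0 ≤ x ^ T := pow_nonneg hx0 _
    nlinarith [mul_nonneg (mul_nonneg hz hx0) (by linarith : (0:ℝ) ≤ 1 - 2 * x), ih]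

theorem dust_class_sum {ι : Type} [Fintype ι] (lev typ : ι → ℕ) (n M Q : ℕ) (S : ℝ) (hS : 0 < S)
    (hM : 2 ≤ M) (hn : 1 ≤ n) (hQ : 1 ≤ Q) (hlev : ∀ i, 1 ≤ lev i)
    (htyp : ∀ i, 2 ≤ typ i ∧ typ i ≤ Q)
    (hclass : ∀ t q : ℕ, (Finset.univ.filter (fun i => lev i = t ∧ typ i = q)).card ≤ q ^ n) :
    ∑ i, (S / (M:ℝ) ^ (lev i) / (typ i : ℝ)) ^ n ≤ ((Q:ℝ) - 1) * (2 * S ^ n / (M:ℝ) ^ n) := by
  classical
  set T : ℕ := Finset.univ.sup lev with hT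
  set P : Finset (ℕ × ℕ) := (Finset.Icc 1 T) ×ˢ (Finset.Icc 2 Q) with hP
  have hMpos : (0:ℝ) < (M:ℝ) := by exact_mod_cast (by omega : 0 < M)
  have hmaps : ∀ i ∈ (Finset.univ : Finset ι), (lev i, typ i) ∈ P := by
    intro i _
    rw [hP, Finset.mem_product, Finset.mem_Icc, Finset.mem_Icc]
    exact ⟨⟨hlev i, Finset.le_sup (f := lev) (Finset.mem_univ i)⟩, htyp i⟩
  rw [← Finset.sum_fiberwise_of_maps_to hmaps]
  -- each class contributes at most the n-th power of S over M to the t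
  have hcl : ∀ t q : ℕ, (t, q) ∈ P →
      ∑ i ∈ Finset.univ.filter (fun i => (lev i, typ i) = (t, q)),
        (S / (M:ℝ) ^ (lev i) / (typ i : ℝ)) ^ n ≤ (S / (M:ℝ) ^ t) ^ n := by
    intro t q hp
    rw [hP, Finset.mem_product, Finset.mem_Icc, Finset.mem_Icc] at hp
    obtain ⟨⟨ht1, ht2⟩, hq1, hq2⟩ := hp
    have hq1' : 2 ≤ q := hq1
    have hqpos : (0:ℝ) < (q:ℝ) := by exact_mod_cast (by omega : 0 < q)
    have hconst : ∀ i ∈ Finset.univ.filter (fun i => (lev i, typ i) = (t, q)),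
        (S / (M:ℝ) ^ (lev i) / (typ i : ℝ)) ^ n = (S / (M:ℝ) ^ t / (q : ℝ)) ^ n := by
      intro i hi
      rw [Finset.mem_filter] at hi
      have h1 : lev i = t := (Prod.mk.inj hi.2).1
      have h2 : typ i = q := (Prod.mk.inj hi.2).2
      rw [h1, h2]
    rw [Finset.sum_congr rfl hconst, Finset.sum_const, nsmul_eq_mul]
    have hfilt : Finset.univ.filter (fun i => (lev i, typ i) = (t, q))
        = Finset.univ.filter (fun i => lev i = t ∧ typ i = q) := by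
      ext i
      simp [Prod.mk.injEq]
    have hcard := hclass t q
    rw [← hfilt] at hcard
    have hcard' : ((Finset.univ.filter (fun i => (lev i, typ i) = (t, q))).card : ℝ)
        ≤ (q:ℝ) ^ n := by
      exact_mod_cast hcard
    have hnn : 0 ≤ (S / (M:ℝ) ^ t / (q : ℝ)) ^ n := by positivity
    calc ((Finset.univ.filter (fun i => (lev i, typ i) = (t, q))).card : ℝ)
          * (S / (M:ℝ) ^ t / (q : ℝ)) ^ n
        ≤ (q:ℝ) ^ n * (S / (M:ℝ) ^ t / (q : ℝ)) ^ n := mul_le_mul_of_nonneg_right hcard' hnn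
      _ = (S / (M:ℝ) ^ t) ^ n := by
        rw [← mul_pow]
        congr 1
        field_simp
  refine le_trans (Finset.sum_le_sum (fun p hp => hcl p.1 p.2 hp)) ?_
  rw [hP, Finset.sum_product]
  show ∑ t ∈ Finset.Icc 1 T, ∑ q ∈ Finset.Icc 2 Q, (S / (M:ℝ) ^ t) ^ n
    ≤ ((Q:ℝ) - 1) * (2 * S ^ n / (M:ℝ) ^ n)
  have hcardQ : ((Finset.Icc 2 Q).card : ℝ) = (Q:ℝ) - 1 := by
    rw [Nat.card_Icc]
    have h : Q + 1 - 2 = Q - 1 := by omega
    rw [h, Nat.cast_sub hQ]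
    simp
  have hx0 : (0:ℝ) ≤ ((M:ℝ) ^ n)⁻¹ := by positivity
  have hMn : (2:ℝ) ≤ (M:ℝ) ^ n := by
    have h2 : (2:ℝ) ≤ (M:ℝ) := by exact_mod_cast hM
    calc (2:ℝ) ≤ (M:ℝ) := h2
      _ = (M:ℝ) ^ 1 := (pow_one _).symm
      _ ≤ (M:ℝ) ^ n := pow_le_pow_right₀ (by linarith) hn
  have hx : ((M:ℝ) ^ n)⁻¹ ≤ 1 / 2 := by
    rw [one_div]
    exact inv_anti₀ (by norm_num) hMn
  have hterm : ∀ t : ℕ, (S / (M:ℝ) ^ t) ^ n = S ^ n * (((M:ℝ) ^ n)⁻¹) ^ t := by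
    intro t
    rw [div_pow, ← pow_mul, mul_comm t n, pow_mul, inv_pow, div_eq_mul_inv]
  have hgeo := dust_geom (((M:ℝ) ^ n)⁻¹) hx0 hx T
  have hxT : 0 ≤ (((M:ℝ) ^ n)⁻¹) ^ T := pow_nonneg hx0 _
  have hQ1 : (0:ℝ) ≤ (Q:ℝ) - 1 := by
    have h1 : (1:ℝ) ≤ (Q:ℝ) := by exact_mod_cast hQ
    linarith
  have hSn : 0 < S ^ n := pow_pos hS n
  calc ∑ t ∈ Finset.Icc 1 T, ∑ q ∈ Finset.Icc 2 Q, (S / (M:ℝ) ^ t) ^ n
      = ((Q:ℝ) - 1) * (S ^ n * ∑ t ∈ Finset.Icc 1 T, (((M:ℝ) ^ n)⁻¹) ^ t) := by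
        rw [Finset.mul_sum, Finset.mul_sum]
        apply Finset.sum_congr rfl
        intro t _
        rw [Finset.sum_const, nsmul_eq_mul, hcardQ, hterm t]
    _ ≤ ((Q:ℝ) - 1) * (S ^ n * (2 * ((M:ℝ) ^ n)⁻¹)) := by
        apply mul_le_mul_of_nonneg_left _ hQ1
        apply mul_le_mul_of_nonneg_left _ hSn.le
        nlinarith [mul_nonneg hx0 hxT]
    _ = ((Q:ℝ) - 1) * (2 * S ^ n / (M:ℝ) ^ n) := by
        rw [div_eq_mul_inv]
        ring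

end Vale.Agent.Lib.P209
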