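import Mathlib

namespace Vale.Agent.Lib.P209

/-- Parameter choice for the dust construction: for every dimension `n ≥ 2` and every
`δ ∈ (0, 1/2]` there are integers `L, M ≥ 2` and reals `s, c, ε` satisfying the listed
inequalities. -/
theorem dust_params (n : ℕ) (hn : 2 ≤ n) (δ : ℝ) (hδ : 0 < δ) (hδ1 : δ ≤ 1 / 2) : ∃ (L M : ℕ) (s c ε : ℝ), 2 ≤ L ∧ 2 ≤ M ∧ 0 < s ∧ 0 < c ∧ s + c < 1 ∧ 0 < ε ∧ ε * ((L:ℝ) * M) < s ∧ (1 + 1 / (L:ℝ)) ^ n * (1 - δ) ≤ s ^ n ∧ 2 ^ n * ((L:ℝ) * M - 1) * (2 * s ^ n) ≤ c ^ n * (M:ℝ) ^ n := by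
  have hn0 : (0:ℝ) < n := by exact_mod_cast (by omega : 0 < n)
  have hn2 : (2:ℝ) ≤ n := by exact_mod_cast hn
  obtain ⟨β, hβ⟩ : ∃ β : ℝ, β = δ / (4 * n) := ⟨_, rfl⟩
  have hβ0 : 0 < β := by rw [hβ]; positivity
  have hβn : (n:ℝ) * (2 * β) = δ / 2 := by
    rw [hβ]; field_simp; ring
  have hβ16 : β ≤ 1 / 16 := by
    rw [hβ, div_le_iff₀ (by positivity)]
    nlinarith
  obtain ⟨L, hL⟩ : ∃ L : ℕ, L = max 2 ⌈1 / β⌉₊ := ⟨_, rfl⟩
  have hL2 : 2 ≤ L := by rw [hL]; exact le_max_left _ _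
  have hLr : 1 / β ≤ (L:ℝ) := by
    have h1 : 1 / β ≤ (⌈1 / β⌉₊ : ℝ) := Nat.le_ceil _
    have h2 : (⌈1 / β⌉₊ : ℝ) ≤ (L:ℝ) := by
      rw [hL]; exact_mod_cast le_max_right _ _
    linarith
  have hL2r : (2:ℝ) ≤ L := by exact_mod_cast hL2
  have hL0 : (0:ℝ) < L := by linarith
  have hLinv : 1 / (L:ℝ) ≤ β := by
    rw [div_le_iff₀ hL0]
    have := (div_le_iff₀ hβ0).1 hLr
    linarith
  obtain ⟨T, hT⟩ : ∃ T : ℝ, T = 2 ^ (n + 1) * (L:ℝ) * (2 / β) ^ n := ⟨_, rfl⟩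
  have hT0 : 0 < T := by rw [hT]; positivity
  obtain ⟨M, hM⟩ : ∃ M : ℕ, M = ⌈T⌉₊ + 2 := ⟨_, rfl⟩
  have hM2 : 2 ≤ M := by rw [hM]; exact Nat.le_add_left _ _
  have hMT : T ≤ (M:ℝ) := by
    have h1 : T ≤ (⌈T⌉₊ : ℝ) := Nat.le_ceil _
    have h2 : (M : ℝ) = (⌈T⌉₊ : ℝ) + 2 := by rw [hM]; push_cast; ring
    rw [h2]; linarith
  have hM2r : (2:ℝ) ≤ M := by exact_mod_cast hM2
  have hM0 : (0:ℝ) < M := by linarith
  have hs0 : 0 < 1 - β := by linarith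
  have hs1 : 1 - β ≤ 1 := by linarith
  have hLM : (0:ℝ) < (L:ℝ) * M := by positivity
  refine ⟨L, M, 1 - β, β / 2, (1 - β) / (2 * ((L:ℝ) * M)), hL2, hM2, hs0, by positivity,
    by linarith, by positivity, ?_, ?_, ?_⟩
  · have h : (1 - β) / (2 * ((L:ℝ) * M)) * ((L:ℝ) * M) = (1 - β) / 2 := by
      field_simp
    rw [h]; linarith
  · have h1 : (1 + 1 / (L:ℝ)) ^ n ≤ (1 + β) ^ n := by
      apply pow_le_pow_left₀ (by positivity)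
      linarith
    have h2 : (1 + β) * (1 - 2 * β) ≤ 1 - β := by nlinarith [sq_nonneg β]
    have h3 : 0 ≤ (1 + β) * (1 - 2 * β) := by
      apply mul_nonneg <;> linarith
    have h4 : ((1 + β) * (1 - 2 * β)) ^ n ≤ (1 - β) ^ n := pow_le_pow_left₀ h3 h2 n
    have h5 : 1 + (n:ℝ) * (-(2 * β)) ≤ (1 + (-(2 * β))) ^ n :=
      one_add_mul_le_pow (by linarith) n
    have h6 : 1 - δ / 2 ≤ (1 - 2 * β) ^ n := by
      have e1 : 1 + (n:ℝ) * (-(2 * β)) = 1 - δ / 2 := by rw [mul_neg, hβn]; ring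
      have e2 : (1 + (-(2 * β))) = 1 - 2 * β := by ring
      rw [e1, e2] at h5; exact h5
    have h7 : 0 ≤ (1 + β) ^ n := by positivity
    calc (1 + 1 / (L:ℝ)) ^ n * (1 - δ) ≤ (1 + β) ^ n * (1 - δ) := by
          apply mul_le_mul_of_nonneg_right h1; linarith
      _ ≤ (1 + β) ^ n * (1 - 2 * β) ^ n := by
          apply mul_le_mul_of_nonneg_left _ h7; linarith
      _ = ((1 + β) * (1 - 2 * β)) ^ n := (mul_pow _ _ _).symm
      _ ≤ (1 - β) ^ n := h4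
  · have hsn : (1 - β) ^ n ≤ 1 := pow_le_one₀ hs0.le hs1
    have hsn0 : 0 ≤ (1 - β) ^ n := by positivity
    have hLM1 : (0:ℝ) ≤ (L:ℝ) * M - 1 := by nlinarith
    have h2n : (0:ℝ) < 2 ^ n := by positivity
    have hlhs : 2 ^ n * ((L:ℝ) * M - 1) * (2 * (1 - β) ^ n) ≤ 2 ^ (n + 1) * (L:ℝ) * M := by
      have h : 2 ^ n * ((L:ℝ) * M - 1) * (2 * (1 - β) ^ n)
          ≤ 2 ^ n * ((L:ℝ) * M) * (2 * 1) := by
        apply mul_le_mul
        · apply mul_le_mul_of_nonneg_left _ h2n.le; linarith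
        · linarith
        · positivity
        · positivity
      have e : (2:ℝ) ^ (n + 1) * (L:ℝ) * M = 2 ^ n * ((L:ℝ) * M) * (2 * 1) := by ring
      rw [e]; exact h
    have hMpow : (M:ℝ) * M ≤ (M:ℝ) ^ n := by
      have h := pow_le_pow_right₀ (by linarith : (1:ℝ) ≤ (M:ℝ)) hn
      rw [pow_two] at h; exact h
    have hc : (β / 2) ^ n * (2 / β) ^ n = 1 := by
      rw [← mul_pow]
      have h : β / 2 * (2 / β) = 1 := by field_simp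
      rw [h, one_pow]
    have hcn : 0 ≤ (β / 2) ^ n := by positivity
    calc 2 ^ n * ((L:ℝ) * M - 1) * (2 * (1 - β) ^ n) ≤ 2 ^ (n + 1) * (L:ℝ) * M := hlhs
      _ = (β / 2) ^ n * (T * M) := by
          rw [hT]
          calc 2 ^ (n + 1) * (L:ℝ) * M = 1 * (2 ^ (n + 1) * (L:ℝ) * M) := by ring
            _ = ((β / 2) ^ n * (2 / β) ^ n) * (2 ^ (n + 1) * (L:ℝ) * M) := by rw [hc]
            _ = (β / 2) ^ n * (2 ^ (n + 1) * (L:ℝ) * (2 / β) ^ n * M) := by ring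
      _ ≤ (β / 2) ^ n * ((M:ℝ) * M) := by
          apply mul_le_mul_of_nonneg_left _ hcn
          exact mul_le_mul_of_nonneg_right hMT hM0.le
      _ ≤ (β / 2) ^ n * (M:ℝ) ^ n := mul_le_mul_of_nonneg_left hMpow hcn

end Vale.Agent.Lib.P209
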