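import Vale.Agent.Lib.P209.Kraft
import Vale.Agent.Lib.P209.DustCount
import Vale.Agent.Lib.P209.DustParam

/-!
# Packing many small balls: every family of sufficiently small balls whose total volume is
at most a fixed fraction of the volume of the ball packs
-/

namespace Vale.Agent.Lib.P209

open Finset

/-- at most `m ^ n` balls of capacities less than `c / m` pack into the ball of capacity `c` -/
theorem cell_packing_m {n : ℕ} (hn : 0 < n) (m : ℕ) {T : Type} [Fintype T]
    (hT : Fintype.card T ≤ m ^ n) (c : ℝ) (hc0 : 0 < c) (a : T → ℝ) (ha : ∀ i, 0 < a i)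
    (hc : ∀ i, (m : ℝ) * a i < c) : PackingInto n (capBall n c) a := by
  classical
  have h1 : Packing n (Fintype.card T) c (a ∘ (Fintype.equivFin T).symm) := by
    apply packing_msum hn hT c (a ∘ (Fintype.equivFin T).symm) (fun i => ha _)
    intro S hS
    rcases S.eq_empty_or_nonempty with h | h
    · rw [h, Finset.sum_empty]
      exact hc0
    · have hm : 0 < m := lt_of_lt_of_le (Finset.card_pos.mpr h) hS
      have hmR : (0 : ℝ) < m := by exact_mod_cast hm
      calc ∑ i ∈ S, (a ∘ (Fintype.equivFin T).symm) i < ∑ i ∈ S, c / m := by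
            apply Finset.sum_lt_sum_of_nonempty h
            intro i _
            have := hc ((Fintype.equivFin T).symm i)
            simp only [Function.comp_apply]
            rw [lt_div_iff₀ hmR]
            linarith
        _ = S.card * (c / m) := by rw [Finset.sum_const, nsmul_eq_mul]
        _ ≤ m * (c / m) := by
            apply mul_le_mul_of_nonneg_right _ (by positivity)
            exact_mod_cast hS
        _ = c := by field_simp
  have h2 : PackingInto n (capBall n c) (a ∘ (Fintype.equivFin T).symm) :=
    PackingInto.mono h1 (capOpenBall_subset_capBall n c)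
  have h3 := h2.reindex (Fintype.equivFin T) (Fintype.equivFin T).injective
  have h4 : (a ∘ (Fintype.equivFin T).symm) ∘ (Fintype.equivFin T) = a := by
    funext i
    simp
  rw [h4] at h3
  exact h3

/-- balls with `∑ (2 a_i) ^ n ≤ c ^ n` pack into the closed ball of capacity `c` -/
theorem kraft_cell {n : ℕ} (hn : 0 < n) {T : Type} [Fintype T] (c : ℝ) (hc0 : 0 < c)
    (a : T → ℝ) (ha : ∀ i, 0 < a i) (hvol : ∑ i, (2 * a i) ^ n ≤ c ^ n) :
    PackingInto n (capBall n c) a := by
  classical
  have h1 : Packing n (Fintype.card T) c (a ∘ (Fintype.equivFin T).symm) := by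
    apply packing_kraft hn c hc0 (a ∘ (Fintype.equivFin T).symm) (fun i => ha _)
    have h5 : ∑ i, (2 * (a ∘ (Fintype.equivFin T).symm) i) ^ n = ∑ i, (2 * a i) ^ n :=
      Equiv.sum_comp (Fintype.equivFin T).symm (fun i => (2 * a i) ^ n)
    rw [h5]
    exact hvol
  have h2 : PackingInto n (capBall n c) (a ∘ (Fintype.equivFin T).symm) :=
    PackingInto.mono h1 (capOpenBall_subset_capBall n c)
  have h3 := h2.reindex (Fintype.equivFin T) (Fintype.equivFin T).injective
  have h4 : (a ∘ (Fintype.equivFin T).symm) ∘ (Fintype.equivFin T) = a := by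
    funext i
    simp
  rw [h4] at h3
  exact h3

/-- The merging induction.  Every ball carries a level `lev i` and a type `typ i` with
`typ i * a i < S / M ^ lev i`; as long as some class of level at least one contains
`q ^ n` balls of type `q`, these are merged into one ball of the previous level and of type
`M`.  When no class is full any more, the balls of level zero pack into a ball of capacity
`S` and all the others into a ball of capacity `c`. -/
theorem dust_aux {n : ℕ} (hn : 0 < n) (M Q : ℕ) (hM : 2 ≤ M) (hMQ : M ≤ Q) (S c R : ℝ)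
    (hS : 0 < S) (hc : 0 < c) (hSc : S + c < R)
    (hE : 2 ^ n * ((Q : ℝ) - 1) * (2 * S ^ n) ≤ c ^ n * (M : ℝ) ^ n) :
    ∀ N : ℕ, ∀ (ι : Type) [Fintype ι] (a : ι → ℝ) (lev typ : ι → ℕ),
      Fintype.card ι ≤ N → (∀ i, 0 < a i) →
      (∀ i, (typ i : ℝ) * a i < S / (M : ℝ) ^ (lev i)) →
      (∀ i, 1 ≤ lev i → 2 ≤ typ i ∧ typ i ≤ Q) →
      (∀ i, lev i = 0 → typ i = M) →
      ∑ i, (S / (M : ℝ) ^ (lev i) / (typ i : ℝ)) ^ n ≤ S ^ n →
      PackingInto n (capOpenBall n R) a := by
  classical
  have hMR : (0 : ℝ) < M := by exact_mod_cast (by omega : 0 < M)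
  have hSn : (0 : ℝ) < S ^ n := pow_pos hS n
  intro N
  induction N with
  | zero =>
    intro ι _ a lev typ hcard ha0 hC1 hC2 hC3 hpot
    have : IsEmpty ι := Fintype.card_eq_zero_iff.mp (Nat.le_zero.mp hcard)
    exact PackingInto.of_isEmpty _ a
  | succ N ih =>
    intro ι _ a lev typ hcard ha0 hC1 hC2 hC3 hpot
    by_cases hmerge : ∃ t q : ℕ, 1 ≤ t ∧ 2 ≤ q ∧
        q ^ n ≤ (univ.filter (fun i => lev i = t ∧ typ i = q)).card
    · obtain ⟨t, q, ht, hq, hcardc⟩ := hmerge
      obtain ⟨T, hTS, hTcard⟩ := Finset.exists_subset_card_eq hcardc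
      have hqn : 2 ≤ q ^ n := le_trans hq (Nat.le_self_pow (by omega) q)
      have hTne : T.Nonempty := Finset.card_pos.mp (by omega)
      have hlevT : ∀ i ∈ T, lev i = t := fun i hi => (Finset.mem_filter.mp (hTS hi)).2.1
      have htypT : ∀ i ∈ T, typ i = q := fun i hi => (Finset.mem_filter.mp (hTS hi)).2.2
      obtain ⟨i0, hi0, hmax⟩ := Finset.exists_max_image T a hTne
      have hi0lt : (q : ℝ) * a i0 < S / (M : ℝ) ^ t := by
        have h1 := hC1 i0
        rw [hlevT i0 hi0, htypT i0 hi0] at h1
        exact h1
      obtain ⟨c', hc1, hc2⟩ := exists_between hi0lt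
      have hqR : (0 : ℝ) < q := by exact_mod_cast (by omega : 0 < q)
      have hc'0 : 0 < c' := lt_trans (mul_pos hqR (ha0 i0)) hc1
      have hMt : (M : ℝ) ^ t = (M : ℝ) ^ (t - 1) * M := by
        rw [← pow_succ, Nat.sub_add_cancel ht]
      obtain ⟨φ, hφ⟩ : ∃ φ : ι → Option {i : ι // i ∉ T},
          ∀ i, φ i = if h : i ∈ T then none else some ⟨i, h⟩ := ⟨_, fun _ => rfl⟩
      have hP : PackingInto n (capOpenBall n R)
          (fun o : Option {i : ι // i ∉ T} => o.elim c' (fun x => a x.1)) := by
        apply ih (Option {i : ι // i ∉ T}) _ (fun o => o.elim (t - 1) (fun x => lev x.1))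
          (fun o => o.elim M (fun x => typ x.1))
        · have h1 : Fintype.card {i : ι // i ∉ T} = (Tᶜ).card := by
            apply Fintype.card_of_subtype (Tᶜ)
            intro x
            simp
          rw [Fintype.card_option, h1, Finset.card_compl]
          have h2 : T.card ≤ Fintype.card ι := Finset.card_le_univ T
          omega
        · intro o
          cases o with
          | none => exact hc'0
          | some x => exact ha0 x.1
        · intro o
          cases o with
          | none =>
            show (M : ℝ) * c' < S / (M : ℝ) ^ (t - 1)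
            have h3 : (0 : ℝ) < (M : ℝ) ^ (t - 1) := by positivity
            rw [hMt, ← div_div, lt_div_iff₀ hMR] at hc2
            linarith
          | some x => exact hC1 x.1
        · intro o
          cases o with
          | none =>
            intro _
            exact ⟨hM, hMQ⟩
          | some x => exact hC2 x.1
        · intro o
          cases o with
          | none =>
            intro _
            rfl
          | some x => exact hC3 x.1
        · have hsum1 : ∑ o : Option {i : ι // i ∉ T},
              (S / (M : ℝ) ^ (o.elim (t - 1) (fun x => lev x.1)) /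
                ((o.elim M (fun x => typ x.1) : ℕ) : ℝ)) ^ n =
              (S / (M : ℝ) ^ t) ^ n +
                ∑ x : {i : ι // i ∉ T}, (S / (M : ℝ) ^ (lev x.1) / (typ x.1 : ℝ)) ^ n := by
            rw [Fintype.sum_option]
            simp only [Option.elim]
            congr 1
            rw [div_div, ← hMt]
          have hsum2 : ∑ i, (S / (M : ℝ) ^ (lev i) / (typ i : ℝ)) ^ n =
              (S / (M : ℝ) ^ t) ^ n +
                ∑ x : {i : ι // i ∉ T}, (S / (M : ℝ) ^ (lev x.1) / (typ x.1 : ℝ)) ^ n := by
            rw [← Finset.sum_add_sum_compl T]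
            congr 1
            · have h4 : ∀ i ∈ T, (S / (M : ℝ) ^ (lev i) / (typ i : ℝ)) ^ n =
                  (S / (M : ℝ) ^ t / (q : ℝ)) ^ n := by
                intro i hi
                rw [hlevT i hi, htypT i hi]
              rw [Finset.sum_congr rfl h4, Finset.sum_const, nsmul_eq_mul, hTcard]
              push_cast
              rw [← mul_pow]
              congr 1
              field_simp
            · exact Finset.sum_subtype (Tᶜ) (fun x => by simp)
                (fun i => (S / (M : ℝ) ^ (lev i) / (typ i : ℝ)) ^ n)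
          rw [hsum1, ← hsum2]
          exact hpot
      apply PackingInto.refine hP φ
      intro o
      cases o with
      | none =>
        have hfib : ∀ x : {i : ι // φ i = none}, x.1 ∈ T := by
          intro x
          by_contra h
          have h1 := x.2
          rw [hφ, dif_neg h] at h1
          exact Option.some_ne_none _ h1
        have hcardfib : Fintype.card {i : ι // φ i = none} ≤ q ^ n := by
          have h1 : Fintype.card {i : ι // φ i = none} = T.card := by
            apply Fintype.card_of_subtype T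
            intro x
            rw [hφ]
            constructor
            · intro hx
              rw [dif_pos hx]
            · intro hx
              by_contra h
              rw [dif_neg h] at hx
              exact Option.some_ne_none _ hx
          omega
        exact cell_packing_m hn q hcardfib c' hc'0 _ (fun x => ha0 x.1) (fun x => by
          have h1 := hmax x.1 (hfib x)
          have h2 : (q : ℝ) * a x.1 ≤ (q : ℝ) * a i0 := mul_le_mul_of_nonneg_left h1 hqR.le
          linarith)
      | some y =>
        have hfib : ∀ x : {i : ι // φ i = some y}, x.1 = y.1 := by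
          intro x
          have h := x.2
          rw [hφ] at h
          by_cases hx : x.1 ∈ T
          · rw [dif_pos hx] at h
            exact absurd h.symm (Option.some_ne_none _)
          · rw [dif_neg hx] at h
            exact congrArg Subtype.val (Option.some.inj h)
        have hsub : Subsingleton {i : ι // φ i = some y} :=
          ⟨fun x x' => Subtype.ext (by rw [hfib x, hfib x'])⟩
        apply PackingInto.of_subsingleton
        intro x
        show capBall n (a x.1) ⊆ capBall n (a y.1)
        rw [hfib x]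
    · have hterm : ∀ t q : ℕ, 1 ≤ t → 2 ≤ q →
          (univ.filter (fun i => lev i = t ∧ typ i = q)).card < q ^ n := by
        intro t q ht hq
        by_contra h
        exact hmerge ⟨t, q, ht, hq, not_lt.mp h⟩
      obtain ⟨a', ha'0, ha'1⟩ : ∃ a' : Fin 2 → ℝ, a' 0 = S ∧ a' 1 = c :=
        ⟨fun b => if b = 0 then S else c, by simp, by simp⟩
      obtain ⟨φ, hφ⟩ : ∃ φ : ι → Fin 2, ∀ i, φ i = if lev i = 0 then 0 else 1 :=
        ⟨_, fun _ => rfl⟩
      have hcells : PackingInto n (capOpenBall n R) a' := by
        have h1 : Packing n 2 R a' := by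
          have h2n : 2 ≤ 2 ^ n := Nat.le_self_pow (by omega) 2
          have ha'pos : ∀ b, 0 < a' b := by
            intro b
            rcases Fin.exists_fin_two.mp ⟨b, rfl⟩ with h | h
            · rw [h, ha'0]
              exact hS
            · rw [h, ha'1]
              exact hc
          apply packing_msum hn h2n R a' ha'pos
          intro U _
          calc ∑ i ∈ U, a' i ≤ ∑ i : Fin 2, a' i :=
                Finset.sum_le_sum_of_subset_of_nonneg (Finset.subset_univ U)
                  (fun i _ _ => (ha'pos i).le)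
            _ = S + c := by rw [Fin.sum_univ_two, ha'0, ha'1]
            _ < R := hSc
        exact h1
      apply PackingInto.refine hcells φ
      refine Fin.forall_fin_two.mpr ⟨?_, ?_⟩
      · rw [ha'0]
        have hfib : ∀ x : {i : ι // φ i = 0}, lev x.1 = 0 := by
          intro x
          by_contra h
          have h1 := x.2
          rw [hφ, if_neg h] at h1
          exact absurd h1 (by decide)
        have hcardfib : Fintype.card {i : ι // φ i = 0} ≤ M ^ n := by
          have h1 : Fintype.card {i : ι // φ i = 0} =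
              (univ.filter (fun i => lev i = 0)).card := by
            apply Fintype.card_of_subtype
            intro x
            rw [hφ]
            constructor
            · intro hx
              rw [if_pos (Finset.mem_filter.mp hx).2]
            · intro hx
              by_contra h
              have h' : ¬ lev x = 0 := fun h0 =>
                h (Finset.mem_filter.mpr ⟨Finset.mem_univ _, h0⟩)
              rw [if_neg h'] at hx
              exact absurd hx (by decide)
          rw [h1]
          have h2 : ((univ.filter (fun i => lev i = 0)).card : ℝ) * (S ^ n / (M : ℝ) ^ n) ≤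
              S ^ n := by
            calc ((univ.filter (fun i => lev i = 0)).card : ℝ) * (S ^ n / (M : ℝ) ^ n)
                = ∑ i ∈ univ.filter (fun i => lev i = 0),
                    (S / (M : ℝ) ^ (lev i) / (typ i : ℝ)) ^ n := by
                  rw [← nsmul_eq_mul, ← Finset.sum_const]
                  apply Finset.sum_congr rfl
                  intro i hi
                  have h0 := (Finset.mem_filter.mp hi).2
                  rw [h0, hC3 i h0, pow_zero, div_one, div_pow]
              _ ≤ ∑ i, (S / (M : ℝ) ^ (lev i) / (typ i : ℝ)) ^ n :=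
                  Finset.sum_le_sum_of_subset_of_nonneg (Finset.filter_subset _ _)
                    (fun i _ _ => by positivity)
              _ ≤ S ^ n := hpot
          have hMn : (0 : ℝ) < (M : ℝ) ^ n := by positivity
          have h3 : ((univ.filter (fun i => lev i = 0)).card : ℝ) ≤ (M : ℝ) ^ n := by
            rw [mul_div_assoc', div_le_iff₀ hMn] at h2
            have h4 : ((univ.filter (fun i => lev i = 0)).card : ℝ) * S ^ n ≤
                (M : ℝ) ^ n * S ^ n := by linarith
            exact le_of_mul_le_mul_right h4 hSn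
          exact_mod_cast h3
        exact cell_packing_m hn M hcardfib S hS _ (fun x => ha0 x.1) (fun x => by
          have h1 := hC1 x.1
          rw [hfib x, hC3 x.1 (hfib x), pow_zero, div_one] at h1
          exact h1)
      · rw [ha'1]
        have hfib : ∀ x : {i : ι // φ i = 1}, 1 ≤ lev x.1 := by
          intro x
          by_contra h
          have h0 : lev x.1 = 0 := by omega
          have h1 := x.2
          rw [hφ, if_pos h0] at h1
          exact absurd h1 (by decide)
        have hQ1 : 1 ≤ Q := by omega
        have hcount := dust_class_sum (fun x : {i : ι // φ i = 1} => lev x.1)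
          (fun x : {i : ι // φ i = 1} => typ x.1) n M Q S hS hM hn hQ1 hfib
          (fun x => hC2 x.1 (hfib x)) (by
            intro t q
            by_cases htq : 1 ≤ t ∧ 2 ≤ q
            · refine le_trans ?_ (hterm t q htq.1 htq.2).le
              apply Finset.card_le_card_of_injOn (fun x => x.1)
              · intro x hx
                have hx' := (Finset.mem_filter.mp (Finset.mem_coe.mp hx)).2
                exact Finset.mem_coe.mpr (Finset.mem_filter.mpr ⟨Finset.mem_univ _, hx'⟩)
              · intro x _ x' _ h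
                exact Subtype.ext h
            · have hempty : (univ.filter (fun x : {i : ι // φ i = 1} =>
                  lev x.1 = t ∧ typ x.1 = q)) = ∅ := by
                apply Finset.filter_eq_empty_iff.mpr
                intro x _ hx
                apply htq
                have h1 := hfib x
                have h2 := (hC2 x.1 h1).1
                rw [hx.1] at h1
                rw [hx.2] at h2
                exact ⟨h1, h2⟩
              rw [hempty, Finset.card_empty]
              exact Nat.zero_le _)
        apply kraft_cell hn c hc (fun x : {i : ι // φ i = 1} => a x.1) (fun x => ha0 x.1)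
        have hMn : (0 : ℝ) < (M : ℝ) ^ n := by positivity
        calc ∑ x : {i : ι // φ i = 1}, (2 * a x.1) ^ n
            ≤ ∑ x : {i : ι // φ i = 1},
                2 ^ n * (S / (M : ℝ) ^ (lev x.1) / (typ x.1 : ℝ)) ^ n := by
              apply Finset.sum_le_sum
              intro x _
              rw [mul_pow]
              apply mul_le_mul_of_nonneg_left _ (by positivity)
              apply pow_le_pow_left₀ (ha0 x.1).le
              have h2 := (hC2 x.1 (hfib x)).1
              have htR : (0 : ℝ) < (typ x.1 : ℝ) := by exact_mod_cast (by omega : 0 < typ x.1)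
              rw [le_div_iff₀ htR]
              have h3 := hC1 x.1
              linarith
          _ = 2 ^ n * ∑ x : {i : ι // φ i = 1},
                (S / (M : ℝ) ^ (lev x.1) / (typ x.1 : ℝ)) ^ n := by
              rw [Finset.mul_sum]
          _ ≤ 2 ^ n * (((Q : ℝ) - 1) * (2 * S ^ n / (M : ℝ) ^ n)) :=
              mul_le_mul_of_nonneg_left hcount (by positivity)
          _ = 2 ^ n * ((Q : ℝ) - 1) * (2 * S ^ n) / (M : ℝ) ^ n := by ring
          _ ≤ c ^ n := by
              rw [div_le_iff₀ hMn]
              exact hE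

/-- labels of a small ball: a level `t ≥ 1` and a type `q` with `L ≤ q < L * M` -/
theorem dust_labels (L M : ℕ) (hL : 2 ≤ L) (hM : 2 ≤ M) (S : ℝ) (hS : 0 < S) (x : ℝ)
    (hx : 0 < x) (hsmall : (L : ℝ) * M * x < S) :
    ∃ t q : ℕ, 1 ≤ t ∧ 2 ≤ q ∧ q ≤ L * M ∧ (q : ℝ) * x < S / (M : ℝ) ^ t ∧
      S / (M : ℝ) ^ t / (q : ℝ) ≤ (1 + 1 / (L : ℝ)) * x := by
  have hLR : (0 : ℝ) < L := by exact_mod_cast (by omega : 0 < L)
  have hMR : (1 : ℝ) < M := by exact_mod_cast (by omega : 1 < M)
  have hM0 : (0 : ℝ) < M := by linarith
  have hex : ∃ t : ℕ, S / (M : ℝ) ^ (t + 1) ≤ L * x := by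
    obtain ⟨m, hm⟩ := pow_unbounded_of_one_lt (S / (L * x)) hMR
    refine ⟨m, ?_⟩
    have h2 : (0 : ℝ) < (M : ℝ) ^ (m + 1) := by positivity
    rw [div_le_iff₀ h2]
    rw [div_lt_iff₀ (by positivity)] at hm
    have h3 : (M : ℝ) ^ m ≤ (M : ℝ) ^ (m + 1) := pow_le_pow_right₀ hMR.le (Nat.le_succ m)
    nlinarith [mul_pos hLR hx]
  obtain ⟨t, ht1, htlt, htge⟩ : ∃ t : ℕ, 1 ≤ t ∧ (L : ℝ) * x < S / (M : ℝ) ^ t ∧
      S / (M : ℝ) ^ (t + 1) ≤ L * x := by
    have hspec := Nat.find_spec hex
    have ht1 : 1 ≤ Nat.find hex := by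
      by_contra h
      have h0 : Nat.find hex = 0 := by omega
      rw [h0, zero_add, pow_one, div_le_iff₀ hM0] at hspec
      nlinarith
    refine ⟨Nat.find hex, ht1, ?_, hspec⟩
    have h4 := Nat.find_min hex (m := Nat.find hex - 1) (by omega)
    have h5 : Nat.find hex - 1 + 1 = Nat.find hex := by omega
    rw [h5] at h4
    exact not_le.mp h4
  have hσ : 0 < S / (M : ℝ) ^ t := by positivity
  have hexq : ∃ q : ℕ, S / (M : ℝ) ^ t ≤ ((q : ℝ) + 1) * x := by
    obtain ⟨q, hq⟩ := exists_nat_gt (S / (M : ℝ) ^ t / x)
    refine ⟨q, ?_⟩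
    rw [div_lt_iff₀ hx] at hq
    nlinarith
  obtain ⟨q, hqlt, hqge⟩ : ∃ q : ℕ, (q : ℝ) * x < S / (M : ℝ) ^ t ∧
      S / (M : ℝ) ^ t ≤ ((q : ℝ) + 1) * x := by
    refine ⟨Nat.find hexq, ?_, Nat.find_spec hexq⟩
    rcases Nat.eq_zero_or_pos (Nat.find hexq) with h0 | hpos
    · rw [h0, Nat.cast_zero, zero_mul]
      exact hσ
    · have h4 := Nat.find_min hexq (m := Nat.find hexq - 1) (by omega)
      have h5 : ((Nat.find hexq - 1 : ℕ) : ℝ) + 1 = (Nat.find hexq : ℝ) := by
        rw [Nat.cast_sub hpos, Nat.cast_one]
        ring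
      rw [h5] at h4
      exact not_le.mp h4
  have hLq : L ≤ q := by
    have h6 : (L : ℝ) * x < ((q : ℝ) + 1) * x := lt_of_lt_of_le htlt hqge
    have h7 : (L : ℝ) < (q : ℝ) + 1 := lt_of_mul_lt_mul_right h6 hx.le
    have h8 : L < q + 1 := by exact_mod_cast h7
    omega
  have hqLM : q < L * M := by
    have h9 : S / (M : ℝ) ^ t = M * (S / (M : ℝ) ^ (t + 1)) := by
      rw [pow_succ]
      field_simp
    have h10 : (q : ℝ) * x < (L : ℝ) * M * x := by
      calc (q : ℝ) * x < S / (M : ℝ) ^ t := hqlt
        _ = M * (S / (M : ℝ) ^ (t + 1)) := h9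
        _ ≤ M * (L * x) := mul_le_mul_of_nonneg_left htge hM0.le
        _ = (L : ℝ) * M * x := by ring
    have h11 : (q : ℝ) < (L : ℝ) * M := lt_of_mul_lt_mul_right h10 hx.le
    exact_mod_cast h11
  refine ⟨t, q, ht1, by omega, hqLM.le, hqlt, ?_⟩
  have hqR : (0 : ℝ) < q := by exact_mod_cast (by omega : 0 < q)
  rw [div_le_iff₀ hqR]
  have h12 : (1 : ℝ) / q ≤ 1 / L :=
    one_div_le_one_div_of_le hLR (by exact_mod_cast hLq)
  calc S / (M : ℝ) ^ t ≤ ((q : ℝ) + 1) * x := hqge
    _ = (1 + 1 / (q : ℝ)) * x * q := by field_simp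
    _ ≤ (1 + 1 / (L : ℝ)) * x * q := by
        apply mul_le_mul_of_nonneg_right _ hqR.le
        apply mul_le_mul_of_nonneg_right _ hx.le
        linarith

/-- The explicit form: balls of capacities less than `S / (L * M)` with
`(1 + 1 / L) ^ n * ∑ a_i ^ n ≤ S ^ n` pack into the open ball of capacity `R`, as soon as
`S + c < R` and `2 ^ n * (L * M - 1) * (2 * S ^ n) ≤ c ^ n * M ^ n`. -/
theorem dust_explicit {n k : ℕ} (hn : 0 < n) (L M : ℕ) (hL : 2 ≤ L) (hM : 2 ≤ M)
    (S c R : ℝ) (hS : 0 < S) (hc : 0 < c) (hSc : S + c < R)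
    (hE : 2 ^ n * ((L : ℝ) * M - 1) * (2 * S ^ n) ≤ c ^ n * (M : ℝ) ^ n)
    (a : Fin k → ℝ) (ha : ∀ i, 0 < a i) (hsmall : ∀ i, (L : ℝ) * M * a i < S)
    (hvol : (1 + 1 / (L : ℝ)) ^ n * ∑ i, a i ^ n ≤ S ^ n) : Packing n k R a := by
  choose lev typ h1 h2 h3 h4 h5 using
    fun i => dust_labels L M hL hM S hS (a i) (ha i) (hsmall i)
  have hE' : 2 ^ n * (((L * M : ℕ) : ℝ) - 1) * (2 * S ^ n) ≤ c ^ n * (M : ℝ) ^ n := by
    push_cast
    exact hE
  have hMQ : M ≤ L * M := Nat.le_mul_of_pos_left M (by omega)
  rw [packing_iff_packingInto]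
  apply dust_aux hn M (L * M) hM hMQ S c R hS hc hSc hE' k (Fin k) a lev typ (by simp) ha h4
  · intro i _
    exact ⟨h2 i, h3 i⟩
  · intro i hi
    have := h1 i
    omega
  · calc ∑ i, (S / (M : ℝ) ^ (lev i) / (typ i : ℝ)) ^ n
        ≤ ∑ i, ((1 + 1 / (L : ℝ)) * a i) ^ n := by
          apply Finset.sum_le_sum
          intro i _
          exact pow_le_pow_left₀ (by positivity) (h5 i) n
      _ = (1 + 1 / (L : ℝ)) ^ n * ∑ i, a i ^ n := by
          rw [Finset.mul_sum]
          apply Finset.sum_congr rfl
          intro i _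
          rw [mul_pow]
      _ ≤ S ^ n := hvol

/-- Packing stability for small balls: for every `δ > 0` there is `ε > 0` such that any
number of balls of capacities at most `ε R` whose total volume is at most `1 - δ` times the
volume of the ball of capacity `R` pack into it. -/
theorem dust_packing (n : ℕ) (hn : 2 ≤ n) (δ : ℝ) (hδ : 0 < δ) :
    ∃ ε : ℝ, 0 < ε ∧ ∀ (k : ℕ) (R : ℝ), 0 < R → ∀ a : Fin k → ℝ, (∀ i, 0 < a i) →
      (∀ i, a i ≤ ε * R) → ∑ i, a i ^ n ≤ (1 - δ) * R ^ n → Packing n k R a := by
  obtain ⟨L, M, s, c, ε, hL, hM, hs, hc, hsc, hε, hεs, hvol, hE⟩ :=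
    dust_params n hn (min δ (1 / 2)) (lt_min hδ (by norm_num)) (min_le_right _ _)
  refine ⟨ε, hε, ?_⟩
  intro k R hR a ha hsmall hsum
  have hLR : (0 : ℝ) < L := by exact_mod_cast (by omega : 0 < L)
  have hMR : (0 : ℝ) < M := by exact_mod_cast (by omega : 0 < M)
  have hRn : 0 < R ^ n := pow_pos hR n
  apply dust_explicit (by omega) L M hL hM (s * R) (c * R) R (mul_pos hs hR) (mul_pos hc hR)
  · nlinarith
  · rw [mul_pow, mul_pow]
    have h1 := mul_le_mul_of_nonneg_right hE hRn.le
    calc 2 ^ n * ((L : ℝ) * M - 1) * (2 * (s ^ n * R ^ n))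
        = 2 ^ n * ((L : ℝ) * M - 1) * (2 * s ^ n) * R ^ n := by ring
      _ ≤ c ^ n * (M : ℝ) ^ n * R ^ n := h1
      _ = c ^ n * R ^ n * (M : ℝ) ^ n := by ring
  · exact ha
  · intro i
    calc (L : ℝ) * M * a i ≤ (L : ℝ) * M * (ε * R) :=
          mul_le_mul_of_nonneg_left (hsmall i) (by positivity)
      _ = ε * ((L : ℝ) * M) * R := by ring
      _ < s * R := mul_lt_mul_of_pos_right hεs hR
  · have hpos : (0 : ℝ) ≤ (1 + 1 / (L : ℝ)) ^ n := by positivity
    calc (1 + 1 / (L : ℝ)) ^ n * ∑ i, a i ^ n
        ≤ (1 + 1 / (L : ℝ)) ^ n * ((1 - δ) * R ^ n) := mul_le_mul_of_nonneg_left hsum hpos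
      _ ≤ (1 + 1 / (L : ℝ)) ^ n * ((1 - min δ (1 / 2)) * R ^ n) := by
          apply mul_le_mul_of_nonneg_left _ hpos
          apply mul_le_mul_of_nonneg_right _ hRn.le
          linarith [min_le_left δ (1 / 2)]
      _ = ((1 + 1 / (L : ℝ)) ^ n * (1 - min δ (1 / 2))) * R ^ n := by ring
      _ ≤ s ^ n * R ^ n := mul_le_mul_of_nonneg_right hvol hRn.le
      _ = (s * R) ^ n := by rw [mul_pow]

end Vale.Agent.Lib.P209
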