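import Vale.Agent.Lib.P209.Polar

/-!
# Toric reflection maps

For integer vectors `w, β` with `∑ β_j w_j = 2` and a real vector `v`, the affine map
`x ↦ x - (β · x) w + v` of the moment coordinates, together with `θ ↦ θ - (w · θ) β` on the
angles, is a symplectomorphism between toric domains.  `refMap w β v` is this map written in the
complex coordinates of `ℂ^n`.
-/

namespace Vale.Agent.Lib.P209

open Topology

/-- the affine reflection on moment coordinates -/
def refMom {n : ℕ} (w β : Fin n → ℕ) (v : Fin n → ℝ) (x : Fin n → ℝ) (j : Fin n) : ℝ :=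
  x j - (∑ l, (β l : ℝ) * x l) * (w j : ℝ) + v j

/-- the toric reflection map in complex coordinates -/
noncomputable def refMap {n : ℕ} (w β : Fin n → ℕ) (v : Fin n → ℝ) (z : Fin n → ℂ)
    (j : Fin n) : ℂ :=
  ((Real.exp (1 / 2 * (Real.log (refMom w β v (mom z) j / Real.pi)
      - Real.log (Complex.normSq (z j))
      - (β j : ℝ) * ∑ l, (w l : ℝ) * Real.log (Complex.normSq (z l)))) : ℝ) : ℂ)
    * z j * (starRingEnd ℂ (∏ l, z l ^ w l)) ^ β j

/-- the linear part of the reflection in action-angle coordinates -/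
def refLin {n : ℕ} (w β : Fin n → ℕ) : (Fin n → ℝ × ℝ) →ₗ[ℝ] (Fin n → ℝ × ℝ) where
  toFun p := fun j => ((p j).1 - (∑ l, (β l : ℝ) * (p l).1) * (w j : ℝ),
    (p j).2 - (∑ l, (w l : ℝ) * (p l).2) * (β j : ℝ))
  map_add' := by
    intro p p'
    funext j
    apply Prod.ext
    · simp only [Pi.add_apply, Prod.fst_add, mul_add, Finset.sum_add_distrib]
      ring
    · simp only [Pi.add_apply, Prod.snd_add, mul_add, Finset.sum_add_distrib]
      ring
  map_smul' := by
    intro c p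
    funext j
    apply Prod.ext
    · simp only [Pi.smul_apply, Prod.smul_fst, smul_eq_mul, RingHom.id_apply]
      have : ∑ l, (β l : ℝ) * (c * (p l).1) = c * ∑ l, (β l : ℝ) * (p l).1 := by
        rw [Finset.mul_sum]
        apply Finset.sum_congr rfl
        intro l _
        ring
      rw [this]
      ring
    · simp only [Pi.smul_apply, Prod.smul_snd, smul_eq_mul, RingHom.id_apply]
      have : ∑ l, (w l : ℝ) * (c * (p l).2) = c * ∑ l, (w l : ℝ) * (p l).2 := by
        rw [Finset.mul_sum]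
        apply Finset.sum_congr rfl
        intro l _
        ring
      rw [this]
      ring

theorem refLin_apply {n : ℕ} (w β : Fin n → ℕ) (p : Fin n → ℝ × ℝ) (j : Fin n) :
    refLin w β p j = ((p j).1 - (∑ l, (β l : ℝ) * (p l).1) * (w j : ℝ),
      (p j).2 - (∑ l, (w l : ℝ) * (p l).2) * (β j : ℝ)) := rfl

/-- the reflection in action-angle coordinates, as a continuous linear map -/
noncomputable def refCLM {n : ℕ} (w β : Fin n → ℕ) :
    (Fin n → ℝ × ℝ) →L[ℝ] (Fin n → ℝ × ℝ) :=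
  LinearMap.toContinuousLinearMap (refLin w β)

theorem refCLM_apply {n : ℕ} (w β : Fin n → ℕ) (p : Fin n → ℝ × ℝ) (j : Fin n) :
    refCLM w β p j = ((p j).1 - (∑ l, (β l : ℝ) * (p l).1) * (w j : ℝ),
      (p j).2 - (∑ l, (w l : ℝ) * (p l).2) * (β j : ℝ)) := rfl

theorem omegaQ_refCLM {n : ℕ} (w β : Fin n → ℕ) (h2 : ∑ j, β j * w j = 2)
    (a b : Fin n → ℝ × ℝ) : omegaQ (refCLM w β a) (refCLM w β b) = omegaQ a b := by
  have h2' : ∑ j, (β j : ℝ) * (w j : ℝ) = 2 := by
    have := congrArg (fun k : ℕ => (k : ℝ)) h2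
    simpa using this
  unfold omegaQ
  simp only [refCLM_apply]
  set A := ∑ l, (β l : ℝ) * (a l).1 with hA
  set B := ∑ l, (β l : ℝ) * (b l).1 with hB
  set A' := ∑ l, (w l : ℝ) * (a l).2 with hA'
  set B' := ∑ l, (w l : ℝ) * (b l).2 with hB'
  have key : ∀ j : Fin n,
      ((a j).1 - A * (w j : ℝ)) * ((b j).2 - B' * (β j : ℝ)) -
        ((a j).2 - A' * (β j : ℝ)) * ((b j).1 - B * (w j : ℝ)) =
      ((a j).1 * (b j).2 - (a j).2 * (b j).1) - B' * ((β j : ℝ) * (a j).1)
        - A * ((w j : ℝ) * (b j).2) + A * B' * ((β j : ℝ) * (w j : ℝ))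
        + A' * ((β j : ℝ) * (b j).1) + B * ((w j : ℝ) * (a j).2)
        - A' * B * ((β j : ℝ) * (w j : ℝ)) := by
    intro j
    ring
  rw [Finset.sum_congr rfl (fun j _ => key j)]
  simp only [Finset.sum_add_distrib, Finset.sum_sub_distrib, ← Finset.mul_sum]
  rw [h2', ← hA, ← hB, ← hA', ← hB']
  ring

theorem mom_Pol {n : ℕ} {p : Fin n → ℝ × ℝ} {j : Fin n} (hp : 0 < (p j).1) :
    mom (Pol p) j = (p j).1 := by
  unfold mom Pol
  rw [normSq_pol hp]
  field_simp

/-- The toric reflection map is the affine reflection in action-angle coordinates. -/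
theorem refMap_Pol {n : ℕ} (w β : Fin n → ℕ) (v : Fin n → ℝ) (p : Fin n → ℝ × ℝ)
    (hp : ∀ j, 0 < (p j).1) :
    refMap w β v (Pol p) = Pol (refCLM w β p + fun j => (v j, 0)) := by
  have hmom : mom (Pol p) = fun l => (p l).1 := by
    funext l
    exact mom_Pol (hp l)
  funext j
  -- abbreviations
  set L : Fin n → ℝ := fun l => Real.log ((p l).1 / Real.pi) with hL
  set SL : ℝ := ∑ l, (w l : ℝ) * L l with hSL
  set Sθ : ℝ := ∑ l, (w l : ℝ) * (p l).2 with hSθ
  have hN : ∀ l, Real.log (Complex.normSq (Pol p l)) = L l := by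
    intro l
    show Real.log (Complex.normSq (pol (p l))) = _
    rw [normSq_pol (hp l)]
  have hc : ∀ l, Pol p l = Complex.exp (((1 / 2 * L l : ℝ) : ℂ) +
      ((2 * Real.pi * (p l).2 : ℝ) : ℂ) * Complex.I) := fun l => rfl
  have hprod : ∏ l, Pol p l ^ w l = Complex.exp (((1 / 2 * SL : ℝ) : ℂ) +
      ((2 * Real.pi * Sθ : ℝ) : ℂ) * Complex.I) := by
    have e1 : ∀ l, Pol p l ^ w l = Complex.exp ((w l : ℂ) * (((1 / 2 * L l : ℝ) : ℂ) +
        ((2 * Real.pi * (p l).2 : ℝ) : ℂ) * Complex.I)) := by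
      intro l
      rw [hc l, Complex.exp_nat_mul]
    rw [Finset.prod_congr rfl (fun l _ => e1 l), ← Complex.exp_sum]
    congr 1
    rw [hSL, hSθ]
    push_cast
    rw [Finset.mul_sum, Finset.mul_sum, Finset.sum_mul, ← Finset.sum_add_distrib]
    apply Finset.sum_congr rfl
    intro l _
    ring
  have hlhs : refMap w β v (Pol p) j =
      Complex.exp (((1 / 2 * (Real.log (refMom w β v (fun l => (p l).1) j / Real.pi) - L j
        - (β j : ℝ) * SL) : ℝ) : ℂ)) *
      Complex.exp (((1 / 2 * L j : ℝ) : ℂ) + ((2 * Real.pi * (p j).2 : ℝ) : ℂ) * Complex.I) *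
      Complex.exp ((β j : ℂ) * (((1 / 2 * SL : ℝ) : ℂ) -
        ((2 * Real.pi * Sθ : ℝ) : ℂ) * Complex.I)) := by
    unfold refMap
    rw [hmom, hprod, ← Complex.exp_conj, ← Complex.exp_nat_mul, Complex.ofReal_exp]
    simp only [hN]
    rw [← hSL, ← hc j]
    congr 2
    congr 1
    simp only [map_add, map_mul, Complex.conj_ofReal, Complex.conj_I]
    ring
  rw [hlhs, ← Complex.exp_add, ← Complex.exp_add]
  show _ = pol ((refCLM w β p + (fun j => (v j, (0 : ℝ)) : Fin n → ℝ × ℝ)) j)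
  unfold pol
  congr 1
  have e1 : ((refCLM w β p + (fun j => (v j, (0 : ℝ)) : Fin n → ℝ × ℝ)) j).1 =
      refMom w β v (fun l => (p l).1) j := by
    simp only [Pi.add_apply, refCLM_apply, Prod.fst_add]
    rfl
  have e2 : ((refCLM w β p + (fun j => (v j, (0 : ℝ)) : Fin n → ℝ × ℝ)) j).2 =
      (p j).2 - Sθ * (β j : ℝ) := by
    simp only [Pi.add_apply, refCLM_apply, Prod.snd_add, add_zero]
    rfl
  rw [e1, e2]
  push_cast
  ring

theorem exists_polar {n : ℕ} (z : Fin n → ℂ) (hz : ∀ j, z j ≠ 0) :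
    ∃ p : Fin n → ℝ × ℝ, (∀ j, 0 < (p j).1) ∧ Pol p = z ∧ ∀ j, (p j).1 = mom z j := by
  refine ⟨fun j => (mom z j, (z j).arg / (2 * Real.pi)), ?_, ?_, fun j => rfl⟩
  · intro j
    exact mul_pos Real.pi_pos (Complex.normSq_pos.mpr (hz j))
  · funext j
    show pol (mom z j, (z j).arg / (2 * Real.pi)) = z j
    have hpi : Real.pi ≠ 0 := Real.pi_ne_zero
    have e1 : Real.pi * Complex.normSq (z j) / Real.pi = ‖z j‖ ^ 2 := by
      rw [Complex.normSq_eq_norm_sq]
      field_simp
    have e2 : 2 * Real.pi * ((z j).arg / (2 * Real.pi)) = (z j).arg := by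
      field_simp
    have e3 : (1 / 2 * (((2 : ℕ) : ℝ) * Real.log ‖z j‖) : ℝ) = Real.log ‖z j‖ := by
      push_cast
      ring
    unfold pol mom
    simp only
    rw [e1, e2, Real.log_pow, e3, Complex.exp_add, ← Complex.ofReal_exp,
      Real.exp_log (norm_pos_iff.mpr (hz j))]
    exact Complex.norm_mul_exp_arg_mul_I (z j)

theorem pol_eq {q q' : ℝ × ℝ} (hq : 0 < q.1) (hq' : 0 < q'.1) (h : pol q = pol q') :
    q.1 = q'.1 ∧ ∃ k : ℤ, q.2 = q'.2 + k := by
  unfold pol at h
  rw [Complex.exp_eq_exp_iff_exists_int] at h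
  obtain ⟨k, hk⟩ := h
  have hre := congrArg Complex.re hk
  have him := congrArg Complex.im hk
  simp only [Complex.add_re, Complex.add_im, Complex.mul_re, Complex.mul_im, Complex.ofReal_re,
    Complex.ofReal_im, Complex.I_re, Complex.I_im, Complex.intCast_re, Complex.intCast_im,
    Complex.re_ofNat, Complex.im_ofNat, mul_zero, mul_one, zero_mul, sub_zero, add_zero,
    zero_add, sub_self] at hre him
  have hpi := Real.pi_pos
  constructor
  · have h1 : Real.log (q.1 / Real.pi) = Real.log (q'.1 / Real.pi) := by linarith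
    have h2 := Real.log_injOn_pos (Set.mem_Ioi.mpr (div_pos hq hpi))
      (Set.mem_Ioi.mpr (div_pos hq' hpi)) h1
    field_simp at h2
    exact h2
  · refine ⟨k, ?_⟩
    have h3 : 2 * Real.pi * (q.2 - (q'.2 + k)) = 0 := by linarith
    have h4 : q.2 - (q'.2 + k) = 0 := by
      rcases mul_eq_zero.mp h3 with h | h
      · linarith
      · exact h
    linarith

theorem pol_add_int (x θ : ℝ) (k : ℤ) : pol (x, θ + k) = pol (x, θ) := by
  unfold pol
  rw [Complex.exp_eq_exp_iff_exists_int]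
  refine ⟨k, ?_⟩
  push_cast
  ring

/-- the domain of the toric reflection map -/
def refDom {n : ℕ} (w β : Fin n → ℕ) (v : Fin n → ℝ) : Set (Fin n → ℂ) :=
  {z | (∀ j, z j ≠ 0) ∧ ∀ j, 0 < refMom w β v (mom z) j}

theorem contDiff_normSq_apply {n : ℕ} (l : Fin n) {m : WithTop ℕ∞} :
    ContDiff ℝ m (fun z : Fin n → ℂ => Complex.normSq (z l)) := by
  have hre : ContDiff ℝ m (fun z : Fin n → ℂ => (z l).re) :=
    Complex.reCLM.contDiff.comp (contDiff_apply ℝ ℂ l)
  have him : ContDiff ℝ m (fun z : Fin n → ℂ => (z l).im) :=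
    Complex.imCLM.contDiff.comp (contDiff_apply ℝ ℂ l)
  have : (fun z : Fin n → ℂ => Complex.normSq (z l)) =
      fun z => (z l).re * (z l).re + (z l).im * (z l).im := by
    funext z
    exact Complex.normSq_apply _
  rw [this]
  exact (hre.mul hre).add (him.mul him)

theorem contDiff_mom {n : ℕ} (l : Fin n) {m : WithTop ℕ∞} :
    ContDiff ℝ m (fun z : Fin n → ℂ => mom z l) :=
  contDiff_const.mul (contDiff_normSq_apply l)

theorem contDiff_refMom_mom {n : ℕ} (w β : Fin n → ℕ) (v : Fin n → ℝ) (j : Fin n)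
    {m : WithTop ℕ∞} : ContDiff ℝ m (fun z : Fin n → ℂ => refMom w β v (mom z) j) := by
  unfold refMom
  exact (((contDiff_mom j).sub
    ((ContDiff.sum (fun l _ => contDiff_const.mul (contDiff_mom l))).mul contDiff_const)).add
    contDiff_const)

theorem contDiffAt_refMap {n : ℕ} (w β : Fin n → ℕ) (v : Fin n → ℝ) {z : Fin n → ℂ}
    (hz : z ∈ refDom w β v) {m : WithTop ℕ∞} : ContDiffAt ℝ m (refMap w β v) z := by
  rw [contDiffAt_pi]
  intro j
  have hlog1 : ContDiffAt ℝ m
      (fun z : Fin n → ℂ => Real.log (refMom w β v (mom z) j / Real.pi)) z :=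
    (((contDiff_refMom_mom w β v j).div_const Real.pi).contDiffAt).log
      (ne_of_gt (div_pos (hz.2 j) Real.pi_pos))
  have hlog2 : ∀ l, ContDiffAt ℝ m
      (fun z : Fin n → ℂ => Real.log (Complex.normSq (z l))) z := fun l =>
    ((contDiff_normSq_apply l).contDiffAt).log (ne_of_gt (Complex.normSq_pos.mpr (hz.1 l)))
  have hE : ContDiffAt ℝ m (fun z : Fin n → ℂ =>
      1 / 2 * (Real.log (refMom w β v (mom z) j / Real.pi)
      - Real.log (Complex.normSq (z j))
      - (β j : ℝ) * ∑ l, (w l : ℝ) * Real.log (Complex.normSq (z l)))) z :=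
    contDiffAt_const.mul ((hlog1.sub (hlog2 j)).sub
      (contDiffAt_const.mul (ContDiffAt.sum (fun l _ => contDiffAt_const.mul (hlog2 l)))))
  have hF1 : ContDiffAt ℝ m (fun z : Fin n → ℂ =>
      ((Real.exp (1 / 2 * (Real.log (refMom w β v (mom z) j / Real.pi)
      - Real.log (Complex.normSq (z j))
      - (β j : ℝ) * ∑ l, (w l : ℝ) * Real.log (Complex.normSq (z l)))) : ℝ) : ℂ)) z :=
    Complex.ofRealCLM.contDiff.contDiffAt.comp z (Real.contDiff_exp.contDiffAt.comp z hE)
  have hF2 : ContDiffAt ℝ m (fun z : Fin n → ℂ => z j) z := (contDiff_apply ℝ ℂ j).contDiffAt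
  have hF3 : ContDiffAt ℝ m
      (fun z : Fin n → ℂ => (starRingEnd ℂ (∏ l, z l ^ w l)) ^ β j) z := by
    have h1 : ContDiff ℝ m (fun z : Fin n → ℂ => ∏ l, z l ^ w l) :=
      contDiff_prod (fun l _ => (contDiff_apply ℝ ℂ l).pow (w l))
    have h2 : ContDiff ℝ m (fun z : Fin n → ℂ => starRingEnd ℂ (∏ l, z l ^ w l)) :=
      Complex.conjCLE.contDiff.comp h1
    exact (h2.pow (β j)).contDiffAt
  exact (hF1.mul hF2).mul hF3

theorem refMap_mom {n : ℕ} (w β : Fin n → ℕ) (v : Fin n → ℝ) {z : Fin n → ℂ}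
    (hz : z ∈ refDom w β v) (j : Fin n) :
    mom (refMap w β v z) j = refMom w β v (mom z) j := by
  obtain ⟨p, hp, hpz, hpm⟩ := exists_polar z hz.1
  have hmz : (fun l => (p l).1) = mom z := funext hpm
  rw [← hpz, refMap_Pol w β v p hp]
  have e1 : ((refCLM w β p + (fun j => (v j, (0 : ℝ)) : Fin n → ℝ × ℝ)) j).1 =
      refMom w β v (fun l => (p l).1) j := by
    simp only [Pi.add_apply, refCLM_apply, Prod.fst_add]
    rfl
  rw [mom_Pol (by rw [e1, hmz]; exact hz.2 j), e1, hmz, hpz]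

theorem refMap_sympAt {n : ℕ} (w β : Fin n → ℕ) (v : Fin n → ℝ) (h2 : ∑ j, β j * w j = 2)
    {z : Fin n → ℂ} (hz : z ∈ refDom w β v) : SympAt (refMap w β v) z := by
  obtain ⟨p, hp, hpz, hpm⟩ := exists_polar z hz.1
  have hmz : (fun l => (p l).1) = mom z := funext hpm
  have e1 : ∀ j, ((refCLM w β p + (fun j => (v j, (0 : ℝ)) : Fin n → ℝ × ℝ)) j).1 =
      refMom w β v (fun l => (p l).1) j := by
    intro j
    simp only [Pi.add_apply, refCLM_apply, Prod.fst_add]
    rfl
  rw [← hpz]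
  apply toric_sympAt (refMap w β v) (refCLM w β) (fun j => (v j, (0 : ℝ)))
    (omegaQ_refCLM w β h2) p hp
  · intro j
    rw [e1, hmz]
    exact hz.2 j
  · rw [hpz]
    exact (contDiffAt_refMap w β v hz (m := 1)).differentiableAt (by norm_num)
  · have hev : ∀ᶠ p' in 𝓝 p, ∀ j, 0 < (p' j).1 := by
      rw [Filter.eventually_all]
      intro j
      have hc : ContinuousAt (fun p' : Fin n → ℝ × ℝ => (p' j).1) p :=
        (continuous_fst.comp (continuous_apply j)).continuousAt
      exact hc.eventually (lt_mem_nhds (hp j))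
    filter_upwards [hev] with p' hp'
    exact refMap_Pol w β v p' hp'

theorem refMap_injOn {n : ℕ} (w β : Fin n → ℕ) (v : Fin n → ℝ) (h2 : ∑ j, β j * w j = 2) :
    Set.InjOn (refMap w β v) (refDom w β v) := by
  have h2' : ∑ j, (β j : ℝ) * (w j : ℝ) = 2 := by
    have := congrArg (fun k : ℕ => (k : ℝ)) h2
    simpa using this
  intro z hz z' hz' heq
  obtain ⟨p, hp, hpz, hpm⟩ := exists_polar z hz.1
  obtain ⟨p', hp', hpz', hpm'⟩ := exists_polar z' hz'.1
  have hmz : (fun l => (p l).1) = mom z := funext hpm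
  have hmz' : (fun l => (p' l).1) = mom z' := funext hpm'
  rw [← hpz, ← hpz', refMap_Pol w β v p hp, refMap_Pol w β v p' hp'] at heq
  have e1 : ∀ (p : Fin n → ℝ × ℝ) (j : Fin n),
      ((refCLM w β p + (fun j => (v j, (0 : ℝ)) : Fin n → ℝ × ℝ)) j).1 =
      refMom w β v (fun l => (p l).1) j := by
    intro p j
    simp only [Pi.add_apply, refCLM_apply, Prod.fst_add]
    rfl
  have e2 : ∀ (p : Fin n → ℝ × ℝ) (j : Fin n),
      ((refCLM w β p + (fun j => (v j, (0 : ℝ)) : Fin n → ℝ × ℝ)) j).2 =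
      (p j).2 - (∑ l, (w l : ℝ) * (p l).2) * (β j : ℝ) := by
    intro p j
    simp only [Pi.add_apply, refCLM_apply, Prod.snd_add, add_zero]
  have hcomp : ∀ j, refMom w β v (fun l => (p l).1) j = refMom w β v (fun l => (p' l).1) j ∧
      ∃ k : ℤ, (p j).2 - (∑ l, (w l : ℝ) * (p l).2) * (β j : ℝ) =
        (p' j).2 - (∑ l, (w l : ℝ) * (p' l).2) * (β j : ℝ) + k := by
    intro j
    have hj : pol ((refCLM w β p + (fun j => (v j, (0 : ℝ)) : Fin n → ℝ × ℝ)) j) =
        pol ((refCLM w β p' + (fun j => (v j, (0 : ℝ)) : Fin n → ℝ × ℝ)) j) := congrFun heq j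
    have hpos : 0 < ((refCLM w β p + (fun j => (v j, (0 : ℝ)) : Fin n → ℝ × ℝ)) j).1 := by
      rw [e1, hmz]
      exact hz.2 j
    have hpos' : 0 < ((refCLM w β p' + (fun j => (v j, (0 : ℝ)) : Fin n → ℝ × ℝ)) j).1 := by
      rw [e1, hmz']
      exact hz'.2 j
    have := pol_eq hpos hpos' hj
    rw [e1, e1, e2, e2] at this
    exact this
  choose hx k hk using hcomp
  -- moment coordinates agree
  have hβx : ∑ l, (β l : ℝ) * (p l).1 = ∑ l, (β l : ℝ) * (p' l).1 := by
    have hsum : ∑ j, (β j : ℝ) * refMom w β v (fun l => (p l).1) j =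
        ∑ j, (β j : ℝ) * refMom w β v (fun l => (p' l).1) j :=
      Finset.sum_congr rfl (fun j _ => by rw [hx j])
    have expand : ∀ q : Fin n → ℝ × ℝ, ∑ j, (β j : ℝ) * refMom w β v (fun l => (q l).1) j =
        (∑ l, (β l : ℝ) * (q l).1) - (∑ l, (β l : ℝ) * (q l).1) * 2 + ∑ j, (β j : ℝ) * v j := by
      intro q
      unfold refMom
      rw [← h2']
      simp only [mul_add, mul_sub, Finset.sum_add_distrib, Finset.sum_sub_distrib]
      congr 2
      rw [Finset.mul_sum]
      apply Finset.sum_congr rfl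
      intro j _
      ring
    rw [expand p, expand p'] at hsum
    linarith
  have hx1 : ∀ j, (p j).1 = (p' j).1 := by
    intro j
    have := hx j
    unfold refMom at this
    rw [hβx] at this
    linarith
  -- angles agree modulo integers
  have hwθ : (∑ l, (w l : ℝ) * (p l).2) - (∑ l, (w l : ℝ) * (p' l).2) =
      -(((∑ l, (w l : ℤ) * k l : ℤ)) : ℝ) := by
    have hsum : ∑ j, (w j : ℝ) * ((p j).2 - (∑ l, (w l : ℝ) * (p l).2) * (β j : ℝ)) =
        ∑ j, (w j : ℝ) * ((p' j).2 - (∑ l, (w l : ℝ) * (p' l).2) * (β j : ℝ) + k j) :=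
      Finset.sum_congr rfl (fun j _ => by rw [hk j])
    have expand : ∀ q : Fin n → ℝ × ℝ,
        ∑ j, (w j : ℝ) * ((q j).2 - (∑ l, (w l : ℝ) * (q l).2) * (β j : ℝ)) =
        (∑ l, (w l : ℝ) * (q l).2) - (∑ l, (w l : ℝ) * (q l).2) * 2 := by
      intro q
      rw [← h2']
      simp only [mul_sub, Finset.sum_sub_distrib]
      congr 1
      rw [Finset.mul_sum]
      apply Finset.sum_congr rfl
      intro j _
      ring
    have expand' : ∑ j, (w j : ℝ) *
          ((p' j).2 - (∑ l, (w l : ℝ) * (p' l).2) * (β j : ℝ) + k j) =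
        (∑ j, (w j : ℝ) * ((p' j).2 - (∑ l, (w l : ℝ) * (p' l).2) * (β j : ℝ))) +
          ∑ j, (w j : ℝ) * (k j : ℝ) := by
      rw [← Finset.sum_add_distrib]
      apply Finset.sum_congr rfl
      intro j _
      ring
    rw [expand', expand p, expand p'] at hsum
    push_cast
    linarith
  have hθ : ∀ j, ∃ K : ℤ, (p j).2 = (p' j).2 + K := by
    intro j
    refine ⟨-(∑ l, (w l : ℤ) * k l) * (β j : ℤ) + k j, ?_⟩
    have := hk j
    have e : (∑ l, (w l : ℝ) * (p l).2) =
        (∑ l, (w l : ℝ) * (p' l).2) - (((∑ l, (w l : ℤ) * k l : ℤ)) : ℝ) := by linarith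
    rw [e] at this
    push_cast at this ⊢
    linarith
  rw [← hpz, ← hpz']
  funext j
  obtain ⟨K, hK⟩ := hθ j
  show pol (p j) = pol (p' j)
  have : p j = ((p' j).1, (p' j).2 + K) := Prod.ext (hx1 j) hK
  rw [this, pol_add_int]

end Vale.Agent.Lib.P209
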