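import Vale.Agent.Lib.P209.Disc
import Vale.Agent.Lib.P209.Toric

/-!
# Embeddings of a ball with controlled moment image
-/

namespace Vale.Agent.Lib.P209

/-- `Ψ` is a symplectic embedding of the closed ball of capacity `a` (on a neighbourhood `U`),
and the moment image of `U` lies in `S`. -/
def GoodEmb (n : ℕ) (a : ℝ) (Ψ : (Fin n → ℂ) → (Fin n → ℂ)) (S : Set (Fin n → ℝ)) : Prop :=
  ∃ U : Set (Fin n → ℂ), IsOpen U ∧ capBall n a ⊆ U ∧
    (∀ z ∈ U, ContDiffAt ℝ ((⊤ : ℕ∞) : WithTop ℕ∞) Ψ z) ∧ Set.InjOn Ψ U ∧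
    (∀ z ∈ U, SympAt Ψ z) ∧ (∀ z ∈ U, mom (Ψ z) ∈ S)

theorem GoodEmb.isSympEmb {n : ℕ} {a : ℝ} {Ψ : (Fin n → ℂ) → (Fin n → ℂ)}
    {S : Set (Fin n → ℝ)} (h : GoodEmb n a Ψ S) : IsSympEmb n a Ψ := by
  obtain ⟨U, hU, hsub, hsm, hinj, hsy, -⟩ := h
  exact ⟨U, hU, hsub, fun z hz => (hsm z hz).contDiffWithinAt, hinj,
    fun z hz u w => (hsy z hz).fderiv_eq u w⟩

theorem GoodEmb.mom_mem {n : ℕ} {a : ℝ} {Ψ : (Fin n → ℂ) → (Fin n → ℂ)}
    {S : Set (Fin n → ℝ)} (h : GoodEmb n a Ψ S) : ∀ z ∈ capBall n a, mom (Ψ z) ∈ S := by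
  obtain ⟨U, -, hsub, -, -, -, hm⟩ := h
  exact fun z hz => hm z (hsub hz)

/-- the open standard simplex of size `c` in moment coordinates -/
def simplexO (n : ℕ) (c : ℝ) : Set (Fin n → ℝ) := {X | (∀ j, 0 < X j) ∧ ∑ j, X j < c}

theorem continuous_mom {n : ℕ} (j : Fin n) : Continuous (fun z : Fin n → ℂ => mom z j) :=
  (contDiff_mom j (m := 0)).continuous

theorem goodEmb_base (n : ℕ) {a c : ℝ} (ha : 0 ≤ a) (hac : a < c) :
    ∃ Ψ, GoodEmb n a Ψ (simplexO n c) := by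
  have hpi := Real.pi_pos
  set ρ : ℝ := Real.sqrt (a / Real.pi) with hρdef
  have hρ : 0 ≤ ρ := Real.sqrt_nonneg _
  set δ : ℝ := (c - a) / (2 * ((n : ℝ) + 1) * Real.pi * (4 * ρ + 2)) with hδdef
  have hden : 0 < 2 * ((n : ℝ) + 1) * Real.pi * (4 * ρ + 2) := by positivity
  have hδ : 0 < δ := div_pos (by linarith) hden
  set ε : ℝ := min 1 δ with hεdef
  have hε : 0 < ε := lt_min one_pos hδ
  have hε1 : ε ≤ 1 := min_le_left _ _
  have hεδ : ε ≤ δ := min_le_right _ _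
  set κ : ℝ := 4 * ε * ρ + 2 * ε ^ 2 with hκdef
  have hκ0 : 0 ≤ κ := by positivity
  have hκ : (n : ℝ) * (Real.pi * κ) < c - a := by
    have h1 : κ ≤ δ * (4 * ρ + 2) := by
      have : κ ≤ ε * (4 * ρ + 2) := by
        rw [hκdef]
        nlinarith
      have h2 : ε * (4 * ρ + 2) ≤ δ * (4 * ρ + 2) :=
        mul_le_mul_of_nonneg_right hεδ (by linarith)
      linarith
    have h3 : δ * (2 * ((n : ℝ) + 1) * Real.pi * (4 * ρ + 2)) = c - a := by
      rw [hδdef]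
      field_simp
    have hκ' : 0 < Real.pi * (δ * (4 * ρ + 2)) := by positivity
    have h4 : (n : ℝ) * (Real.pi * κ) ≤ (n : ℝ) * (Real.pi * (δ * (4 * ρ + 2))) := by
      apply mul_le_mul_of_nonneg_left _ (Nat.cast_nonneg n)
      exact mul_le_mul_of_nonneg_left h1 hpi.le
    have h5 : (n : ℝ) * (Real.pi * (δ * (4 * ρ + 2))) <
        2 * ((n : ℝ) + 1) * (Real.pi * (δ * (4 * ρ + 2))) := by
      apply mul_lt_mul_of_pos_right _ hκ'
      have : (0 : ℝ) ≤ n := Nat.cast_nonneg n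
      linarith
    have h6 : 2 * ((n : ℝ) + 1) * (Real.pi * (δ * (4 * ρ + 2))) = c - a := by
      rw [← h3]
      ring
    linarith
  refine ⟨sig n ρ ε, {z | (∀ j, sig n ρ ε z j ≠ 0) ∧ ∑ j, mom (sig n ρ ε z) j < c}, ?_, ?_, ?_,
    ?_, ?_, ?_⟩
  · -- openness
    have hcs : Continuous (sig n ρ ε) := (contDiff_sig n hρ hε (m := 0)).continuous
    have h1 : IsOpen {z : Fin n → ℂ | ∀ j, sig n ρ ε z j ≠ 0} := by
      have : {z : Fin n → ℂ | ∀ j, sig n ρ ε z j ≠ 0} =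
          ⋂ j, (fun z : Fin n → ℂ => sig n ρ ε z j) ⁻¹' {0}ᶜ := by
        ext z
        simp
      rw [this]
      apply isOpen_iInter_of_finite
      intro j
      exact ((continuous_apply j).comp hcs).isOpen_preimage _ isOpen_compl_singleton
    have h2 : IsOpen {z : Fin n → ℂ | ∑ j, mom (sig n ρ ε z) j < c} := by
      apply isOpen_lt _ continuous_const
      apply continuous_finset_sum
      intro j _
      exact (continuous_mom j).comp hcs
    exact h1.inter h2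
  · -- the ball is inside
    intro z hz
    have hz' : Real.pi * ∑ j, ‖z j‖ ^ 2 ≤ a := hz
    have hnorm : ∀ j, ‖z j‖ ≤ ρ := by
      intro j
      rw [hρdef]
      apply Real.le_sqrt_of_sq_le
      rw [le_div_iff₀ hpi]
      have : ‖z j‖ ^ 2 ≤ ∑ l, ‖z l‖ ^ 2 :=
        Finset.single_le_sum (f := fun l => ‖z l‖ ^ 2) (fun l _ => sq_nonneg _)
          (Finset.mem_univ j)
      nlinarith
    refine ⟨fun j => discMap_ne_zero hρ hε (hnorm j), ?_⟩
    have hle : ∀ j, mom (sig n ρ ε z) j ≤ Real.pi * ‖z j‖ ^ 2 + Real.pi * κ := by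
      intro j
      show Real.pi * Complex.normSq (discMap ρ ε (z j)) ≤ _
      rw [Complex.normSq_eq_norm_sq]
      have := norm_discMap_sq_le hρ hε (hnorm j)
      nlinarith
    calc ∑ j, mom (sig n ρ ε z) j ≤ ∑ j, (Real.pi * ‖z j‖ ^ 2 + Real.pi * κ) :=
          Finset.sum_le_sum (fun j _ => hle j)
      _ = Real.pi * ∑ j, ‖z j‖ ^ 2 + (n : ℝ) * (Real.pi * κ) := by
          rw [Finset.sum_add_distrib, ← Finset.mul_sum, Finset.sum_const, Finset.card_univ,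
            Fintype.card_fin, nsmul_eq_mul]
      _ < c := by linarith
  · intro z _
    exact (contDiff_sig n hρ hε).contDiffAt
  · exact (sig_injective n hρ hε).injOn
  · intro z _
    exact sympAt_sig n hρ hε z
  · intro z hz
    refine ⟨fun j => ?_, hz.2⟩
    exact mul_pos hpi (Complex.normSq_pos.mpr (hz.1 j))

theorem GoodEmb.step {n : ℕ} {a : ℝ} {Ψ : (Fin n → ℂ) → (Fin n → ℂ)} {S : Set (Fin n → ℝ)}
    (h : GoodEmb n a Ψ S) (w β : Fin n → ℕ) (v : Fin n → ℝ) (h2 : ∑ j, β j * w j = 2)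
    (hS : ∀ X ∈ S, ∀ j, 0 < X j) (hS' : ∀ X ∈ S, ∀ j, 0 < refMom w β v X j) :
    GoodEmb n a (refMap w β v ∘ Ψ) (refMom w β v '' S) := by
  obtain ⟨U, hU, hsub, hsm, hinj, hsy, hm⟩ := h
  have hdom : ∀ z ∈ U, Ψ z ∈ refDom w β v := by
    intro z hz
    refine ⟨fun j => ?_, fun j => hS' _ (hm z hz) j⟩
    have hpos := hS _ (hm z hz) j
    intro h0
    unfold mom at hpos
    rw [h0] at hpos
    simp at hpos
  refine ⟨U, hU, hsub, ?_, ?_, ?_, ?_⟩
  · intro z hz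
    exact (contDiffAt_refMap w β v (hdom z hz)).comp z (hsm z hz)
  · intro z hz z' hz' heq
    exact hinj hz hz' (refMap_injOn w β v h2 (hdom z hz) (hdom z' hz') heq)
  · intro z hz
    exact (refMap_sympAt w β v h2 (hdom z hz)).comp (hsy z hz)
  · intro z hz
    refine ⟨mom (Ψ z), hm z hz, ?_⟩
    funext j
    exact (refMap_mom w β v (hdom z hz) j).symm

theorem packing_of_goodEmb {n k : ℕ} {R : ℝ} {a : Fin k → ℝ} (S : Fin k → Set (Fin n → ℝ))
    (hex : ∀ i, ∃ Ψ, GoodEmb n (a i) Ψ (S i)) (hR : ∀ i, ∀ X ∈ S i, ∑ j, X j < R)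
    (hdisj : ∀ i i', i ≠ i' → Disjoint (S i) (S i')) : Packing n k R a := by
  choose Ψ hΨ using hex
  refine ⟨Ψ, fun i => (hΨ i).isSympEmb, ?_, ?_⟩
  · rintro i y ⟨z, hz, rfl⟩
    have := hR i _ ((hΨ i).mom_mem z hz)
    show Real.pi * ∑ j, ‖Ψ i z j‖ ^ 2 < R
    rw [Finset.mul_sum]
    have e : ∀ j, Real.pi * ‖Ψ i z j‖ ^ 2 = mom (Ψ i z) j := by
      intro j
      unfold mom
      rw [Complex.normSq_eq_norm_sq]
    rw [Finset.sum_congr rfl (fun j _ => e j)]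
    exact this
  · intro i i' hii'
    rw [Set.disjoint_left]
    rintro y ⟨z, hz, rfl⟩ ⟨z', hz', heq⟩
    have h1 := (hΨ i).mom_mem z hz
    have h2 := (hΨ i').mom_mem z' hz'
    rw [heq] at h2
    exact Set.disjoint_left.mp (hdisj i i' hii') h1 h2

end Vale.Agent.Lib.P209
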