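import Vale.Agent.Lib.P209.Embed

/-!
# Moment images: corner simplices and the inverted simplex
-/

namespace Vale.Agent.Lib.P209

open Finset

theorem sum_refMom {n : ℕ} (w β : Fin n → ℕ) (v x : Fin n → ℝ) :
    ∑ j, refMom w β v x j =
      ∑ j, x j - (∑ l, (β l : ℝ) * x l) * (∑ j, (w j : ℝ)) + ∑ j, v j := by
  unfold refMom
  rw [Finset.sum_add_distrib, Finset.sum_sub_distrib, ← Finset.mul_sum]

/-! ### corners -/

/-- the direction of the corner reflection -/
def wC {n : ℕ} (l : Fin n) : Fin n → ℕ := fun j => if j = l then 1 else 0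

/-- the covector of the corner reflection -/
def bC {n : ℕ} (l : Fin n) : Fin n → ℕ := fun j => if j = l then 2 else 1

/-- the translation of the corner reflection -/
def vC {n : ℕ} (R : ℝ) (l : Fin n) : Fin n → ℝ := fun j => if j = l then R else 0

theorem sum_bC_wC {n : ℕ} (l : Fin n) : ∑ j, bC l j * wC l j = 2 := by
  simp [bC, wC]

theorem sum_bC_mul {n : ℕ} (l : Fin n) (x : Fin n → ℝ) :
    ∑ m, (bC l m : ℝ) * x m = ∑ m, x m + x l := by
  have h : ∀ m, (bC l m : ℝ) * x m = x m + (if m = l then x m else 0) := by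
    intro m
    unfold bC
    split_ifs
    · push_cast
      ring
    · push_cast
      ring
  rw [Finset.sum_congr rfl (fun m _ => h m), Finset.sum_add_distrib]
  simp

theorem refMom_corner_self {n : ℕ} (R : ℝ) (l : Fin n) (x : Fin n → ℝ) :
    refMom (wC l) (bC l) (vC R l) x l = R - ∑ m, x m := by
  unfold refMom
  rw [sum_bC_mul]
  simp [wC, vC]
  ring

theorem refMom_corner_ne {n : ℕ} (R : ℝ) (l : Fin n) (x : Fin n → ℝ) {j : Fin n}
    (hj : j ≠ l) : refMom (wC l) (bC l) (vC R l) x j = x j := by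
  unfold refMom
  simp [wC, vC, hj]

theorem sum_refMom_corner {n : ℕ} (R : ℝ) (l : Fin n) (x : Fin n → ℝ) :
    ∑ j, refMom (wC l) (bC l) (vC R l) x j = R - x l := by
  rw [sum_refMom, sum_bC_mul]
  simp [wC, vC]
  ring

/-- the corner simplex of size `c` at the vertex `R e_l` -/
def cornerSet {n : ℕ} (R : ℝ) (l : Fin n) (c : ℝ) : Set (Fin n → ℝ) :=
  refMom (wC l) (bC l) (vC R l) '' simplexO n c

theorem cornerSet_sub {n : ℕ} {R : ℝ} {l : Fin n} {c : ℝ} (hc : c ≤ R) {x : Fin n → ℝ}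
    (hx : x ∈ cornerSet R l c) : (∀ j, 0 < x j) ∧ R - c < x l ∧ ∑ j, x j < R := by
  obtain ⟨X, ⟨hX, hXs⟩, rfl⟩ := hx
  have hl : R - c < refMom (wC l) (bC l) (vC R l) X l := by
    rw [refMom_corner_self]
    linarith
  refine ⟨fun j => ?_, hl, ?_⟩
  · by_cases hj : j = l
    · subst hj
      linarith
    · rw [refMom_corner_ne R l X hj]
      exact hX j
  · rw [sum_refMom_corner]
    linarith [hX l]

theorem goodEmb_corner {n : ℕ} {a c R : ℝ} (l : Fin n) (ha : 0 ≤ a) (hac : a < c) (hc : c ≤ R) :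
    ∃ Ψ, GoodEmb n a Ψ (cornerSet R l c) := by
  obtain ⟨Ψ, hΨ⟩ := goodEmb_base n ha hac
  refine ⟨_, hΨ.step (wC l) (bC l) (vC R l) (sum_bC_wC l) (fun X hX j => hX.1 j) ?_⟩
  intro X hX j
  exact (cornerSet_sub hc ⟨X, hX, rfl⟩).1 j

/-! ### the inverted simplex -/

/-- the direction of the second reflection -/
def wH {n : ℕ} (a b : Fin n) : Fin n → ℕ :=
  fun j => (if j = a then 1 else 0) + (if j = b then 1 else 0)

/-- the covector of the second reflection -/
def bH {n : ℕ} : Fin n → ℕ := fun _ => 1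

/-- the translation of the second reflection -/
def vH {n : ℕ} (a b : Fin n) (q : Fin n → ℝ) (c : ℝ) : Fin n → ℝ :=
  fun j => q j + c * (wH a b j : ℝ)

theorem sum_bH_wH {n : ℕ} (a b : Fin n) : ∑ j, bH j * wH a b j = 2 := by
  simp [bH, wH, Finset.sum_add_distrib]

theorem sum_wH {n : ℕ} (a b : Fin n) : ∑ j, (wH a b j : ℝ) = 2 := by
  simp [wH, Finset.sum_add_distrib]
  norm_num

theorem refMom_H {n : ℕ} (a b : Fin n) (q : Fin n → ℝ) (c : ℝ) (x : Fin n → ℝ) (j : Fin n) :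
    refMom (wH a b) bH (vH a b q c) x j = x j + q j + (c - ∑ m, x m) * (wH a b j : ℝ) := by
  unfold refMom vH
  simp only [bH, Nat.cast_one, one_mul]
  ring

theorem sum_refMom_H {n : ℕ} (a b : Fin n) (q : Fin n → ℝ) (c : ℝ) (x : Fin n → ℝ) :
    ∑ j, refMom (wH a b) bH (vH a b q c) x j = ∑ j, q j + 2 * c - ∑ m, x m := by
  rw [Finset.sum_congr rfl (fun j _ => refMom_H a b q c x j), Finset.sum_add_distrib,
    Finset.sum_add_distrib, ← Finset.mul_sum, sum_wH]
  ring

/-- the inverted simplex of size `c` based at `q` -/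
def invSet {n : ℕ} (a b : Fin n) (q : Fin n → ℝ) (c : ℝ) : Set (Fin n → ℝ) :=
  refMom (wH a b) bH (vH a b q c) '' simplexO n c

theorem invSet_sub {n : ℕ} {a b : Fin n} (hab : a ≠ b) {q : Fin n → ℝ} {c : ℝ} {x : Fin n → ℝ}
    (hx : x ∈ invSet a b q c) :
    (∀ j, q j < x j) ∧ (∀ j, x j < q j + c) ∧ ∑ j, q j + c < ∑ j, x j ∧
      ∑ j, x j < ∑ j, q j + 2 * c := by
  obtain ⟨X, ⟨hX, hXs⟩, rfl⟩ := hx
  have hsum_pos : 0 < ∑ m, X m := by
    have : X a ≤ ∑ m, X m :=
      Finset.single_le_sum (f := X) (fun m _ => (hX m).le) (Finset.mem_univ a)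
    linarith [hX a]
  have hle : ∀ j, X j ≤ ∑ m, X m := fun j =>
    Finset.single_le_sum (f := X) (fun m _ => (hX m).le) (Finset.mem_univ j)
  have hlt : ∀ j j', j ≠ j' → X j < ∑ m, X m := by
    intro j j' hjj'
    have : X j + X j' ≤ ∑ m, X m := by
      have h1 : ∑ m ∈ ({j, j'} : Finset (Fin n)), X m ≤ ∑ m, X m :=
        Finset.sum_le_sum_of_subset_of_nonneg (Finset.subset_univ _) (fun m _ _ => (hX m).le)
      rw [Finset.sum_pair hjj'] at h1
      exact h1
    linarith [hX j']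
  refine ⟨fun j => ?_, fun j => ?_, ?_, ?_⟩
  · rw [refMom_H]
    have h1 : 0 ≤ (c - ∑ m, X m) * (wH a b j : ℝ) :=
      mul_nonneg (by linarith) (Nat.cast_nonneg _)
    linarith [hX j]
  · rw [refMom_H]
    by_cases hja : j = a
    · subst hja
      have hw : (wH j b j : ℝ) = 1 := by
        simp [wH, hab]
      rw [hw]
      linarith [hlt j b hab]
    · by_cases hjb : j = b
      · subst hjb
        have hw : (wH a j j : ℝ) = 1 := by
          simp [wH, hja]
        rw [hw]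
        linarith [hlt j a hja]
      · have hw : (wH a b j : ℝ) = 0 := by
          simp [wH, hja, hjb]
        rw [hw]
        linarith [hle j]
  · rw [sum_refMom_H]
    linarith
  · rw [sum_refMom_H]
    linarith

theorem goodEmb_inv {n : ℕ} {r c : ℝ} (a b : Fin n) (hab : a ≠ b) (q : Fin n → ℝ)
    (hq : ∀ j, 0 ≤ q j) (hr : 0 ≤ r) (hrc : r < c) :
    ∃ Ψ, GoodEmb n r Ψ (invSet a b q c) := by
  obtain ⟨Ψ, hΨ⟩ := goodEmb_base n hr hrc
  refine ⟨_, hΨ.step (wH a b) bH (vH a b q c) (sum_bH_wH a b) (fun X hX j => hX.1 j) ?_⟩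
  intro X hX j
  have := (invSet_sub hab (q := q) (c := c) ⟨X, hX, rfl⟩).1 j
  linarith [hq j]

end Vale.Agent.Lib.P209
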