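import Vale.Agent.Lib.P209.Bands

/-!
# Packing at most `m ^ n` balls when every `m` of the capacities sum to less than `R`
-/

namespace Vale.Agent.Lib.P209

open Finset

theorem packing_msum_sorted {n m k : ℕ} (hn : 0 < n) (hk : k ≤ m ^ n) (hk0 : 0 < k) (R : ℝ)
    (a : Fin k → ℝ) (ha : ∀ i, 0 < a i) (hmono : Monotone a)
    (hsum : ∀ S : Finset (Fin k), S.card ≤ m → ∑ i ∈ S, a i < R) : Packing n k R a := by
  classical
  have hm : 0 < m := by
    rcases Nat.eq_zero_or_pos m with h | h
    · subst h
      rw [zero_pow (by omega)] at hk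
      omega
    · exact h
  obtain ⟨l, hl1, hlm, hlk, hlcase⟩ : ∃ l : ℕ, 1 ≤ l ∧ l ≤ m ∧ l ≤ k ∧ (l = m ∨ l = k) := by
    rcases le_total m k with h | h
    · exact ⟨m, hm, le_refl _, h, Or.inl rfl⟩
    · exact ⟨k, hk0, h, le_refl _, Or.inr rfl⟩
  -- the large ball of colour `j`
  obtain ⟨φ, hφ⟩ : ∃ φ : Fin m → Fin k, ∀ j : Fin m, j.val < l → (φ j).val = k - l + j.val := by
    refine ⟨fun j => if h : j.val < l then ⟨k - l + j.val, by omega⟩ else ⟨0, hk0⟩, ?_⟩
    intro j hj
    simp only [dif_pos hj]
  obtain ⟨A, hA⟩ : ∃ A : Fin m → ℝ, ∀ j, A j = if j.val < l then a (φ j) else 0 :=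
    ⟨fun j => if j.val < l then a (φ j) else 0, fun j => rfl⟩
  have hA0 : ∀ j, 0 ≤ A j := by
    intro j
    rw [hA]
    split_ifs
    · exact (ha _).le
    · exact le_refl _
  have hAsum : ∑ j, A j < R := by
    have hinj : Set.InjOn φ ↑(Finset.univ.filter (fun j : Fin m => j.val < l)) := by
      intro j1 h1 j2 h2 he
      simp only [Finset.coe_filter, Finset.mem_univ, true_and, Set.mem_ofPred_eq] at h1 h2
      have h3 := congrArg Fin.val he
      rw [hφ j1 h1, hφ j2 h2] at h3
      apply Fin.ext
      omega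
    have e : ∑ j, A j =
        ∑ i ∈ (Finset.univ.filter (fun j : Fin m => j.val < l)).image φ, a i := by
      rw [Finset.sum_image hinj, Finset.sum_filter]
      exact Finset.sum_congr rfl (fun j _ => hA j)
    rw [e]
    apply hsum
    calc ((Finset.univ.filter (fun j : Fin m => j.val < l)).image φ).card
        ≤ (Finset.univ.filter (fun j : Fin m => j.val < l)).card := Finset.card_image_le
      _ ≤ (Finset.univ : Finset (Fin m)).card := Finset.card_filter_le _ _
      _ = m := by simp
  obtain ⟨ε, hε0, hεm⟩ : ∃ ε : ℝ, 0 < ε ∧ (m : ℝ) * ε ≤ R - ∑ j, A j := by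
    refine ⟨(R - ∑ j, A j) / ((m : ℝ) + 1), div_pos (by linarith) (by positivity), ?_⟩
    have h1 : ((m : ℝ) + 1) * ((R - ∑ j, A j) / ((m : ℝ) + 1)) = R - ∑ j, A j := by
      field_simp
    have h2 : 0 < (R - ∑ j, A j) / ((m : ℝ) + 1) := div_pos (by linarith) (by positivity)
    linarith
  have hbsum : ∑ j, (A j + ε) ≤ R := by
    rw [Finset.sum_add_distrib, Finset.sum_const, Finset.card_univ, Fintype.card_fin,
      nsmul_eq_mul]
    linarith
  -- colours of the large balls
  obtain ⟨c, hc⟩ : ∃ c : Fin k → Fin m, ∀ i : Fin k, (c i).val = i.val - (k - l) := by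
    refine ⟨fun i => ⟨i.val - (k - l), by have := i.isLt; omega⟩, fun i => rfl⟩
  -- the slots
  have hcard : Fintype.card (Fin k) ≤ Fintype.card (Fin n → Fin m) := by
    rw [Fintype.card_fin, Fintype.card_fun, Fintype.card_fin, Fintype.card_fin]
    exact hk
  obtain ⟨g⟩ := Function.Embedding.nonempty_of_card_le hcard
  obtain ⟨σ, hσ⟩ := Equiv.Perm.exists_extending_pair
    (fun i : {i : Fin k // k - l ≤ i.val} => g i.val)
    (fun i : {i : Fin k // k - l ≤ i.val} => (fun _ : Fin n => c i.val))
    (fun i j h => Subtype.ext (g.injective h))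
    (by
      intro i j h
      have h1 := congrFun h ⟨0, hn⟩
      have h2 := congrArg Fin.val h1
      simp only [hc] at h2
      have h3 := i.2
      have h4 := j.2
      apply Subtype.ext
      apply Fin.ext
      omega)
  have hslotbig : ∀ i : Fin k, k - l ≤ i.val → σ (g i) = fun _ => c i :=
    fun i hi => hσ ⟨i, hi⟩
  have hkl : k - l < k := by omega
  refine (packing_bands hn (fun j => A j + ε) (fun j => by linarith [hA0 j]) a ha
    (fun i => σ (g i)) (σ.injective.comp g.injective)
    (fun i => if k - l ≤ i.val then a i + ε else a ⟨k - l, hkl⟩ + ε) ?_ ?_).mono_R hbsum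
  · intro i
    by_cases hi : k - l ≤ i.val
    · simp only [if_pos hi]
      linarith
    · simp only [if_neg hi]
      have h1 : a i ≤ a ⟨k - l, hkl⟩ := hmono (by
        rw [Fin.le_def]
        show i.val ≤ k - l
        omega)
      linarith
  · intro i p
    by_cases hi : k - l ≤ i.val
    · simp only [if_pos hi]
      rw [hslotbig i hi]
      have hcl : (c i).val < l := by
        rw [hc]
        have := i.isLt
        omega
      have hφc : φ (c i) = i := by
        apply Fin.ext
        rw [hφ (c i) hcl, hc]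
        omega
      have h1 : A (c i) = a i := by
        rw [hA, if_pos hcl, hφc]
      linarith
    · simp only [if_neg hi]
      have hlm' : l = m := by
        rcases hlcase with h | h
        · exact h
        · exfalso
          omega
      have hj : (σ (g i) p).val < l := by
        rw [hlm']
        exact (σ (g i) p).isLt
      have h1 : A (σ (g i) p) = a (φ (σ (g i) p)) := by
        rw [hA, if_pos hj]
      have h2 : a ⟨k - l, hkl⟩ ≤ a (φ (σ (g i) p)) := hmono (by
        rw [Fin.le_def, hφ _ hj]
        show k - l ≤ k - l + (σ (g i) p).val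
        omega)
      linarith

theorem packing_msum {n m k : ℕ} (hn : 0 < n) (hk : k ≤ m ^ n) (R : ℝ)
    (a : Fin k → ℝ) (ha : ∀ i, 0 < a i)
    (hsum : ∀ S : Finset (Fin k), S.card ≤ m → ∑ i ∈ S, a i < R) : Packing n k R a := by
  rcases Nat.eq_zero_or_pos k with hk0 | hkpos
  · subst hk0
    exact ⟨fun i => i.elim0, fun i => i.elim0, fun i => i.elim0, fun i => i.elim0⟩
  apply Packing.perm (Tuple.sort a)
  apply packing_msum_sorted hn hk hkpos R (a ∘ Tuple.sort a) (fun i => ha _)
    (Tuple.monotone_sort a)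
  intro S hS
  have h1 := hsum (S.map (Tuple.sort a).toEmbedding) (by rw [Finset.card_map]; exact hS)
  rw [Finset.sum_map] at h1
  exact h1

end Vale.Agent.Lib.P209
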