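import Vale.Agent.Lib.P209.Compose
import Vale.Agent.Lib.P209.MSum

/-!
# Dyadic packings: balls of total weight `∑ (2 a_i) ^ n ≤ R ^ n` pack into the ball of capacity `R`
-/

namespace Vale.Agent.Lib.P209

open Finset

theorem capBall_subset_capOpenBall {n : ℕ} {r R : ℝ} (h : r < R) :
    capBall n r ⊆ capOpenBall n R := by
  intro z hz
  exact lt_of_le_of_lt (show Real.pi * ∑ j, ‖z j‖ ^ 2 ≤ r from hz) h

/-- at most `2 ^ n` balls of capacities less than `c / 2` pack into the ball of capacity `c` -/
theorem cell_packing {n : ℕ} (hn : 0 < n) {T : Type} [Fintype T]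
    (hT : Fintype.card T ≤ 2 ^ n) (c : ℝ) (hc0 : 0 < c) (a : T → ℝ) (ha : ∀ i, 0 < a i)
    (hc : ∀ i, 2 * a i < c) : PackingInto n (capBall n c) a := by
  classical
  have h1 : Packing n (Fintype.card T) c (a ∘ (Fintype.equivFin T).symm) := by
    apply packing_msum hn hT c (a ∘ (Fintype.equivFin T).symm) (fun i => ha _)
    intro S hS
    rcases S.eq_empty_or_nonempty with h | h
    · rw [h, Finset.sum_empty]
      exact hc0
    · calc ∑ i ∈ S, (a ∘ (Fintype.equivFin T).symm) i < ∑ i ∈ S, c / 2 := by
            apply Finset.sum_lt_sum_of_nonempty h
            intro i _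
            have := hc ((Fintype.equivFin T).symm i)
            simp only [Function.comp_apply]
            linarith
        _ = S.card * (c / 2) := by rw [Finset.sum_const, nsmul_eq_mul]
        _ ≤ 2 * (c / 2) := by
            apply mul_le_mul_of_nonneg_right _ (by linarith)
            exact_mod_cast hS
        _ = c := by ring
  have h2 : PackingInto n (capBall n c) (a ∘ (Fintype.equivFin T).symm) :=
    PackingInto.mono h1 (capOpenBall_subset_capBall n c)
  have h3 := h2.reindex (Fintype.equivFin T) (Fintype.equivFin T).injective
  have h4 : (a ∘ (Fintype.equivFin T).symm) ∘ (Fintype.equivFin T) = a := by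
    funext i
    simp
  rw [h4] at h3
  exact h3

/-- the dyadic induction: balls with levels `j i ≤ J`, capacities `a i < R / 2 ^ j i` and
total weight `∑ (2 ^ n) ^ (J - j i) ≤ (2 ^ n) ^ J` pack into the open ball of capacity `R` -/
theorem kraft_aux {n : ℕ} (hn : 0 < n) : ∀ J r : ℕ, ∀ (ι : Type) [Fintype ι] (a : ι → ℝ)
    (j : ι → ℕ) (R : ℝ), 0 < R → (∀ i, j i ≤ J) →
    (univ.filter (fun i => j i = J)).card ≤ r →
    ∑ i, (2 ^ n) ^ (J - j i) ≤ (2 ^ n) ^ J → (∀ i, 0 < a i) → (∀ i, a i < R / 2 ^ (j i)) →
    PackingInto n (capOpenBall n R) a := by
  classical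
  intro J
  induction J with
  | zero =>
    intro r ι _ a j R hR hj hr hpot ha0 ha
    have hcard : Fintype.card ι ≤ 1 := by
      simpa using hpot
    have : Subsingleton ι := Fintype.card_le_one_iff_subsingleton.mp hcard
    apply PackingInto.of_subsingleton
    intro i
    apply capBall_subset_capOpenBall
    have h1 := ha i
    have h2 : j i = 0 := Nat.le_zero.mp (hj i)
    rw [h2] at h1
    simpa using h1
  | succ J ih =>
    intro r
    induction r with
    | zero =>
      intro ι _ a j R hR hj hr hpot ha0 ha
      have hj' : ∀ i, j i ≤ J := by
        intro i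
        have h1 := hj i
        have h2 : j i ≠ J + 1 := by
          intro h
          have h3 : i ∈ univ.filter (fun i => j i = J + 1) := by simp [h]
          have h4 := Finset.card_pos.mpr ⟨i, h3⟩
          omega
        omega
      have hpot' : ∑ i, (2 ^ n) ^ (J - j i) ≤ (2 ^ n) ^ J := by
        have h1 : ∑ i, (2 ^ n) ^ (J + 1 - j i) = 2 ^ n * ∑ i, (2 ^ n) ^ (J - j i) := by
          rw [Finset.mul_sum]
          apply Finset.sum_congr rfl
          intro i _
          have h5 : J + 1 - j i = (J - j i) + 1 := by
            have := hj' i
            omega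
          rw [h5, pow_succ, mul_comm]
        rw [h1, pow_succ, mul_comm ((2 ^ n) ^ J)] at hpot
        exact Nat.le_of_mul_le_mul_left hpot (by positivity)
      exact ih (Fintype.card ι) ι a j R hR hj' (Finset.card_le_univ _) hpot' ha0 ha
    | succ r ihr =>
      intro ι _ a j R hR hj hr hpot ha0 ha
      by_cases hS : (univ.filter (fun i => j i = J + 1)).card ≤ r
      · exact ihr ι a j R hR hj hS hpot ha0 ha
      · have hScard : (univ.filter (fun i => j i = J + 1)).card = r + 1 := by omega
        obtain ⟨T, hTS, hTcard⟩ := Finset.exists_subset_card_eq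
          (s := univ.filter (fun i => j i = J + 1)) (n := min (r + 1) (2 ^ n))
          (by rw [hScard]; exact min_le_left _ _)
        have hTpos : 0 < T.card := by
          rw [hTcard]
          exact lt_min (by omega) (by positivity)
        have hTne : T.Nonempty := Finset.card_pos.mp hTpos
        have hTle : T.card ≤ 2 ^ n := by
          rw [hTcard]
          exact min_le_right _ _
        have hjT : ∀ i ∈ T, j i = J + 1 := fun i hi => (Finset.mem_filter.mp (hTS hi)).2
        obtain ⟨i0, hi0, hmax⟩ := Finset.exists_max_image T a hTne
        have h2pos : (0 : ℝ) < 2 ^ J := by positivity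
        have hi0lt : 2 * a i0 < R / 2 ^ J := by
          have h1 := ha i0
          rw [hjT i0 hi0, pow_succ, ← div_div] at h1
          linarith
        obtain ⟨c, hc1, hc2⟩ : ∃ c : ℝ, 2 * a i0 < c ∧ c < R / 2 ^ J := exists_between hi0lt
        have hc0 : 0 < c := by linarith [ha0 i0]
        obtain ⟨φ, hφ⟩ : ∃ φ : ι → Option {i : ι // i ∉ T},
            ∀ i, φ i = if h : i ∈ T then none else some ⟨i, h⟩ := ⟨_, fun _ => rfl⟩
        have hP : PackingInto n (capOpenBall n R)
            (fun o : Option {i : ι // i ∉ T} => o.elim c (fun x => a x.1)) := by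
          apply ihr (Option {i : ι // i ∉ T}) _ (fun o => o.elim J (fun x => j x.1)) R hR
          · intro o
            cases o with
            | none => exact Nat.le_succ J
            | some x => exact hj x.1
          · have hsub : (univ.filter (fun o : Option {i : ι // i ∉ T} =>
                o.elim J (fun x => j x.1) = J + 1)).card ≤
                ((univ.filter (fun i => j i = J + 1)) \ T).card := by
              apply Finset.card_le_card_of_injOn (fun o => o.elim i0 (fun x => x.1))
              · intro o ho
                have ho' := (Finset.mem_filter.mp (Finset.mem_coe.mp ho)).2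
                cases o with
                | none =>
                  simp only [Option.elim] at ho'
                  omega
                | some x =>
                  simp only [Option.elim] at ho'
                  exact Finset.mem_coe.mpr (Finset.mem_sdiff.mpr
                    ⟨Finset.mem_filter.mpr ⟨Finset.mem_univ _, ho'⟩, x.2⟩)
              · intro o ho o' ho' h
                have h1 := (Finset.mem_filter.mp (Finset.mem_coe.mp ho)).2
                have h2 := (Finset.mem_filter.mp (Finset.mem_coe.mp ho')).2
                cases o with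
                | none =>
                  simp only [Option.elim] at h1
                  omega
                | some x =>
                  cases o' with
                  | none =>
                    simp only [Option.elim] at h2
                    omega
                  | some x' =>
                    simp only [Option.elim] at h
                    rw [Subtype.ext h]
            have h3 : ((univ.filter (fun i => j i = J + 1)) \ T).card =
                (univ.filter (fun i => j i = J + 1)).card - T.card :=
              Finset.card_sdiff_of_subset hTS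
            omega
          · have hsum1 : ∑ o : Option {i : ι // i ∉ T},
                (2 ^ n) ^ (J + 1 - o.elim J (fun x => j x.1)) =
                2 ^ n + ∑ x : {i : ι // i ∉ T}, (2 ^ n) ^ (J + 1 - j x.1) := by
              rw [Fintype.sum_option]
              simp only [Option.elim]
              congr 1
              have h5 : J + 1 - J = 1 := by omega
              rw [h5, pow_one]
            have hsum2 : ∑ i, (2 ^ n) ^ (J + 1 - j i) =
                T.card + ∑ x : {i : ι // i ∉ T}, (2 ^ n) ^ (J + 1 - j x.1) := by
              rw [← Finset.sum_add_sum_compl T]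
              congr 1
              · rw [Finset.card_eq_sum_ones]
                apply Finset.sum_congr rfl
                intro i hi
                rw [hjT i hi, Nat.sub_self, pow_zero]
              · exact Finset.sum_subtype (Tᶜ) (fun x => by simp)
                  (fun i => (2 ^ n) ^ (J + 1 - j i))
            rw [hsum1]
            rw [hsum2] at hpot
            have hdvd2 : 2 ^ n ∣ (2 ^ n) ^ (J + 1) := dvd_pow_self _ (by omega)
            rcases Nat.lt_or_ge (r + 1) (2 ^ n) with hlt | hge
            · have hTS' : T = univ.filter (fun i => j i = J + 1) :=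
                Finset.eq_of_subset_of_card_le hTS (by
                  rw [hScard, hTcard, min_eq_left hlt.le])
              have hST : ∀ i, j i = J + 1 → i ∈ T := by
                intro i hi
                rw [hTS']
                exact Finset.mem_filter.mpr ⟨Finset.mem_univ _, hi⟩
              have hdvd : 2 ^ n ∣ ∑ x : {i : ι // i ∉ T}, (2 ^ n) ^ (J + 1 - j x.1) := by
                apply Finset.dvd_sum
                intro x _
                have h1 : j x.1 ≤ J := by
                  have h2 := hj x.1
                  have h3 : j x.1 ≠ J + 1 := fun h => x.2 (hST x.1 h)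
                  omega
                exact dvd_pow_self _ (by omega)
              exact Nat.le_of_lt_add_of_dvd (by omega) (Dvd.dvd.add (dvd_refl _) hdvd) hdvd2
            · have h6 : T.card = 2 ^ n := by
                rw [hTcard]
                exact min_eq_right hge
              omega
          · intro o
            cases o with
            | none => exact hc0
            | some x => exact ha0 x.1
          · intro o
            cases o with
            | none => exact hc2
            | some x => exact ha x.1
        apply PackingInto.refine hP φ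
        intro o
        cases o with
        | none =>
          have hfib : ∀ x : {i : ι // φ i = none}, x.1 ∈ T := by
            intro x
            by_contra h
            have h1 := x.2
            rw [hφ, dif_neg h] at h1
            exact Option.some_ne_none _ h1
          have hcardfib : Fintype.card {i : ι // φ i = none} ≤ 2 ^ n := by
            have h1 : Fintype.card {i : ι // φ i = none} = T.card := by
              apply Fintype.card_of_subtype T
              intro x
              rw [hφ]
              constructor
              · intro hx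
                rw [dif_pos hx]
              · intro hx
                by_contra h
                rw [dif_neg h] at hx
                exact Option.some_ne_none _ hx
            omega
          exact cell_packing hn hcardfib c hc0 _ (fun x => ha0 x.1) (fun x => by
            have := hmax x.1 (hfib x)
            linarith)
        | some y =>
          have hfib : ∀ x : {i : ι // φ i = some y}, x.1 = y.1 := by
            intro x
            have h := x.2
            rw [hφ] at h
            by_cases hx : x.1 ∈ T
            · rw [dif_pos hx] at h
              exact absurd h.symm (Option.some_ne_none _)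
            · rw [dif_neg hx] at h
              exact congrArg Subtype.val (Option.some.inj h)
          have hsub : Subsingleton {i : ι // φ i = some y} :=
            ⟨fun x x' => Subtype.ext (by rw [hfib x, hfib x'])⟩
          apply PackingInto.of_subsingleton
          intro x
          show capBall n (a x.1) ⊆ capBall n (a y.1)
          rw [hfib x]

/-- Dyadic packings: balls of capacities `a i < R / 2 ^ j i` whose dyadic weights
`(1 / 2 ^ j i) ^ n` sum to at most one pack into the open ball of capacity `R`. -/
theorem packing_dyadic {n k : ℕ} (hn : 0 < n) (R : ℝ) (hR : 0 < R) (a : Fin k → ℝ)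
    (ha : ∀ i, 0 < a i) (j : Fin k → ℕ) (hj : ∀ i, a i < R / 2 ^ (j i))
    (hK : ∑ i, ((1 : ℝ) / 2 ^ (j i)) ^ n ≤ 1) : Packing n k R a := by
  classical
  have hjJ : ∀ i, j i ≤ ∑ l, j l := fun i =>
    Finset.single_le_sum (f := j) (fun l _ => Nat.zero_le _) (Finset.mem_univ i)
  have hpot : ∑ i, (2 ^ n) ^ ((∑ l, j l) - j i) ≤ (2 ^ n) ^ (∑ l, j l) := by
    have hcast : ((∑ i, (2 ^ n) ^ ((∑ l, j l) - j i) : ℕ) : ℝ) ≤
        (((2 ^ n) ^ (∑ l, j l) : ℕ) : ℝ) := by
      push_cast
      have hterm : ∀ i, ((2 : ℝ) ^ n) ^ ((∑ l, j l) - j i) =
          ((2 : ℝ) ^ n) ^ (∑ l, j l) * ((1 : ℝ) / 2 ^ (j i)) ^ n := by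
        intro i
        have hne : ((2 : ℝ) ^ n) ≠ 0 := by positivity
        rw [pow_sub₀ _ hne (hjJ i)]
        congr 1
        rw [one_div, inv_pow, ← pow_mul, ← pow_mul, mul_comm]
      calc ∑ i, ((2 : ℝ) ^ n) ^ ((∑ l, j l) - j i)
          = ∑ i, ((2 : ℝ) ^ n) ^ (∑ l, j l) * ((1 : ℝ) / 2 ^ (j i)) ^ n :=
            Finset.sum_congr rfl (fun i _ => hterm i)
        _ = ((2 : ℝ) ^ n) ^ (∑ l, j l) * ∑ i, ((1 : ℝ) / 2 ^ (j i)) ^ n := by
            rw [← Finset.mul_sum]
        _ ≤ ((2 : ℝ) ^ n) ^ (∑ l, j l) * 1 :=
            mul_le_mul_of_nonneg_left hK (by positivity)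
        _ = ((2 : ℝ) ^ n) ^ (∑ l, j l) := mul_one _
    exact_mod_cast hcast
  exact kraft_aux hn (∑ l, j l) (Fintype.card (Fin k)) (Fin k) a j R hR hjJ
    (Finset.card_le_univ _) hpot ha hj

/-- Balls of capacities `a i` with `∑ (2 a_i) ^ n ≤ R ^ n` pack into the open ball of capacity
`R`, for any number of balls. -/
theorem packing_kraft {n k : ℕ} (hn : 0 < n) (R : ℝ) (hR : 0 < R) (a : Fin k → ℝ)
    (ha : ∀ i, 0 < a i) (hvol : ∑ i, (2 * a i) ^ n ≤ R ^ n) : Packing n k R a := by
  classical
  have hn0 : n ≠ 0 := by omega
  have haR : ∀ i, 2 * a i ≤ R := by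
    intro i
    have h1 : (2 * a i) ^ n ≤ ∑ l, (2 * a l) ^ n :=
      Finset.single_le_sum (f := fun l => (2 * a l) ^ n)
        (fun l _ => pow_nonneg (by linarith [ha l]) n) (Finset.mem_univ i)
    exact le_of_pow_le_pow_left₀ hn0 hR.le (h1.trans hvol)
  have hlev : ∀ i, ∃ j : ℕ, a i < R / 2 ^ j ∧ R / 2 ^ (j + 1) ≤ a i := by
    intro i
    have hex : ∃ j : ℕ, R / 2 ^ (j + 1) ≤ a i := by
      obtain ⟨m, hm⟩ := pow_unbounded_of_one_lt (R / a i) (one_lt_two)
      refine ⟨m, ?_⟩
      have h2 : (0 : ℝ) < 2 ^ (m + 1) := by positivity
      rw [div_le_iff₀ h2]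
      rw [div_lt_iff₀ (ha i)] at hm
      have h3 : (2 : ℝ) ^ m ≤ 2 ^ (m + 1) := pow_le_pow_right₀ (by norm_num) (Nat.le_succ m)
      nlinarith [ha i]
    refine ⟨Nat.find hex, ?_, Nat.find_spec hex⟩
    rcases Nat.eq_zero_or_pos (Nat.find hex) with h0 | hpos
    · rw [h0, pow_zero, div_one]
      linarith [haR i, ha i]
    · have h4 := Nat.find_min hex (m := Nat.find hex - 1) (by omega)
      have h5 : Nat.find hex - 1 + 1 = Nat.find hex := by omega
      rw [h5] at h4
      exact not_le.mp h4
  choose j hj1 hj2 using hlev
  apply packing_dyadic hn R hR a ha j hj1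
  have hRn : (0 : ℝ) < R ^ n := pow_pos hR n
  have hterm : ∀ i, ((1 : ℝ) / 2 ^ (j i)) ^ n ≤ (2 * a i) ^ n / R ^ n := by
    intro i
    rw [← div_pow]
    apply pow_le_pow_left₀ (by positivity)
    have h7 := hj2 i
    have h8 : (0 : ℝ) < 2 ^ (j i) := by positivity
    rw [div_le_iff₀ (by positivity), pow_succ] at h7
    rw [div_le_div_iff₀ h8 hR]
    linarith
  calc ∑ i, ((1 : ℝ) / 2 ^ (j i)) ^ n ≤ ∑ i, (2 * a i) ^ n / R ^ n :=
        Finset.sum_le_sum (fun i _ => hterm i)
    _ = (∑ i, (2 * a i) ^ n) / R ^ n := by rw [Finset.sum_div]
    _ ≤ 1 := by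
        rw [div_le_one hRn]
        exact hvol

end Vale.Agent.Lib.P209
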