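import Vale.Agent.Lib.P209.Embed

/-!
# Toric maps with a general unimodular linear part

For integer matrices `A` and `B = P - N` with `Aᵀ B = 1`, the affine map `x ↦ A x + v` of the
moment coordinates together with `θ ↦ B θ` on the angles is a symplectomorphism between toric
domains.  `linMap A P N v` is this map written in the complex coordinates of `ℂ^n`.
-/

namespace Vale.Agent.Lib.P209

open Topology

/-- affine map on moment coordinates with integer linear part -/
def linMom {n : ℕ} (A : Fin n → Fin n → ℤ) (v : Fin n → ℝ) (x : Fin n → ℝ) (j : Fin n) : ℝ :=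
  ∑ l, (A j l : ℝ) * x l + v j

/-- the toric map in complex coordinates; the angle matrix is `P - N` -/
noncomputable def linMap {n : ℕ} (A : Fin n → Fin n → ℤ) (P N : Fin n → Fin n → ℕ)
    (v : Fin n → ℝ) (z : Fin n → ℂ) (j : Fin n) : ℂ :=
  ((Real.exp (1 / 2 * (Real.log (linMom A v (mom z) j / Real.pi)
      - ∑ l, ((P j l : ℝ) + (N j l : ℝ)) * Real.log (Complex.normSq (z l)))) : ℝ) : ℂ)
    * ∏ l, (z l ^ P j l * (starRingEnd ℂ (z l)) ^ N j l)

/-- unimodularity: the transpose of `A` times `P - N` is the identity matrix -/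
def Unimod {n : ℕ} (A : Fin n → Fin n → ℤ) (P N : Fin n → Fin n → ℕ) : Prop :=
  ∀ l m, ∑ j, A j l * ((P j m : ℤ) - (N j m : ℤ)) = if l = m then 1 else 0

theorem unimod_pair {n : ℕ} {A : Fin n → Fin n → ℤ} {P N : Fin n → Fin n → ℕ}
    (h : Unimod A P N) (α β : Fin n → ℝ) :
    ∑ j, (∑ l, (A j l : ℝ) * α l) * (∑ m, ((P j m : ℝ) - (N j m : ℝ)) * β m) =
      ∑ l, α l * β l := by
  have hR : ∀ l m, ∑ j, (A j l : ℝ) * ((P j m : ℝ) - (N j m : ℝ)) =
      if l = m then 1 else 0 := by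
    intro l m
    have h1 : ((∑ j, A j l * ((P j m : ℤ) - (N j m : ℤ)) : ℤ) : ℝ) =
        ((if l = m then 1 else 0 : ℤ) : ℝ) := by
      rw [h l m]
    push_cast at h1
    rw [h1]
  calc ∑ j, (∑ l, (A j l : ℝ) * α l) * (∑ m, ((P j m : ℝ) - (N j m : ℝ)) * β m)
      = ∑ j, ∑ l, ∑ m, ((A j l : ℝ) * ((P j m : ℝ) - (N j m : ℝ))) * (α l * β m) := by
        apply Finset.sum_congr rfl
        intro j _
        rw [Finset.sum_mul_sum]
        apply Finset.sum_congr rfl
        intro l _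
        apply Finset.sum_congr rfl
        intro m _
        ring
    _ = ∑ l, ∑ m, (∑ j, (A j l : ℝ) * ((P j m : ℝ) - (N j m : ℝ))) * (α l * β m) := by
        rw [Finset.sum_comm]
        apply Finset.sum_congr rfl
        intro l _
        rw [Finset.sum_comm]
        apply Finset.sum_congr rfl
        intro m _
        rw [Finset.sum_mul]
    _ = ∑ l, α l * β l := by
        apply Finset.sum_congr rfl
        intro l _
        simp only [hR]
        simp

theorem unimod_left {n : ℕ} {A : Fin n → Fin n → ℤ} {P N : Fin n → Fin n → ℕ}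
    (h : Unimod A P N) (α : Fin n → ℝ) (m : Fin n) :
    ∑ j, ((P j m : ℝ) - (N j m : ℝ)) * (∑ l, (A j l : ℝ) * α l) = α m := by
  have h1 := unimod_pair h α (fun m' => if m' = m then 1 else 0)
  simp only [mul_ite, mul_one, mul_zero, Finset.sum_ite_eq', Finset.mem_univ, if_true] at h1
  rw [← h1]
  apply Finset.sum_congr rfl
  intro j _
  ring

theorem unimod_right {n : ℕ} {A : Fin n → Fin n → ℤ} {P N : Fin n → Fin n → ℕ}
    (h : Unimod A P N) (β : Fin n → ℝ) (l : Fin n) :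
    ∑ j, (A j l : ℝ) * (∑ m, ((P j m : ℝ) - (N j m : ℝ)) * β m) = β l := by
  have h1 := unimod_pair h (fun l' => if l' = l then 1 else 0) β
  simp only [mul_ite, mul_one, mul_zero, ite_mul, one_mul, zero_mul, Finset.sum_ite_eq',
    Finset.mem_univ, if_true] at h1
  exact h1

/-- the linear part in action-angle coordinates -/
def linLin {n : ℕ} (A : Fin n → Fin n → ℤ) (P N : Fin n → Fin n → ℕ) :
    (Fin n → ℝ × ℝ) →ₗ[ℝ] (Fin n → ℝ × ℝ) where
  toFun p := fun j => (∑ l, (A j l : ℝ) * (p l).1,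
    ∑ l, ((P j l : ℝ) - (N j l : ℝ)) * (p l).2)
  map_add' := by
    intro p p'
    funext j
    apply Prod.ext
    · simp only [Pi.add_apply, Prod.fst_add, mul_add, Finset.sum_add_distrib]
    · simp only [Pi.add_apply, Prod.snd_add, mul_add, Finset.sum_add_distrib]
  map_smul' := by
    intro c p
    funext j
    apply Prod.ext
    · simp only [Pi.smul_apply, Prod.smul_fst, smul_eq_mul, RingHom.id_apply]
      rw [Finset.mul_sum]
      apply Finset.sum_congr rfl
      intro l _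
      ring
    · simp only [Pi.smul_apply, Prod.smul_snd, smul_eq_mul, RingHom.id_apply]
      rw [Finset.mul_sum]
      apply Finset.sum_congr rfl
      intro l _
      ring

/-- the linear part in action-angle coordinates, as a continuous linear map -/
noncomputable def linCLM {n : ℕ} (A : Fin n → Fin n → ℤ) (P N : Fin n → Fin n → ℕ) :
    (Fin n → ℝ × ℝ) →L[ℝ] (Fin n → ℝ × ℝ) :=
  LinearMap.toContinuousLinearMap (linLin A P N)

theorem linCLM_apply {n : ℕ} (A : Fin n → Fin n → ℤ) (P N : Fin n → Fin n → ℕ)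
    (p : Fin n → ℝ × ℝ) (j : Fin n) :
    linCLM A P N p j = (∑ l, (A j l : ℝ) * (p l).1,
      ∑ l, ((P j l : ℝ) - (N j l : ℝ)) * (p l).2) := rfl

theorem omegaQ_linCLM {n : ℕ} {A : Fin n → Fin n → ℤ} {P N : Fin n → Fin n → ℕ}
    (h : Unimod A P N) (a b : Fin n → ℝ × ℝ) :
    omegaQ (linCLM A P N a) (linCLM A P N b) = omegaQ a b := by
  unfold omegaQ
  simp only [linCLM_apply]
  rw [Finset.sum_sub_distrib, Finset.sum_sub_distrib]
  have h1 := unimod_pair h (fun l => (a l).1) (fun l => (b l).2)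
  have h2 := unimod_pair h (fun l => (b l).1) (fun l => (a l).2)
  rw [h1]
  have h3 : ∑ j, (∑ l, ((P j l : ℝ) - (N j l : ℝ)) * (a l).2) * (∑ l, (A j l : ℝ) * (b l).1) =
      ∑ l, (b l).1 * (a l).2 := by
    rw [← h2]
    apply Finset.sum_congr rfl
    intro j _
    ring
  rw [h3]
  congr 1
  apply Finset.sum_congr rfl
  intro l _
  ring

theorem linCLM_fst {n : ℕ} (A : Fin n → Fin n → ℤ) (P N : Fin n → Fin n → ℕ) (v : Fin n → ℝ)
    (p : Fin n → ℝ × ℝ) (j : Fin n) :
    ((linCLM A P N p + (fun j => (v j, (0 : ℝ)) : Fin n → ℝ × ℝ)) j).1 =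
      linMom A v (fun l => (p l).1) j := by
  simp only [Pi.add_apply, linCLM_apply, Prod.fst_add]
  rfl

theorem linCLM_snd {n : ℕ} (A : Fin n → Fin n → ℤ) (P N : Fin n → Fin n → ℕ) (v : Fin n → ℝ)
    (p : Fin n → ℝ × ℝ) (j : Fin n) :
    ((linCLM A P N p + (fun j => (v j, (0 : ℝ)) : Fin n → ℝ × ℝ)) j).2 =
      ∑ l, ((P j l : ℝ) - (N j l : ℝ)) * (p l).2 := by
  simp only [Pi.add_apply, linCLM_apply, Prod.snd_add, add_zero]

/-- The toric map is the affine map in action-angle coordinates. -/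
theorem linMap_Pol {n : ℕ} (A : Fin n → Fin n → ℤ) (P N : Fin n → Fin n → ℕ) (v : Fin n → ℝ)
    (p : Fin n → ℝ × ℝ) (hp : ∀ j, 0 < (p j).1) :
    linMap A P N v (Pol p) = Pol (linCLM A P N p + fun j => (v j, 0)) := by
  have hmom : mom (Pol p) = fun l => (p l).1 := by
    funext l
    exact mom_Pol (hp l)
  funext j
  set L : Fin n → ℝ := fun l => Real.log ((p l).1 / Real.pi) with hL
  have hN : ∀ l, Real.log (Complex.normSq (Pol p l)) = L l := by
    intro l
    show Real.log (Complex.normSq (pol (p l))) = _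
    rw [normSq_pol (hp l)]
  have hc : ∀ l, Pol p l = Complex.exp (((1 / 2 * L l : ℝ) : ℂ) +
      ((2 * Real.pi * (p l).2 : ℝ) : ℂ) * Complex.I) := fun l => rfl
  have e1 : ∀ l, Pol p l ^ P j l * (starRingEnd ℂ (Pol p l)) ^ N j l =
      Complex.exp ((P j l : ℂ) * (((1 / 2 * L l : ℝ) : ℂ) +
          ((2 * Real.pi * (p l).2 : ℝ) : ℂ) * Complex.I)
        + (N j l : ℂ) * (((1 / 2 * L l : ℝ) : ℂ) -
          ((2 * Real.pi * (p l).2 : ℝ) : ℂ) * Complex.I)) := by
    intro l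
    rw [hc l, ← Complex.exp_conj, ← Complex.exp_nat_mul, ← Complex.exp_nat_mul,
      ← Complex.exp_add]
    congr 2
    simp only [map_add, map_mul, Complex.conj_ofReal, Complex.conj_I]
    ring
  have hsum : ∑ l, ((P j l : ℂ) * (((1 / 2 * L l : ℝ) : ℂ) +
          ((2 * Real.pi * (p l).2 : ℝ) : ℂ) * Complex.I)
        + (N j l : ℂ) * (((1 / 2 * L l : ℝ) : ℂ) -
          ((2 * Real.pi * (p l).2 : ℝ) : ℂ) * Complex.I)) =
      ((1 / 2 * ∑ l, ((P j l : ℝ) + (N j l : ℝ)) * L l : ℝ) : ℂ) +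
        ((2 * Real.pi * ∑ l, ((P j l : ℝ) - (N j l : ℝ)) * (p l).2 : ℝ) : ℂ) * Complex.I := by
    push_cast
    rw [Finset.mul_sum, Finset.mul_sum, Finset.sum_mul, ← Finset.sum_add_distrib]
    apply Finset.sum_congr rfl
    intro l _
    ring
  have hlhs : linMap A P N v (Pol p) j =
      Complex.exp (((1 / 2 * (Real.log (linMom A v (fun l => (p l).1) j / Real.pi)
        - ∑ l, ((P j l : ℝ) + (N j l : ℝ)) * L l) : ℝ) : ℂ)) *
      Complex.exp (((1 / 2 * ∑ l, ((P j l : ℝ) + (N j l : ℝ)) * L l : ℝ) : ℂ) +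
        ((2 * Real.pi * ∑ l, ((P j l : ℝ) - (N j l : ℝ)) * (p l).2 : ℝ) : ℂ) * Complex.I) := by
    unfold linMap
    rw [hmom, Finset.prod_congr rfl (fun l _ => e1 l), ← Complex.exp_sum, hsum,
      Complex.ofReal_exp]
    simp only [hN]
  rw [hlhs, ← Complex.exp_add]
  show _ = pol ((linCLM A P N p + (fun j => (v j, (0 : ℝ)) : Fin n → ℝ × ℝ)) j)
  unfold pol
  congr 1
  rw [linCLM_fst, linCLM_snd]
  push_cast
  ring

/-- the domain of the toric map -/
def linDom {n : ℕ} (A : Fin n → Fin n → ℤ) (v : Fin n → ℝ) : Set (Fin n → ℂ) :=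
  {z | (∀ j, z j ≠ 0) ∧ ∀ j, 0 < linMom A v (mom z) j}

theorem contDiff_linMom_mom {n : ℕ} (A : Fin n → Fin n → ℤ) (v : Fin n → ℝ) (j : Fin n)
    {m : WithTop ℕ∞} : ContDiff ℝ m (fun z : Fin n → ℂ => linMom A v (mom z) j) := by
  unfold linMom
  exact (ContDiff.sum (fun l _ => contDiff_const.mul (contDiff_mom l))).add contDiff_const

theorem contDiffAt_linMap {n : ℕ} (A : Fin n → Fin n → ℤ) (P N : Fin n → Fin n → ℕ)
    (v : Fin n → ℝ) {z : Fin n → ℂ} (hz : z ∈ linDom A v) {m : WithTop ℕ∞} :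
    ContDiffAt ℝ m (linMap A P N v) z := by
  rw [contDiffAt_pi]
  intro j
  have hlog1 : ContDiffAt ℝ m
      (fun z : Fin n → ℂ => Real.log (linMom A v (mom z) j / Real.pi)) z :=
    (((contDiff_linMom_mom A v j).div_const Real.pi).contDiffAt).log
      (ne_of_gt (div_pos (hz.2 j) Real.pi_pos))
  have hlog2 : ∀ l, ContDiffAt ℝ m
      (fun z : Fin n → ℂ => Real.log (Complex.normSq (z l))) z := fun l =>
    ((contDiff_normSq_apply l).contDiffAt).log (ne_of_gt (Complex.normSq_pos.mpr (hz.1 l)))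
  have hE : ContDiffAt ℝ m (fun z : Fin n → ℂ =>
      1 / 2 * (Real.log (linMom A v (mom z) j / Real.pi)
      - ∑ l, ((P j l : ℝ) + (N j l : ℝ)) * Real.log (Complex.normSq (z l)))) z :=
    contDiffAt_const.mul (hlog1.sub
      (ContDiffAt.sum (fun l _ => contDiffAt_const.mul (hlog2 l))))
  have hF1 : ContDiffAt ℝ m (fun z : Fin n → ℂ =>
      ((Real.exp (1 / 2 * (Real.log (linMom A v (mom z) j / Real.pi)
      - ∑ l, ((P j l : ℝ) + (N j l : ℝ)) * Real.log (Complex.normSq (z l)))) : ℝ) : ℂ)) z :=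
    Complex.ofRealCLM.contDiff.contDiffAt.comp z (Real.contDiff_exp.contDiffAt.comp z hE)
  have hF3 : ContDiffAt ℝ m
      (fun z : Fin n → ℂ => ∏ l, (z l ^ P j l * (starRingEnd ℂ (z l)) ^ N j l)) z := by
    have h1 : ContDiff ℝ m
        (fun z : Fin n → ℂ => ∏ l, (z l ^ P j l * (starRingEnd ℂ (z l)) ^ N j l)) :=
      contDiff_prod (fun l _ => ((contDiff_apply ℝ ℂ l).pow (P j l)).mul
        ((Complex.conjCLE.contDiff.comp (contDiff_apply ℝ ℂ l)).pow (N j l)))
    exact h1.contDiffAt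
  exact hF1.mul hF3

theorem linMap_mom {n : ℕ} (A : Fin n → Fin n → ℤ) (P N : Fin n → Fin n → ℕ) (v : Fin n → ℝ)
    {z : Fin n → ℂ} (hz : z ∈ linDom A v) (j : Fin n) :
    mom (linMap A P N v z) j = linMom A v (mom z) j := by
  obtain ⟨p, hp, hpz, hpm⟩ := exists_polar z hz.1
  have hmz : (fun l => (p l).1) = mom z := funext hpm
  rw [← hpz, linMap_Pol A P N v p hp]
  rw [mom_Pol (by rw [linCLM_fst, hmz]; exact hz.2 j), linCLM_fst, hmz, hpz]

theorem linMap_sympAt {n : ℕ} {A : Fin n → Fin n → ℤ} {P N : Fin n → Fin n → ℕ}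
    (h : Unimod A P N) (v : Fin n → ℝ) {z : Fin n → ℂ} (hz : z ∈ linDom A v) :
    SympAt (linMap A P N v) z := by
  obtain ⟨p, hp, hpz, hpm⟩ := exists_polar z hz.1
  have hmz : (fun l => (p l).1) = mom z := funext hpm
  rw [← hpz]
  apply toric_sympAt (linMap A P N v) (linCLM A P N) (fun j => (v j, (0 : ℝ)))
    (omegaQ_linCLM h) p hp
  · intro j
    rw [linCLM_fst, hmz]
    exact hz.2 j
  · rw [hpz]
    exact (contDiffAt_linMap A P N v hz (m := 1)).differentiableAt (by norm_num)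
  · have hev : ∀ᶠ p' in 𝓝 p, ∀ j, 0 < (p' j).1 := by
      rw [Filter.eventually_all]
      intro j
      have hc : ContinuousAt (fun p' : Fin n → ℝ × ℝ => (p' j).1) p :=
        (continuous_fst.comp (continuous_apply j)).continuousAt
      exact hc.eventually (lt_mem_nhds (hp j))
    filter_upwards [hev] with p' hp'
    exact linMap_Pol A P N v p' hp'

theorem linMap_injOn {n : ℕ} {A : Fin n → Fin n → ℤ} {P N : Fin n → Fin n → ℕ}
    (h : Unimod A P N) (v : Fin n → ℝ) : Set.InjOn (linMap A P N v) (linDom A v) := by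
  intro z hz z' hz' heq
  obtain ⟨p, hp, hpz, hpm⟩ := exists_polar z hz.1
  obtain ⟨p', hp', hpz', hpm'⟩ := exists_polar z' hz'.1
  have hmz : (fun l => (p l).1) = mom z := funext hpm
  have hmz' : (fun l => (p' l).1) = mom z' := funext hpm'
  rw [← hpz, ← hpz', linMap_Pol A P N v p hp, linMap_Pol A P N v p' hp'] at heq
  have hcomp : ∀ j, linMom A v (fun l => (p l).1) j = linMom A v (fun l => (p' l).1) j ∧
      ∃ k : ℤ, ∑ l, ((P j l : ℝ) - (N j l : ℝ)) * (p l).2 =
        ∑ l, ((P j l : ℝ) - (N j l : ℝ)) * (p' l).2 + k := by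
    intro j
    have hj : pol ((linCLM A P N p + (fun j => (v j, (0 : ℝ)) : Fin n → ℝ × ℝ)) j) =
        pol ((linCLM A P N p' + (fun j => (v j, (0 : ℝ)) : Fin n → ℝ × ℝ)) j) := congrFun heq j
    have hpos : 0 < ((linCLM A P N p + (fun j => (v j, (0 : ℝ)) : Fin n → ℝ × ℝ)) j).1 := by
      rw [linCLM_fst, hmz]
      exact hz.2 j
    have hpos' : 0 < ((linCLM A P N p' + (fun j => (v j, (0 : ℝ)) : Fin n → ℝ × ℝ)) j).1 := by
      rw [linCLM_fst, hmz']
      exact hz'.2 j
    have h3 := pol_eq hpos hpos' hj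
    rw [linCLM_fst, linCLM_fst, linCLM_snd, linCLM_snd] at h3
    exact h3
  choose hx k hk using hcomp
  -- moment coordinates agree
  have hx1 : ∀ m, (p m).1 = (p' m).1 := by
    intro m
    have h4 : ∀ j, ∑ l, (A j l : ℝ) * (p l).1 = ∑ l, (A j l : ℝ) * (p' l).1 := by
      intro j
      have h5 := hx j
      unfold linMom at h5
      linarith
    have h6 := unimod_left h (fun l => (p l).1) m
    have h7 := unimod_left h (fun l => (p' l).1) m
    simp only [h4] at h6
    rw [h7] at h6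
    exact h6.symm
  -- angles agree modulo integers
  have hθ : ∀ l, ∃ K : ℤ, (p l).2 = (p' l).2 + K := by
    intro l
    refine ⟨∑ j, A j l * k j, ?_⟩
    have h6 := unimod_right h (fun m => (p m).2) l
    have h7 := unimod_right h (fun m => (p' m).2) l
    simp only [hk] at h6
    rw [← h6, ← h7]
    push_cast
    rw [← Finset.sum_add_distrib]
    apply Finset.sum_congr rfl
    intro j _
    ring
  rw [← hpz, ← hpz']
  funext j
  obtain ⟨K, hK⟩ := hθ j
  show pol (p j) = pol (p' j)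
  have e : p j = ((p' j).1, (p' j).2 + K) := Prod.ext (hx1 j) hK
  rw [e, pol_add_int]

theorem GoodEmb.mono {n : ℕ} {a : ℝ} {Ψ : (Fin n → ℂ) → (Fin n → ℂ)} {S S' : Set (Fin n → ℝ)}
    (h : GoodEmb n a Ψ S) (hSS' : S ⊆ S') : GoodEmb n a Ψ S' := by
  obtain ⟨U, hU, hsub, hsm, hinj, hsy, hm⟩ := h
  exact ⟨U, hU, hsub, hsm, hinj, hsy, fun z hz => hSS' (hm z hz)⟩

theorem GoodEmb.stepLin {n : ℕ} {a : ℝ} {Ψ : (Fin n → ℂ) → (Fin n → ℂ)} {S : Set (Fin n → ℝ)}
    (h : GoodEmb n a Ψ S) {A : Fin n → Fin n → ℤ} {P N : Fin n → Fin n → ℕ}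
    (hU : Unimod A P N) (v : Fin n → ℝ)
    (hS : ∀ X ∈ S, ∀ j, 0 < X j) (hS' : ∀ X ∈ S, ∀ j, 0 < linMom A v X j) :
    GoodEmb n a (linMap A P N v ∘ Ψ) (linMom A v '' S) := by
  obtain ⟨U, hUo, hsub, hsm, hinj, hsy, hm⟩ := h
  have hdom : ∀ z ∈ U, Ψ z ∈ linDom A v := by
    intro z hz
    refine ⟨fun j => ?_, fun j => hS' _ (hm z hz) j⟩
    have hpos := hS _ (hm z hz) j
    intro h0
    unfold mom at hpos
    rw [h0] at hpos
    simp at hpos
  refine ⟨U, hUo, hsub, ?_, ?_, ?_, ?_⟩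
  · intro z hz
    exact (contDiffAt_linMap A P N v (hdom z hz)).comp z (hsm z hz)
  · intro z hz z' hz' heq
    exact hinj hz hz' (linMap_injOn hU v (hdom z hz) (hdom z' hz') heq)
  · intro z hz
    exact (linMap_sympAt hU v (hdom z hz)).comp (hsy z hz)
  · intro z hz
    refine ⟨mom (Ψ z), hm z hz, ?_⟩
    funext j
    exact (linMap_mom A P N v (hdom z hz) j).symm

end Vale.Agent.Lib.P209
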