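import Mathlib

namespace Vale.Agent.Lib.P209

/-- Upper estimate for a difference of powers: `x^(k+1) - y^(k+1) ≤ (k+1) (x - y) R^k` for
`0 ≤ y ≤ x ≤ R`. -/
theorem mv_pow_sub_le (k : ℕ) (x y R : ℝ) (hy : 0 ≤ y) (hxy : y ≤ x) (hxR : x ≤ R) :
    x ^ (k + 1) - y ^ (k + 1) ≤ ((k : ℝ) + 1) * (x - y) * R ^ k := by
  have hx : 0 ≤ x := le_trans hy hxy
  have hR : 0 ≤ R := le_trans hx hxR
  have h3 : 0 ≤ x - y := sub_nonneg.mpr hxy
  induction k with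
  | zero => simp
  | succ k ih =>
    have h1 : y ^ (k + 1) ≤ R ^ (k + 1) := pow_le_pow_left₀ hy (le_trans hxy hxR) _
    have h2 : 0 ≤ R ^ k := pow_nonneg hR k
    have hk : (0 : ℝ) ≤ (k : ℝ) + 1 := by positivity
    have e : x ^ (k + 1 + 1) - y ^ (k + 1 + 1)
        = x * (x ^ (k + 1) - y ^ (k + 1)) + (x - y) * y ^ (k + 1) := by ring
    have h4 : x * (x ^ (k + 1) - y ^ (k + 1)) ≤ x * (((k : ℝ) + 1) * (x - y) * R ^ k) :=
      mul_le_mul_of_nonneg_left ih hx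
    have h5 : x * (((k : ℝ) + 1) * (x - y) * R ^ k) ≤ R * (((k : ℝ) + 1) * (x - y) * R ^ k) :=
      mul_le_mul_of_nonneg_right hxR (mul_nonneg (mul_nonneg hk h3) h2)
    have h6 : (x - y) * y ^ (k + 1) ≤ (x - y) * R ^ (k + 1) :=
      mul_le_mul_of_nonneg_left h1 h3
    have e2 : (((k + 1 : ℕ) : ℝ) + 1) * (x - y) * R ^ (k + 1)
        = R * (((k : ℝ) + 1) * (x - y) * R ^ k) + (x - y) * R ^ (k + 1) := by
      push_cast
      ring
    rw [e, e2]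
    linarith

/-- Lower estimate for a difference of powers: `R^k (R - s) ≤ R^(k+1) - s^(k+1)` for
`0 ≤ s ≤ R`. -/
theorem mv_pow_sub_ge (k : ℕ) (s R : ℝ) (hs : 0 ≤ s) (hsR : s ≤ R) :
    (R - s) * R ^ k ≤ R ^ (k + 1) - s ^ (k + 1) := by
  have h1 : s ^ k ≤ R ^ k := pow_le_pow_left₀ hs hsR k
  have h2 : s * s ^ k ≤ s * R ^ k := mul_le_mul_of_nonneg_left h1 hs
  have e : R ^ (k + 1) - s ^ (k + 1) - (R - s) * R ^ k = s * R ^ k - s * s ^ k := by ring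
  linarith

/-- Volume bound for a grid of `m^n` medium balls of radius `R / m - δ' G`, counted with the
factor `1 - δ'`, minus `m^n` small balls of radius `ε G`: what is left is at least `1 - δ` times
the volume `R^n - A`, when `A ≤ (R - m G)^n` and the sum of `n + 1` times `δ'` and `ε` is at
most `δ`. -/
theorem medium_volume (n m : ℕ) (hn : 1 ≤ n) (hm : 1 ≤ m) (R G A δ δ' ε : ℝ) (hG : 0 < G)
    (hGu : (m : ℝ) * G ≤ R) (hA : A ≤ (R - m * G) ^ n) (hδ'0 : 0 ≤ δ') (hδ'1 : δ' ≤ 1)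
    (hε0 : 0 ≤ ε) (hε1 : ε ≤ 1) (h : ((n : ℝ) + 1) * δ' + ε ≤ δ) :
    (1 - δ) * (R ^ n - A) ≤
      (1 - δ') * ((m : ℝ) ^ n * (R / m - δ' * G) ^ n - A) - (m : ℝ) ^ n * (ε * G) ^ n := by
  obtain ⟨k, rfl⟩ : ∃ k, n = k + 1 := ⟨n - 1, by omega⟩
  have hm0 : (0 : ℝ) < (m : ℝ) := by
    have h1 : (1 : ℝ) ≤ (m : ℝ) := by exact_mod_cast hm
    linarith
  have hmne : (m : ℝ) ≠ 0 := hm0.ne'
  have hP0 : 0 < (m : ℝ) * G := mul_pos hm0 hG
  have hR0 : 0 ≤ R := le_trans hP0.le hGu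
  have hRk : 0 ≤ R ^ k := pow_nonneg hR0 k
  -- rewriting the two products of powers
  have ea : (m : ℝ) ^ (k + 1) * (R / m - δ' * G) ^ (k + 1)
      = (R - δ' * ((m : ℝ) * G)) ^ (k + 1) := by
    rw [← mul_pow]
    congr 1
    field_simp
  have eb : (m : ℝ) ^ (k + 1) * (ε * G) ^ (k + 1)
      = ε ^ (k + 1) * ((m : ℝ) * G) ^ (k + 1) := by
    rw [← mul_pow, ← mul_pow]
    congr 1
    ring
  rw [ea, eb]
  -- the basic quantity `T = P R^k` with `P = m G`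
  have hT0 : 0 ≤ (m : ℝ) * G * R ^ k := mul_nonneg hP0.le hRk
  have hδP : δ' * ((m : ℝ) * G) ≤ (m : ℝ) * G := by
    have h1 := mul_le_mul_of_nonneg_right hδ'1 hP0.le
    linarith
  have hδP0 : 0 ≤ δ' * ((m : ℝ) * G) := mul_nonneg hδ'0 hP0.le
  -- (c): T is at most the volume
  have hc := mv_pow_sub_ge k (R - (m : ℝ) * G) R (by linarith) (by linarith)
  have hTW : (m : ℝ) * G * R ^ k ≤ R ^ (k + 1) - A := by
    have e : R - (R - (m : ℝ) * G) = (m : ℝ) * G := by ring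
    rw [e] at hc
    linarith
  -- (b): the loss in the medium balls
  have hb := mv_pow_sub_le k R (R - δ' * ((m : ℝ) * G)) R (by linarith) (by linarith) le_rfl
  have hb' : R ^ (k + 1) - (R - δ' * ((m : ℝ) * G)) ^ (k + 1)
      ≤ ((k : ℝ) + 1) * δ' * ((m : ℝ) * G * R ^ k) := by
    have e : ((k : ℝ) + 1) * (R - (R - δ' * ((m : ℝ) * G))) * R ^ k
        = ((k : ℝ) + 1) * δ' * ((m : ℝ) * G * R ^ k) := by ring
    rw [e] at hb
    exact hb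
  -- (d): the small balls
  have hd : ε ^ (k + 1) * ((m : ℝ) * G) ^ (k + 1) ≤ ε * ((m : ℝ) * G * R ^ k) := by
    have h1 : ε ^ (k + 1) ≤ ε := pow_le_of_le_one hε0 hε1 (Nat.succ_ne_zero k)
    have h2 : ((m : ℝ) * G) ^ k ≤ R ^ k := pow_le_pow_left₀ hP0.le hGu k
    have h3 : ((m : ℝ) * G) ^ (k + 1) ≤ (m : ℝ) * G * R ^ k := by
      rw [pow_succ, mul_comm]
      exact mul_le_mul_of_nonneg_left h2 hP0.le
    exact mul_le_mul h1 h3 (pow_nonneg hP0.le _) hε0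
  -- assembling
  have hk1 : (0 : ℝ) ≤ (k : ℝ) + 1 := by positivity
  have hq0 : 0 ≤ ((k : ℝ) + 1) * δ' * ((m : ℝ) * G * R ^ k) :=
    mul_nonneg (mul_nonneg hk1 hδ'0) hT0
  have s1 : (1 - δ') * (R ^ (k + 1) - (R - δ' * ((m : ℝ) * G)) ^ (k + 1))
      ≤ (1 - δ') * (((k : ℝ) + 1) * δ' * ((m : ℝ) * G * R ^ k)) :=
    mul_le_mul_of_nonneg_left hb' (by linarith)
  have s2 : (1 - δ') * (((k : ℝ) + 1) * δ' * ((m : ℝ) * G * R ^ k))
      ≤ ((k : ℝ) + 1) * δ' * ((m : ℝ) * G * R ^ k) :=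
    mul_le_of_le_one_left hq0 (by linarith)
  have hcoef : 0 ≤ ((k : ℝ) + 1) * δ' + ε := add_nonneg (mul_nonneg hk1 hδ'0) hε0
  have s3 : (((k : ℝ) + 1) * δ' + ε) * ((m : ℝ) * G * R ^ k)
      ≤ (((k : ℝ) + 1) * δ' + ε) * (R ^ (k + 1) - A) :=
    mul_le_mul_of_nonneg_left hTW hcoef
  have hW0 : 0 ≤ R ^ (k + 1) - A := le_trans hT0 hTW
  have h' : ((k : ℝ) + 1 + 1) * δ' + ε ≤ δ := by
    have h1 := h
    push_cast at h1
    exact h1
  have s4 : (1 - δ) * (R ^ (k + 1) - A)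
      ≤ (1 - (((k : ℝ) + 1 + 1) * δ' + ε)) * (R ^ (k + 1) - A) :=
    mul_le_mul_of_nonneg_right (by linarith) hW0
  have e1 : (1 - δ') * ((R - δ' * ((m : ℝ) * G)) ^ (k + 1) - A)
      = (1 - δ') * (R ^ (k + 1) - A)
        - (1 - δ') * (R ^ (k + 1) - (R - δ' * ((m : ℝ) * G)) ^ (k + 1)) := by ring
  have e2 : (1 - (((k : ℝ) + 1 + 1) * δ' + ε)) * (R ^ (k + 1) - A)
      = (1 - δ') * (R ^ (k + 1) - A) - (((k : ℝ) + 1) * δ' + ε) * (R ^ (k + 1) - A) := by ring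
  have e3 : (((k : ℝ) + 1) * δ' + ε) * ((m : ℝ) * G * R ^ k)
      = ((k : ℝ) + 1) * δ' * ((m : ℝ) * G * R ^ k) + ε * ((m : ℝ) * G * R ^ k) := by ring
  rw [e1]
  rw [e2] at s4
  rw [e3] at s3
  linarith

end Vale.Agent.Lib.P209
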