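import Vale.Agent.Lib.P209.Assemble
import Vale.Agent.Lib.P209.MediumVol

/-!
# Up to `m ^ n` balls of capacity below `R / m` together with many small balls
-/

namespace Vale.Agent.Lib.P209

open Finset

/-- For every `δ > 0` there is `ε > 0` such that: if at most `m ^ n` of the balls (those in `S`)
have capacities at most `R / m - G`, all the other balls have capacities at most `ε * G`, and
the total volume of the other balls is at most `1 - δ` times the volume left over by the balls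
in `S`, then all the balls pack into the open ball of capacity `R`. -/
theorem medium_dust_packing (n : ℕ) (hn : 2 ≤ n) (δ : ℝ) (hδ : 0 < δ) :
    ∃ ε : ℝ, 0 < ε ∧ ∀ (m N : ℕ) (R G : ℝ) (a : Fin N → ℝ) (S : Finset (Fin N)), 1 ≤ m →
      S.card ≤ m ^ n → 0 < G → G ≤ R / m → (∀ i, 0 < a i) → (∀ i ∈ S, a i ≤ R / m - G) →
      (∀ i, i ∉ S → a i ≤ ε * G) →
      ∑ i ∈ Sᶜ, a i ^ n ≤ (1 - δ) * (R ^ n - ∑ i ∈ S, a i ^ n) → Packing n N R a := by
  classical
  obtain ⟨δ₁, hδ₁, hδ₁le, hδ₁half⟩ : ∃ δ₁ : ℝ, 0 < δ₁ ∧ δ₁ ≤ δ ∧ δ₁ ≤ 1 / 2 :=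
    ⟨min δ (1 / 2), lt_min hδ (by norm_num), min_le_left _ _, min_le_right _ _⟩
  have hn0 : 0 < n := by omega
  have hnR : (0 : ℝ) ≤ (n : ℝ) := Nat.cast_nonneg n
  obtain ⟨δ', hδ'def⟩ : ∃ δ' : ℝ, δ' = δ₁ / (2 * ((n : ℝ) + 1)) := ⟨_, rfl⟩
  have hδ'0 : 0 < δ' := by
    rw [hδ'def]
    positivity
  have hδ'n : ((n : ℝ) + 1) * δ' = δ₁ / 2 := by
    rw [hδ'def]
    field_simp
  have hδ'le : δ' ≤ 1 / 4 := by
    nlinarith [mul_nonneg hnR hδ'0.le]
  obtain ⟨εb, hεb, hbig⟩ := big_dust_packing n hn δ' hδ'0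
  obtain ⟨εd, hεd, hdust⟩ := dust_packing n hn δ' hδ'0
  obtain ⟨ε, hε0, hε1, hε2, hε3⟩ : ∃ ε : ℝ, 0 < ε ∧ ε ≤ εb * (1 - δ') ∧
      ε ≤ εd * (1 - δ') ∧ ε ≤ δ₁ / 2 :=
    ⟨min (min (εb * (1 - δ')) (εd * (1 - δ'))) (δ₁ / 2),
      lt_min (lt_min (mul_pos hεb (by linarith)) (mul_pos hεd (by linarith))) (by positivity),
      le_trans (min_le_left _ _) (min_le_left _ _),
      le_trans (min_le_left _ _) (min_le_right _ _), min_le_right _ _⟩
  refine ⟨ε, hε0, ?_⟩
  intro m N R G a S hm hS hG hGu ha hbigS hsmall hvol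
  have hmR : (0 : ℝ) < m := by exact_mod_cast (by omega : 0 < m)
  have hmG : (m : ℝ) * G ≤ R := by
    have h1 := (le_div_iff₀ hmR).mp hGu
    linarith
  have hmGpos : 0 < (m : ℝ) * G := mul_pos hmR hG
  have hR : 0 < R := lt_of_lt_of_le hmGpos hmG
  obtain ⟨C, hCdef⟩ : ∃ C : ℝ, C = R / m - δ' * G := ⟨_, rfl⟩
  have hδG : δ' * G < G := by nlinarith
  have hC0 : 0 < C := by
    rw [hCdef]
    linarith
  have hcells : PackingInto n (capOpenBall n R) (fun _ : Fin (m ^ n) => C) := by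
    have h1 : Packing n (m ^ n) R (fun _ : Fin (m ^ n) => C) := by
      apply packing_msum hn0 (le_refl _) R _ (fun _ => hC0)
      intro T hT
      rw [Finset.sum_const, nsmul_eq_mul]
      calc (T.card : ℝ) * C ≤ m * C :=
            mul_le_mul_of_nonneg_right (by exact_mod_cast hT) hC0.le
        _ < R := by
            rw [hCdef]
            have h2 : (m : ℝ) * (R / m - δ' * G) = R - m * (δ' * G) := by field_simp
            rw [h2]
            have h3 := mul_pos hmR (mul_pos hδ'0 hG)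
            linarith
    exact h1
  obtain ⟨e, he⟩ : ∃ e : {i : Fin N // i ∈ S} → Fin (m ^ n), Function.Injective e :=
    ⟨fun x => Fin.castLE hS (S.equivFin x),
      fun x y h => S.equivFin.injective (Fin.castLE_injective hS h)⟩
  obtain ⟨bcap, hb1, hb0⟩ : ∃ bcap : Fin (m ^ n) → ℝ,
      (∀ x : {i : Fin N // i ∈ S}, bcap (e x) = a x.1) ∧
      (∀ j, (∀ x : {i : Fin N // i ∈ S}, e x ≠ j) → bcap j = 0) := by
    refine ⟨fun j => if h : ∃ x : {i : Fin N // i ∈ S}, e x = j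
      then a (Classical.choose h).1 else 0, ?_, ?_⟩
    · intro x
      have h : ∃ y : {i : Fin N // i ∈ S}, e y = e x := ⟨x, rfl⟩
      simp only [dif_pos h]
      rw [he (Classical.choose_spec h)]
    · intro j hj
      have h : ¬ ∃ x : {i : Fin N // i ∈ S}, e x = j := fun ⟨x, hx⟩ => hj x hx
      simp only [dif_neg h]
  have hNe : Nonempty (Fin (m ^ n)) := ⟨⟨0, by positivity⟩⟩
  have hbsum : ∑ j, bcap j ^ n = ∑ i ∈ S, a i ^ n := by
    have h1 : ∑ j ∈ Finset.univ.image e, bcap j ^ n = ∑ j, bcap j ^ n := by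
      apply Finset.sum_subset (Finset.subset_univ _)
      intro j _ hj
      have h2 : bcap j = 0 :=
        hb0 j (fun x hx => hj (Finset.mem_image.mpr ⟨x, Finset.mem_univ _, hx⟩))
      rw [h2, zero_pow (by omega)]
    rw [← h1, Finset.sum_image (fun x _ y _ h => he h),
      ← Finset.sum_coe_sort S (fun i => a i ^ n)]
    apply Finset.sum_congr rfl
    intro x _
    rw [hb1 x]
  have hu : 0 ≤ R / m - G := by linarith
  have hA : ∑ i ∈ S, a i ^ n ≤ (R - m * G) ^ n := by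
    calc ∑ i ∈ S, a i ^ n ≤ ∑ i ∈ S, (R / m - G) ^ n :=
          Finset.sum_le_sum (fun i hi => pow_le_pow_left₀ (ha i).le (hbigS i hi) n)
      _ = S.card * (R / m - G) ^ n := by rw [Finset.sum_const, nsmul_eq_mul]
      _ ≤ (m : ℝ) ^ n * (R / m - G) ^ n := by
          apply mul_le_mul_of_nonneg_right _ (pow_nonneg hu n)
          exact_mod_cast hS
      _ = (R - m * G) ^ n := by
          rw [← mul_pow]
          congr 1
          field_simp
  have hRA : 0 ≤ R ^ n - ∑ i ∈ S, a i ^ n := by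
    have h1 : (R - m * G) ^ n ≤ R ^ n := pow_le_pow_left₀ (by linarith) (by linarith) n
    linarith
  have hmv := medium_volume n m (by omega) hm R G (∑ i ∈ S, a i ^ n) δ₁ δ' ε hG hmG hA
    hδ'0.le (by linarith) hε0.le (by linarith) (by rw [hδ'n]; linarith)
  refine assemble hn0 δ' εb εd (by linarith) hbig hdust hεb.le hεd.le
    (fun _ : Fin (m ^ n) => C) bcap R hcells a ha S e he ((1 - δ') * G) ((ε * G) ^ n)
    (mul_pos (by linarith) hG) hb1 hb0 ?_ ?_ ?_ (by positivity) ?_ ?_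
  · intro j
    by_cases h : ∃ x : {i : Fin N // i ∈ S}, e x = j
    · obtain ⟨x, hx⟩ := h
      have h1 := hbigS x.1 x.2
      show bcap j + (1 - δ') * G ≤ C
      rw [← hx, hb1 x, hCdef]
      linarith
    · show bcap j + (1 - δ') * G ≤ C
      rw [hb0 j (fun x hx => h ⟨x, hx⟩), hCdef]
      linarith
  · intro i hi
    calc a i ≤ ε * G := hsmall i hi
      _ ≤ εb * (1 - δ') * G := mul_le_mul_of_nonneg_right hε1 hG.le
      _ = εb * ((1 - δ') * G) := by ring
  · intro i hi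
    calc a i ≤ ε * G := hsmall i hi
      _ ≤ εd * (1 - δ') * G := mul_le_mul_of_nonneg_right hε2 hG.le
      _ = εd * ((1 - δ') * G) := by ring
  · intro i hi
    exact pow_le_pow_left₀ (ha i).le (hsmall i hi) n
  · have hsumform : ∑ j : Fin (m ^ n), ((1 - δ') * (C ^ n - bcap j ^ n) - (ε * G) ^ n) =
        (1 - δ') * ((m : ℝ) ^ n * C ^ n - ∑ i ∈ S, a i ^ n) - (m : ℝ) ^ n * (ε * G) ^ n := by
      rw [Finset.sum_sub_distrib, ← Finset.mul_sum, Finset.sum_sub_distrib, hbsum]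
      simp only [Finset.sum_const, Finset.card_univ, Fintype.card_fin, nsmul_eq_mul]
      push_cast
      ring
    show ∑ i ∈ Sᶜ, a i ^ n ≤
      ∑ j : Fin (m ^ n), ((1 - δ') * (C ^ n - bcap j ^ n) - (ε * G) ^ n)
    rw [hsumform]
    calc ∑ i ∈ Sᶜ, a i ^ n ≤ (1 - δ) * (R ^ n - ∑ i ∈ S, a i ^ n) := hvol
      _ ≤ (1 - δ₁) * (R ^ n - ∑ i ∈ S, a i ^ n) :=
          mul_le_mul_of_nonneg_right (by linarith) hRA
      _ ≤ (1 - δ') * ((m : ℝ) ^ n * C ^ n - ∑ i ∈ S, a i ^ n) - (m : ℝ) ^ n * (ε * G) ^ n := by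
          rw [hCdef]
          exact hmv

end Vale.Agent.Lib.P209
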