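import Vale.Agent.Lib.P209.Symp

/-!
# Action-angle (polar) coordinates and maps that are affine in them
-/

namespace Vale.Agent.Lib.P209

open Topology

/-- moment coordinates `π |z_j|^2` -/
noncomputable def mom {n : ℕ} (z : Fin n → ℂ) (j : Fin n) : ℝ := Real.pi * Complex.normSq (z j)

/-- one-variable polar map `(x, θ) ↦ sqrt (x / π) * exp (2 π i θ)` -/
noncomputable def pol (q : ℝ × ℝ) : ℂ :=
  Complex.exp (((1 / 2 * Real.log (q.1 / Real.pi) : ℝ) : ℂ) +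
    ((2 * Real.pi * q.2 : ℝ) : ℂ) * Complex.I)

theorem pol_ne_zero (q : ℝ × ℝ) : pol q ≠ 0 := Complex.exp_ne_zero _

theorem normSq_pol {q : ℝ × ℝ} (hq : 0 < q.1) : Complex.normSq (pol q) = q.1 / Real.pi := by
  rw [← Complex.sq_norm, pol, Complex.norm_exp]
  have : (((1 / 2 * Real.log (q.1 / Real.pi) : ℝ) : ℂ) +
      ((2 * Real.pi * q.2 : ℝ) : ℂ) * Complex.I).re = 1 / 2 * Real.log (q.1 / Real.pi) := by
    simp
  rw [this, sq, ← Real.exp_add]
  have h2 : 1 / 2 * Real.log (q.1 / Real.pi) + 1 / 2 * Real.log (q.1 / Real.pi) =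
      Real.log (q.1 / Real.pi) := by ring
  rw [h2, Real.exp_log (div_pos hq Real.pi_pos)]

theorem hasFDerivAt_pol {q : ℝ × ℝ} (hq : q.1 ≠ 0) :
    ∃ L : ℝ × ℝ →L[ℝ] ℂ, HasFDerivAt pol (pol q • L) q ∧
      ∀ a : ℝ × ℝ, (L a).re = a.1 / (2 * q.1) ∧ (L a).im = 2 * Real.pi * a.2 := by
  have hpi : Real.pi ≠ 0 := Real.pi_ne_zero
  have h0 : HasFDerivAt (fun q : ℝ × ℝ => q.1 / Real.pi)
      (Real.pi⁻¹ • ContinuousLinearMap.fst ℝ ℝ ℝ) q := by
    have := (hasFDerivAt_fst (𝕜 := ℝ) (p := q)).const_mul (Real.pi⁻¹)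
    simpa [div_eq_inv_mul] using this
  have h1 := (h0.log (div_ne_zero hq hpi)).const_mul (1 / 2)
  have h3 := (hasFDerivAt_snd (𝕜 := ℝ) (p := q)).const_mul (2 * Real.pi)
  have hg := (h1.smul_const (1 : ℂ)).add (h3.smul_const Complex.I)
  have hexp := hg.cexp
  have e1 : pol = fun q : ℝ × ℝ => Complex.exp ((1 / 2 * Real.log (q.1 / Real.pi)) • (1 : ℂ) +
      (2 * Real.pi * q.2) • Complex.I) := by
    funext q
    simp [pol, Complex.real_smul]
  refine ⟨((1 / 2 : ℝ) • (q.1 / Real.pi)⁻¹ • Real.pi⁻¹ •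
      ContinuousLinearMap.fst ℝ ℝ ℝ).smulRight (1 : ℂ) +
      ((2 * Real.pi) • ContinuousLinearMap.snd ℝ ℝ ℝ).smulRight Complex.I, ?_, ?_⟩
  · rw [e1]
    exact hexp
  · intro a
    constructor
    · simp [Complex.real_smul]
      field_simp
    · simp [Complex.real_smul]

theorem omega1_pol_deriv {q : ℝ × ℝ} (hq : 0 < q.1) {L : ℝ × ℝ →L[ℝ] ℂ}
    (hL : ∀ a : ℝ × ℝ, (L a).re = a.1 / (2 * q.1) ∧ (L a).im = 2 * Real.pi * a.2)
    (a b : ℝ × ℝ) :
    omega1 ((pol q • L) a) ((pol q • L) b) = a.1 * b.2 - a.2 * b.1 := by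
  have e : ∀ c : ℝ × ℝ, (pol q • L) c = pol q * L c := fun c => rfl
  rw [e, e, omega1_mul, Complex.sq_norm, normSq_pol hq]
  have hq' : q.1 ≠ 0 := ne_of_gt hq
  have hpi : Real.pi ≠ 0 := Real.pi_ne_zero
  simp only [omega1, (hL a).1, (hL a).2, (hL b).1, (hL b).2]
  field_simp

/-- polar coordinates on `ℂ^n` -/
noncomputable def Pol {n : ℕ} (p : Fin n → ℝ × ℝ) : Fin n → ℂ := fun j => pol (p j)

/-- the standard symplectic form in action-angle coordinates -/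
def omegaQ {n : ℕ} (a b : Fin n → ℝ × ℝ) : ℝ := ∑ j, ((a j).1 * (b j).2 - (a j).2 * (b j).1)

theorem hasFDerivAt_Pol {n : ℕ} {p : Fin n → ℝ × ℝ} (hp : ∀ j, 0 < (p j).1) :
    ∃ P' : (Fin n → ℝ × ℝ) →L[ℝ] (Fin n → ℂ), HasFDerivAt Pol P' p ∧
      (∀ a b, omega n (P' a) (P' b) = omegaQ a b) ∧ Function.Surjective P' := by
  have hL := fun j => hasFDerivAt_pol (ne_of_gt (hp j))
  choose L hLd hLa using hL
  refine ⟨ContinuousLinearMap.pi (fun j => (pol (p j) • L j).comp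
    (ContinuousLinearMap.proj j)), ?_, ?_, ?_⟩
  · rw [hasFDerivAt_pi]
    intro j
    exact (hLd j).comp p (hasFDerivAt_apply j p)
  · intro a b
    rw [omega_eq_sum]
    apply Finset.sum_congr rfl
    intro j _
    simp only [ContinuousLinearMap.pi_apply, ContinuousLinearMap.comp_apply,
      ContinuousLinearMap.proj_apply]
    exact omega1_pol_deriv (hp j) (hLa j) (a j) (b j)
  · intro h
    refine ⟨fun j => (2 * (p j).1 * (h j / pol (p j)).re, (h j / pol (p j)).im / (2 * Real.pi)), ?_⟩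
    funext j
    simp only [ContinuousLinearMap.pi_apply, ContinuousLinearMap.comp_apply,
      ContinuousLinearMap.proj_apply]
    have e : (pol (p j) • L j)
        (2 * (p j).1 * (h j / pol (p j)).re, (h j / pol (p j)).im / (2 * Real.pi)) =
        pol (p j) * L j
          (2 * (p j).1 * (h j / pol (p j)).re, (h j / pol (p j)).im / (2 * Real.pi)) := rfl
    rw [e]
    have hx : (p j).1 ≠ 0 := ne_of_gt (hp j)
    have hpi : Real.pi ≠ 0 := Real.pi_ne_zero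
    have e2 : L j (2 * (p j).1 * (h j / pol (p j)).re, (h j / pol (p j)).im / (2 * Real.pi)) =
        h j / pol (p j) := by
      apply Complex.ext
      · rw [(hLa j _).1]
        field_simp
      · rw [(hLa j _).2]
        field_simp
    rw [e2, mul_div_cancel₀ _ (pol_ne_zero _)]

/-- A map that is affine and symplectic in action-angle coordinates is symplectic. -/
theorem toric_sympAt {n : ℕ} (Φ : (Fin n → ℂ) → (Fin n → ℂ))
    (Alin : (Fin n → ℝ × ℝ) →L[ℝ] (Fin n → ℝ × ℝ)) (p0 : Fin n → ℝ × ℝ)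
    (hω : ∀ a b, omegaQ (Alin a) (Alin b) = omegaQ a b)
    (p : Fin n → ℝ × ℝ) (hp : ∀ j, 0 < (p j).1) (hAp : ∀ j, 0 < ((Alin p + p0) j).1)
    (hΦ : DifferentiableAt ℝ Φ (Pol p))
    (hint : ∀ᶠ p' in 𝓝 p, Φ (Pol p') = Pol (Alin p' + p0)) : SympAt Φ (Pol p) := by
  obtain ⟨P', hP', hωP, hsurj⟩ := hasFDerivAt_Pol hp
  obtain ⟨P'', hP'', hωP', -⟩ := hasFDerivAt_Pol hAp
  have hA : HasFDerivAt (fun p' : Fin n → ℝ × ℝ => Alin p' + p0) Alin p :=
    Alin.hasFDerivAt.add_const p0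
  have h1 : HasFDerivAt (fun p' => Φ (Pol p')) ((fderiv ℝ Φ (Pol p)).comp P') p :=
    hΦ.hasFDerivAt.comp p hP'
  have h2 : HasFDerivAt (Pol ∘ fun p' : Fin n → ℝ × ℝ => Alin p' + p0) (P''.comp Alin) p :=
    hP''.comp p hA
  have h3 : HasFDerivAt (fun p' => Φ (Pol p')) (P''.comp Alin) p :=
    HasFDerivAt.congr_of_eventuallyEq h2 hint
  have heq : (fderiv ℝ Φ (Pol p)).comp P' = P''.comp Alin := h1.unique h3
  refine ⟨fderiv ℝ Φ (Pol p), hΦ.hasFDerivAt, ?_⟩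
  intro u w
  obtain ⟨a, rfl⟩ := hsurj u
  obtain ⟨b, rfl⟩ := hsurj w
  have ea : fderiv ℝ Φ (Pol p) (P' a) = P'' (Alin a) := by
    have := congrArg (fun L => L a) heq
    simpa using this
  have eb : fderiv ℝ Φ (Pol p) (P' b) = P'' (Alin b) := by
    have := congrArg (fun L => L b) heq
    simpa using this
  rw [ea, eb, hωP', hω, hωP]

end Vale.Agent.Lib.P209
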