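import Vale.Agent.Lib.P209.Geom

/-!
# Packing by corner simplices and one inverted simplex
-/

namespace Vale.Agent.Lib.P209

open Finset

theorem exists_pos_le {ι : Type*} [Fintype ι] (f : ι → ℝ) (hf : ∀ i, 0 < f i) :
    ∃ ε : ℝ, 0 < ε ∧ ∀ i, ε ≤ f i := by
  classical
  have key : ∀ s : Finset ι, ∃ ε : ℝ, 0 < ε ∧ ∀ i ∈ s, ε ≤ f i := by
    intro s
    induction s using Finset.induction_on with
    | empty => exact ⟨1, one_pos, by simp⟩
    | insert a s _ ih =>
      obtain ⟨ε, hε, h⟩ := ih
      refine ⟨min ε (f a), lt_min hε (hf a), ?_⟩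
      intro i hi
      rcases Finset.mem_insert.mp hi with rfl | hi
      · exact min_le_right _ _
      · exact (min_le_left _ _).trans (h i hi)
  obtain ⟨ε, hε, h⟩ := key Finset.univ
  exact ⟨ε, hε, fun i => h i (Finset.mem_univ i)⟩

theorem exists_box_point {ι : Type*} [Fintype ι] (u : ι → ℝ) (T : ℝ) (hu : ∀ i, 0 ≤ u i)
    (hT : 0 ≤ T) (hTu : T ≤ ∑ i, u i) :
    ∃ q : ι → ℝ, (∀ i, 0 ≤ q i) ∧ (∀ i, q i ≤ u i) ∧ ∑ i, q i = T := by
  have hU0 : 0 ≤ ∑ i, u i := Finset.sum_nonneg (fun i _ => hu i)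
  refine ⟨fun i => u i * (T / ∑ i, u i), fun i => ?_, fun i => ?_, ?_⟩
  · exact mul_nonneg (hu i) (div_nonneg hT hU0)
  · have h1 : T / ∑ i, u i ≤ 1 := div_le_one_of_le₀ hTu hU0
    calc u i * (T / ∑ i, u i) ≤ u i * 1 := mul_le_mul_of_nonneg_left h1 (hu i)
      _ = u i := mul_one _
  · rw [← Finset.sum_mul]
    by_cases h0 : ∑ i, u i = 0
    · rw [h0]
      rw [h0] at hTu
      simp
      linarith
    · field_simp

/-- the moment region assigned to a slot: `none` is the inverted simplex, `some none` the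
simplex at the origin, `some (some l)` the corner simplex at the vertex `R e_l` -/
def slotSet {n : ℕ} (R : ℝ) (a0 b0 : Fin n) (q : Fin n → ℝ) :
    Option (Option (Fin n)) → ℝ → Set (Fin n → ℝ)
  | none, c => invSet a0 b0 q c
  | some none, c => simplexO n c
  | some (some l), c => cornerSet R l c

theorem packing_slots {n k : ℕ} (a0 b0 : Fin n) (hab : a0 ≠ b0) (R : ℝ) (hR : 0 < R)
    (a : Fin k → ℝ) (s : Fin k → Option (Option (Fin n))) (hs : Function.Injective s)
    (ha : ∀ i, 0 < a i) (haR : ∀ i, a i < R) (hpair : ∀ i j, i ≠ j → a i + a j < R)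
    (hH : ∀ i, s i = none → 2 * a i < R) : Packing n k R a := by
  classical
  -- choose the margin
  obtain ⟨ε1, hε1, h1⟩ := exists_pos_le (fun i => R - a i) (fun i => by linarith [haR i])
  obtain ⟨ε2, hε2, h2⟩ := exists_pos_le
    (fun p : Fin k × Fin k => if p.1 = p.2 then 1 else (R - a p.1 - a p.2) / 2) (by
      intro p
      by_cases h : p.1 = p.2
      · simp only [h, if_true]
        exact one_pos
      · simp only [h, if_false]
        have := hpair p.1 p.2 h
        linarith)
  obtain ⟨ε3, hε3, h3⟩ := exists_pos_le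
    (fun i => if s i = none then (R - 2 * a i) / 2 else 1) (by
      intro i
      by_cases h : s i = none
      · simp only [h, if_true]
        have := hH i h
        linarith
      · simp only [h, if_false]
        exact one_pos)
  obtain ⟨ε, hε, e1, e2, e3⟩ : ∃ ε : ℝ, 0 < ε ∧ ε ≤ ε1 ∧ ε ≤ ε2 ∧ ε ≤ ε3 :=
    ⟨min ε1 (min ε2 ε3), lt_min hε1 (lt_min hε2 hε3), min_le_left _ _,
      (min_le_right _ _).trans (min_le_left _ _), (min_le_right _ _).trans (min_le_right _ _)⟩
  obtain ⟨c, hcdef⟩ : ∃ c : Fin k → ℝ, ∀ i, c i = a i + ε := ⟨fun i => a i + ε, fun i => rfl⟩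
  have hac : ∀ i, a i < c i := fun i => by rw [hcdef]; linarith
  have hc0 : ∀ i, 0 < c i := fun i => lt_trans (ha i) (hac i)
  have hcR : ∀ i, c i ≤ R := by
    intro i
    have h7 : ε1 ≤ R - a i := h1 i
    rw [hcdef]
    linarith
  have hcpair : ∀ i j, i ≠ j → c i + c j ≤ R := by
    intro i j hij
    have := h2 (i, j)
    simp only [hij, if_false] at this
    rw [hcdef, hcdef]
    linarith
  have hcH : ∀ i, s i = none → 2 * c i ≤ R := by
    intro i hi
    have := h3 i
    simp only [hi, if_true] at this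
    rw [hcdef]
    linarith
  -- slot sizes
  obtain ⟨γ, hγs, hγn⟩ : ∃ γ : Option (Option (Fin n)) → ℝ,
      (∀ i, γ (s i) = c i) ∧ ∀ t, (¬ ∃ i, s i = t) → γ t = 0 := by
    refine ⟨fun t => if h : ∃ i, s i = t then c (Classical.choose h) else 0, ?_, ?_⟩
    · intro i
      have h : ∃ i', s i' = s i := ⟨i, rfl⟩
      simp only [dif_pos h]
      exact congrArg c (hs (Classical.choose_spec h))
    · intro t h
      simp only [dif_neg h]
  have hγpair : ∀ t t', t ≠ t' → γ t + γ t' ≤ R := by
    intro t t' htt'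
    by_cases h : ∃ i, s i = t
    · obtain ⟨i, rfl⟩ := h
      by_cases h' : ∃ i', s i' = t'
      · obtain ⟨i', rfl⟩ := h'
        rw [hγs, hγs]
        exact hcpair i i' (fun e => htt' (by rw [e]))
      · rw [hγn t' h', hγs]
        linarith [hcR i]
    · rw [hγn t h]
      by_cases h' : ∃ i', s i' = t'
      · obtain ⟨i', rfl⟩ := h'
        rw [hγs]
        linarith [hcR i']
      · rw [hγn t' h']
        linarith
  have hγH : 2 * γ none ≤ R := by
    by_cases h : ∃ i, s i = none
    · obtain ⟨i, hi⟩ := h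
      rw [← hi, hγs]
      exact hcH i hi
    · rw [hγn none h]
      linarith
  -- the base point of the inverted simplex
  have hu0 : ∀ τ : Option (Fin n), 0 ≤ R - γ (some τ) - γ none := by
    intro τ
    have := hγpair (some τ) none (by simp)
    linarith
  have hsum : R - 2 * γ none ≤ ∑ τ : Option (Fin n), (R - γ (some τ) - γ none) := by
    rw [Fintype.sum_option]
    have h4 : R - γ (some (some a0)) - γ none ≤ ∑ l : Fin n, (R - γ (some (some l)) - γ none) :=
      Finset.single_le_sum (f := fun l : Fin n => R - γ (some (some l)) - γ none)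
        (fun l _ => hu0 (some l)) (Finset.mem_univ a0)
    have h5 := hγpair (some none) (some (some a0)) (by simp)
    linarith
  obtain ⟨qq, hqq0, hqqu, hqqs⟩ := exists_box_point
    (fun τ : Option (Fin n) => R - γ (some τ) - γ none) (R - 2 * γ none) hu0 (by linarith) hsum
  rw [Fintype.sum_option] at hqqs
  obtain ⟨q, hq⟩ : ∃ q : Fin n → ℝ, ∀ l, q l = qq (some l) := ⟨fun l => qq (some l), fun l => rfl⟩
  have hqsum : ∑ l, q l = R - 2 * γ none - qq none := by
    rw [Finset.sum_congr rfl (fun l _ => hq l)]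
    linarith
  -- facts about the regions
  have fH : ∀ i, s i = none → ∀ x ∈ slotSet R a0 b0 q (s i) (c i),
      (∀ j, q j < x j) ∧ (∀ j, x j < q j + c i) ∧ ∑ j, q j + c i < ∑ j, x j ∧
        ∑ j, x j < ∑ j, q j + 2 * c i := by
    intro i hi x hx
    rw [hi] at hx
    exact invSet_sub hab hx
  have fO : ∀ i, s i = some none → ∀ x ∈ slotSet R a0 b0 q (s i) (c i),
      (∀ j, 0 < x j) ∧ ∑ j, x j < c i := by
    intro i hi x hx
    rw [hi] at hx
    exact hx
  have fC : ∀ i l, s i = some (some l) → ∀ x ∈ slotSet R a0 b0 q (s i) (c i),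
      (∀ j, 0 < x j) ∧ R - c i < x l ∧ ∑ j, x j < R := by
    intro i l hi x hx
    rw [hi] at hx
    exact cornerSet_sub (hcR i) hx
  have hle : ∀ x : Fin n → ℝ, (∀ j, 0 < x j) → ∀ l, x l ≤ ∑ j, x j := fun x hx l =>
    Finset.single_le_sum (f := x) (fun m _ => (hx m).le) (Finset.mem_univ l)
  have hle2 : ∀ x : Fin n → ℝ, (∀ j, 0 < x j) → ∀ l l', l ≠ l' → x l + x l' ≤ ∑ j, x j := by
    intro x hx l l' hll'
    have h6 : ∑ m ∈ ({l, l'} : Finset (Fin n)), x m ≤ ∑ m, x m :=
      Finset.sum_le_sum_of_subset_of_nonneg (Finset.subset_univ _) (fun m _ _ => (hx m).le)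
    rw [Finset.sum_pair hll'] at h6
    exact h6
  have dHO : ∀ i i', s i = none → s i' = some none → ∀ x,
      x ∈ slotSet R a0 b0 q (s i) (c i) → x ∈ slotSet R a0 b0 q (s i') (c i') → False := by
    intro i i' hi hi' x hx hx'
    obtain ⟨-, -, g3, -⟩ := fH i hi x hx
    obtain ⟨-, g5⟩ := fO i' hi' x hx'
    have g6 : qq none ≤ R - γ (some none) - γ none := hqqu none
    have g7 : γ none = c i := by rw [← hi, hγs]
    have g8 : γ (some none) = c i' := by rw [← hi', hγs]
    rw [g7, g8] at g6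
    rw [g7] at hqsum
    linarith
  have dHC : ∀ i i' l, s i = none → s i' = some (some l) → ∀ x,
      x ∈ slotSet R a0 b0 q (s i) (c i) → x ∈ slotSet R a0 b0 q (s i') (c i') → False := by
    intro i i' l hi hi' x hx hx'
    obtain ⟨-, g2, -, -⟩ := fH i hi x hx
    obtain ⟨-, g5, -⟩ := fC i' l hi' x hx'
    have g6 : qq (some l) ≤ R - γ (some (some l)) - γ none := hqqu (some l)
    have g7 : γ none = c i := by rw [← hi, hγs]
    have g8 : γ (some (some l)) = c i' := by rw [← hi', hγs]
    rw [g7, g8, ← hq l] at g6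
    linarith [g2 l]
  have dOC : ∀ i i' l, s i = some none → s i' = some (some l) → ∀ x,
      x ∈ slotSet R a0 b0 q (s i) (c i) → x ∈ slotSet R a0 b0 q (s i') (c i') → False := by
    intro i i' l hi hi' x hx hx'
    obtain ⟨g1, g2⟩ := fO i hi x hx
    obtain ⟨-, g5, -⟩ := fC i' l hi' x hx'
    have hne : i ≠ i' := by
      intro e
      rw [e, hi'] at hi
      simp at hi
    have := hcpair i i' hne
    linarith [hle x g1 l]
  have dCC : ∀ i i' l l', l ≠ l' → s i = some (some l) → s i' = some (some l') → ∀ x,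
      x ∈ slotSet R a0 b0 q (s i) (c i) → x ∈ slotSet R a0 b0 q (s i') (c i') → False := by
    intro i i' l l' hll' hi hi' x hx hx'
    obtain ⟨g1, g2, g3⟩ := fC i l hi x hx
    obtain ⟨-, g5, -⟩ := fC i' l' hi' x hx'
    have hne : i ≠ i' := by
      intro e
      rw [e, hi'] at hi
      simp at hi
      exact hll' hi.symm
    have := hcpair i i' hne
    linarith [hle2 x g1 l l' hll']
  -- assemble
  apply packing_of_goodEmb (fun i => slotSet R a0 b0 q (s i) (c i))
  · intro i
    show ∃ Ψ, GoodEmb n (a i) Ψ (slotSet R a0 b0 q (s i) (c i))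
    rcases hsi : s i with _ | _ | l
    · exact goodEmb_inv a0 b0 hab q (fun j => by rw [hq]; exact hqq0 _) (ha i).le (hac i)
    · exact goodEmb_base n (ha i).le (hac i)
    · exact goodEmb_corner l (ha i).le (hac i) (hcR i)
  · intro i x hx
    have hx' : x ∈ slotSet R a0 b0 q (s i) (c i) := hx
    rcases hsi : s i with _ | _ | l
    · obtain ⟨-, -, -, g4⟩ := fH i hsi x hx'
      have g7 : γ none = c i := by rw [← hsi, hγs]
      rw [g7] at hqsum
      linarith [hqq0 none]
    · obtain ⟨-, g2⟩ := fO i hsi x hx'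
      linarith [hcR i]
    · exact (fC i l hsi x hx').2.2
  · intro i i' hii'
    rw [Set.disjoint_left]
    intro x hx hx'
    have hx1 : x ∈ slotSet R a0 b0 q (s i) (c i) := hx
    have hx2 : x ∈ slotSet R a0 b0 q (s i') (c i') := hx'
    rcases hsi : s i with _ | _ | l
    · rcases hsi' : s i' with _ | _ | l'
      · exact hii' (hs (hsi.trans hsi'.symm))
      · exact dHO i i' hsi hsi' x hx1 hx2
      · exact dHC i i' l' hsi hsi' x hx1 hx2
    · rcases hsi' : s i' with _ | _ | l'
      · exact dHO i' i hsi' hsi x hx2 hx1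
      · exact hii' (hs (hsi.trans hsi'.symm))
      · exact dOC i i' l' hsi hsi' x hx1 hx2
    · rcases hsi' : s i' with _ | _ | l'
      · exact dHC i' i l hsi' hsi x hx2 hx1
      · exact dOC i' i l hsi' hsi x hx2 hx1
      · by_cases hll' : l = l'
        · subst hll'
          exact hii' (hs (hsi.trans hsi'.symm))
        · exact dCC i i' l l' hll' hsi hsi' x hx1 hx2

end Vale.Agent.Lib.P209
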