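import Vale.Agent.Lib.P209.StairGeom
import Vale.Agent.Lib.P209.Slots

/-!
# Packing one large ball and up to `2 ^ n - 1` small balls
-/

namespace Vale.Agent.Lib.P209

open Finset

theorem packing_stair {n k : ℕ} (hn : 0 < n) (R δ : ℝ) (hδ : 0 < δ) (hδR : 2 * δ ≤ R)
    (a : Fin k → ℝ) (ha : ∀ i, 0 < a i) (i0 : Fin k) (h0 : a i0 < R - δ)
    (hsmall : ∀ i, i ≠ i0 → a i < δ) (slot : Fin k → Finset (Fin n))
    (hslot : Function.Injective slot) (hslot0 : slot i0 = Finset.univ) : Packing n k R a := by
  classical
  have hδb : δ ≤ R - δ := by linarith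
  have hcard : ∀ i, (slot i).card ≤ n := fun i => card_finset_fin_le (slot i)
  have hcardlt : ∀ i, i ≠ i0 → (slot i).card < n := by
    intro i hi
    have h1 : slot i ≠ Finset.univ := by
      intro h
      exact hi (hslot (h.trans hslot0.symm))
    have h2 := (Finset.card_lt_iff_ne_univ (slot i)).mpr h1
    rw [Fintype.card_fin] at h2
    exact h2
  have hS : ∀ i, i ≠ i0 → ∀ x ∈ stairSet n (R - δ) δ (slot i).card (shuf (slot i)),
      (∀ j, 0 < x j) ∧ ∑ j, x j < R ∧ R - δ < ∑ j, x j := by
    intro i hi x hx
    obtain ⟨g1, g2, g3⟩ := stairSet_sub hn hδ hδb (blockMono_shuf (slot i)) hx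
    refine ⟨g1, ?_, g3 (hcardlt i hi)⟩
    linarith
  apply packing_of_goodEmb (fun i => if i = i0 then simplexO n (R - δ)
    else stairSet n (R - δ) δ (slot i).card (shuf (slot i)))
  · intro i
    by_cases hi : i = i0
    · subst hi
      simp only [if_true]
      exact goodEmb_base n (ha i).le h0
    · simp only [hi, if_false]
      exact goodEmb_stair (ha i).le (hsmall i hi) hδb (blockMono_shuf (slot i))
  · intro i X hX
    by_cases hi : i = i0
    · subst hi
      simp only [if_true] at hX
      have := hX.2
      linarith
    · simp only [hi, if_false] at hX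
      exact (hS i hi X hX).2.1
  · intro i i' hii'
    rw [Set.disjoint_left]
    intro x hx hx'
    by_cases hi : i = i0
    · have hi' : i' ≠ i0 := fun h => hii' (hi.trans h.symm)
      simp only [hi, if_true] at hx
      simp only [hi', if_false] at hx'
      have := (hS i' hi' x hx').2.2
      linarith [hx.2]
    · by_cases hi' : i' = i0
      · simp only [hi, if_false] at hx
        simp only [hi', if_true] at hx'
        have := (hS i hi x hx).2.2
        linarith [hx'.2]
      · simp only [hi, if_false] at hx
        simp only [hi', if_false] at hx'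
        have hd := stairSet_disjoint (b := R - δ) (δ := δ) (hcard i) (hcard i')
          (ρ := shuf (slot i)) (ρ' := shuf (slot i')) (by
            rintro ⟨hc, hs⟩
            exact hii' (hslot (shuf_injective hc hs)))
        exact Set.disjoint_left.mp hd hx hx'

end Vale.Agent.Lib.P209
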