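import Vale.Agent.Lib.P209.Coarse
import Vale.Agent.Lib.P209.Medium

/-!
# Up to `2 ^ n` balls satisfying the pair condition together with many small balls
-/

namespace Vale.Agent.Lib.P209

open Finset

theorem sum_ite_zero_fun {n : ℕ} (x y : ℝ) :
    ∑ κc : Fin n → Fin 2, (if κc = 0 then x else y) = x + ((2 : ℝ) ^ n - 1) * y := by
  classical
  have h1 : ∑ κc : Fin n → Fin 2, (if κc = 0 then x else y) =
      ∑ κc : Fin n → Fin 2, ((if κc = 0 then x - y else 0) + y) := by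
    apply Finset.sum_congr rfl
    intro κc _
    split_ifs <;> ring
  rw [h1, Finset.sum_add_distrib, Finset.sum_ite_eq' Finset.univ (0 : Fin n → Fin 2)
    (fun _ => x - y)]
  simp only [Finset.mem_univ, if_true, Finset.sum_const, Finset.card_univ, Fintype.card_fun,
    Fintype.card_fin, nsmul_eq_mul]
  push_cast
  ring

theorem exists_scale (R X : ℝ) (hX : 0 < X) (hXR : 2 * X ≤ R) :
    ∃ m' : ℕ, 0 < m' ∧ R / (2 * (m' : ℝ)) ≤ X ∧ X < 2 * (R / (2 * (m' : ℝ))) := by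
  have hR : 0 < R := by linarith
  have hpos : 0 < R / (2 * X) := by positivity
  obtain ⟨M, hM0, hM1, hM2⟩ : ∃ M : ℕ, 0 < M ∧ R / (2 * X) ≤ M ∧ (M : ℝ) < R / (2 * X) + 1 :=
    ⟨⌈R / (2 * X)⌉₊, Nat.ceil_pos.mpr hpos, Nat.le_ceil _, Nat.ceil_lt_add_one hpos.le⟩
  have hMR : (0 : ℝ) < M := by exact_mod_cast hM0
  have h1 : R ≤ M * (2 * X) := (div_le_iff₀ (by positivity)).mp hM1
  have h2 : (M : ℝ) * (2 * X) < R + 2 * X := by
    have h3 : (M : ℝ) * (2 * X) < (R / (2 * X) + 1) * (2 * X) :=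
      mul_lt_mul_of_pos_right hM2 (by positivity)
    have h4 : (R / (2 * X) + 1) * (2 * X) = R + 2 * X := by field_simp
    linarith
  refine ⟨M, hM0, ?_, ?_⟩
  · rw [div_le_iff₀ (by positivity)]
    linarith
  · have h5 : 2 * (R / (2 * (M : ℝ))) = R / M := by field_simp
    rw [h5, lt_div_iff₀ hMR]
    linarith

theorem big_volume_le {N n : ℕ} (a : Fin N → ℝ) (ha : ∀ i, 0 < a i) (S : Finset (Fin N))
    (hS : S.card ≤ 2 ^ n) (R G : ℝ) (x₀ : Fin N) (hx₀ : x₀ ∈ S)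
    (hmax : ∀ i ∈ S, a i ≤ a x₀) (h1 : a x₀ ≤ R - G)
    (hpair : ∀ i ∈ S, ∀ j ∈ S, i ≠ j → a i + a j ≤ R - G) :
    ∑ i ∈ S, a i ^ n ≤ (R - G) ^ n := by
  classical
  obtain ⟨y, hy⟩ : ∃ y : ℝ, y = min (a x₀) (R - G - a x₀) := ⟨_, rfl⟩
  have hy0 : 0 ≤ y := by
    rw [hy]
    exact le_min (ha x₀).le (by linarith)
  have hyx : y ≤ a x₀ := by
    rw [hy]
    exact min_le_left _ _
  have hyR : a x₀ + y ≤ R - G := by
    have h2 := min_le_right (a x₀) (R - G - a x₀)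
    rw [← hy] at h2
    linarith
  have hle : ∀ i ∈ S.erase x₀, a i ^ n ≤ y ^ n := by
    intro i hi
    have hi1 := Finset.ne_of_mem_erase hi
    have hi2 := Finset.mem_of_mem_erase hi
    apply pow_le_pow_left₀ (ha i).le
    rw [hy]
    apply le_min (hmax i hi2)
    have h3 := hpair i hi2 x₀ hx₀ hi1
    linarith
  have h2 : a x₀ ^ n + ∑ i ∈ S.erase x₀, a i ^ n = ∑ i ∈ S, a i ^ n :=
    Finset.add_sum_erase S (fun i => a i ^ n) hx₀
  have h3 : ∑ i ∈ S.erase x₀, a i ^ n ≤ ((2 : ℝ) ^ n - 1) * y ^ n := by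
    calc ∑ i ∈ S.erase x₀, a i ^ n ≤ ∑ i ∈ S.erase x₀, y ^ n := Finset.sum_le_sum hle
      _ = ((S.erase x₀).card : ℝ) * y ^ n := by rw [Finset.sum_const, nsmul_eq_mul]
      _ ≤ ((2 : ℝ) ^ n - 1) * y ^ n := by
          apply mul_le_mul_of_nonneg_right _ (pow_nonneg hy0 n)
          rw [Finset.card_erase_of_mem hx₀]
          have hc : 1 ≤ S.card := Finset.card_pos.mpr ⟨x₀, hx₀⟩
          have h4 : ((S.card - 1 : ℕ) : ℝ) = (S.card : ℝ) - 1 := by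
            rw [Nat.cast_sub hc]
            simp
          rw [h4]
          have h5 : (S.card : ℝ) ≤ (2 : ℝ) ^ n := by exact_mod_cast hS
          linarith
  have h4 := pow_corner_le n (a x₀) y hy0 hyx
  have h5 : (a x₀ + y) ^ n ≤ (R - G) ^ n :=
    pow_le_pow_left₀ (by linarith [(ha x₀).le]) hyR n
  linarith

theorem cap_sum_ge (n : ℕ) (ν t R M s0 s1 Nf : ℝ) (hν : 0 ≤ 1 - ν) (ht : 0 ≤ t)
    (hcount : M ^ n + s1 ^ n ≤ Nf + s0 ^ n + (2 * s1) ^ n) (hMt : M * t = R) :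
    (1 - ν) ^ n * R ^ n ≤ ((1 - ν) * (s0 * t)) ^ n +
      ((2 : ℝ) ^ n - 1) * ((1 - ν) * (s1 * t)) ^ n + Nf * ((1 - ν) * t) ^ n := by
  have e1 : ((1 - ν) * (s0 * t)) ^ n + ((2 : ℝ) ^ n - 1) * ((1 - ν) * (s1 * t)) ^ n +
      Nf * ((1 - ν) * t) ^ n =
      ((1 - ν) ^ n * t ^ n) * (s0 ^ n + ((2 : ℝ) ^ n - 1) * s1 ^ n + Nf) := by
    rw [mul_pow, mul_pow, mul_pow, mul_pow, mul_pow]
    ring
  have e2 : (1 - ν) ^ n * R ^ n = ((1 - ν) ^ n * t ^ n) * M ^ n := by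
    rw [← hMt, mul_pow]
    ring
  rw [e1, e2]
  apply mul_le_mul_of_nonneg_left _ (mul_nonneg (pow_nonneg hν n) (pow_nonneg ht n))
  rw [mul_pow] at hcount
  linarith

theorem cube_arith (d V : ℝ) (hd0 : 0 ≤ d) (hd1 : d ≤ 1) (hV : 0 ≤ V) :
    (1 - d) * V ≤ (1 - d / 8) * ((1 - d / 8) * ((1 - d / 8) * V)) := by
  have h1 : (1 - d) ≤ (1 - d / 8) * ((1 - d / 8) * (1 - d / 8)) := by
    nlinarith [mul_nonneg hd0 hd0, mul_nonneg (mul_nonneg hd0 hd0) (sub_nonneg.mpr hd1)]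
  calc (1 - d) * V ≤ ((1 - d / 8) * ((1 - d / 8) * (1 - d / 8))) * V :=
        mul_le_mul_of_nonneg_right h1 hV
    _ = (1 - d / 8) * ((1 - d / 8) * ((1 - d / 8) * V)) := by ring

/-- each bin is much larger than one small ball -/
theorem bin_margin (n : ℕ) (hn : 1 ≤ n) (d e τ c b : ℝ) (hd0 : 0 < d) (hd1 : d ≤ 1 / 2)
    (he0 : 0 ≤ e) (he : e ≤ d / 16) (hτ : 0 ≤ τ) (hb : 0 ≤ b) (hgap : b + τ ≤ c) :
    (1 - d / 8) * ((1 - d / 8) * (c ^ n - b ^ n)) ≤ (1 - d / 8) * (c ^ n - b ^ n) - (e * τ) ^ n := by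
  have h1 : τ ^ n + b ^ n ≤ (τ + b) ^ n := pow_add_pow_le hτ hb (by omega)
  have h2 : (τ + b) ^ n ≤ c ^ n := pow_le_pow_left₀ (by linarith) (by linarith) n
  have h3 : τ ^ n ≤ c ^ n - b ^ n := by linarith
  have hτn : 0 ≤ τ ^ n := pow_nonneg hτ n
  have h4 : (e * τ) ^ n ≤ d / 16 * τ ^ n := by
    rw [mul_pow]
    apply mul_le_mul_of_nonneg_right _ hτn
    exact le_trans (pow_le_of_le_one he0 (by linarith) (by omega)) he
  have h5 : d / 16 * τ ^ n ≤ d / 8 * ((1 - d / 8) * (c ^ n - b ^ n)) := by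
    have h6 : d / 16 * τ ^ n ≤ d / 8 * ((1 - d / 8) * τ ^ n) := by
      have hx : 0 ≤ d * τ ^ n := mul_nonneg hd0.le hτn
      have hy : d * (d * τ ^ n) ≤ 1 / 2 * (d * τ ^ n) := mul_le_mul_of_nonneg_right hd1 hx
      have hz : d / 8 * ((1 - d / 8) * τ ^ n) = d * τ ^ n / 8 - d * (d * τ ^ n) / 64 := by ring
      rw [hz]
      linarith
    have h7 : d / 8 * ((1 - d / 8) * τ ^ n) ≤ d / 8 * ((1 - d / 8) * (c ^ n - b ^ n)) := by
      apply mul_le_mul_of_nonneg_left _ (by linarith)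
      apply mul_le_mul_of_nonneg_left h3 (by linarith)
    linarith
  linarith

theorem cap_sum_eq {n : ℕ} {γ : Type} [Fintype γ] (C0 C1 τ : ℝ) :
    ∑ j : (Fin n → Fin 2) ⊕ γ,
      (Sum.elim (fun κc : Fin n → Fin 2 => if κc = 0 then C0 else C1) (fun _ => τ) j) ^ n =
      C0 ^ n + ((2 : ℝ) ^ n - 1) * C1 ^ n + (Fintype.card γ : ℝ) * τ ^ n := by
  classical
  rw [Fintype.sum_sum_type]
  simp only [Sum.elim_inl, Sum.elim_inr]
  have h1 : ∀ κc : Fin n → Fin 2, (if κc = 0 then C0 else C1) ^ n =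
      if κc = 0 then C0 ^ n else C1 ^ n := by
    intro κc
    split_ifs <;> rfl
  simp only [h1]
  rw [sum_ite_zero_fun]
  simp only [Finset.sum_const, Finset.card_univ, nsmul_eq_mul]

theorem cap_lower_arith (n : ℕ) (hn : 1 ≤ n) (d ν R G A : ℝ) (hd : 0 ≤ d) (hG : 0 ≤ G)
    (hGR : G ≤ R) (hν1 : ν ≤ 1) (hνdef : (n : ℝ) * ν * R = d * G / 8)
    (hA : A ≤ (R - G) ^ n) :
    R ^ n - d / 8 * (R ^ n - A) ≤ (1 - ν) ^ n * R ^ n := by
  obtain ⟨k, rfl⟩ : ∃ k, n = k + 1 := ⟨n - 1, by omega⟩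
  have h2 := pow_gap_le (k + 1) hn R G hG hGR
  rw [Nat.add_sub_cancel] at h2
  have hR : 0 ≤ R := le_trans hG hGR
  have h1 : 1 + ((k + 1 : ℕ) : ℝ) * (-ν) ≤ (1 + (-ν)) ^ (k + 1) :=
    one_add_mul_le_pow (by linarith) (k + 1)
  have h3 : (1 + (-ν)) = 1 - ν := by ring
  rw [h3] at h1
  have h4 : (1 + ((k + 1 : ℕ) : ℝ) * (-ν)) * R ^ (k + 1) ≤ (1 - ν) ^ (k + 1) * R ^ (k + 1) :=
    mul_le_mul_of_nonneg_right h1 (pow_nonneg hR _)
  have h5 : (1 + ((k + 1 : ℕ) : ℝ) * (-ν)) * R ^ (k + 1) =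
      R ^ (k + 1) - (((k + 1 : ℕ) : ℝ) * ν * R) * R ^ k := by
    rw [pow_succ]
    ring
  rw [h5, hνdef] at h4
  have h6 : d * G / 8 * R ^ k = d / 8 * (G * R ^ k) := by ring
  have h7 : d / 8 * (G * R ^ k) ≤ d / 8 * (R ^ (k + 1) - (R - G) ^ (k + 1)) :=
    mul_le_mul_of_nonneg_left h2 (by linarith)
  have h8 : d / 8 * (R ^ (k + 1) - (R - G) ^ (k + 1)) ≤ d / 8 * (R ^ (k + 1) - A) :=
    mul_le_mul_of_nonneg_left (by linarith) (by linarith)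
  linarith

theorem vol_chain {β : Type} [Fintype β] (n : ℕ) (hn : 1 ≤ n) (cap bcap : β → ℝ)
    (d e τ R A W : ℝ) (hd0 : 0 < d) (hd1 : d ≤ 1 / 2) (he0 : 0 ≤ e) (he : e ≤ d / 16)
    (hτ : 0 ≤ τ) (hb : ∀ j, 0 ≤ bcap j) (hgap : ∀ j, bcap j + τ ≤ cap j)
    (hbsum : ∑ j, bcap j ^ n = A) (hcap : R ^ n - d / 8 * (R ^ n - A) ≤ ∑ j, cap j ^ n)
    (hV : 0 ≤ R ^ n - A) (hW : W ≤ (1 - d) * (R ^ n - A)) :
    W ≤ ∑ j, ((1 - d / 8) * (cap j ^ n - bcap j ^ n) - (e * τ) ^ n) := by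
  have hd8 : 0 ≤ 1 - d / 8 := by linarith
  calc W ≤ (1 - d) * (R ^ n - A) := hW
    _ ≤ (1 - d / 8) * ((1 - d / 8) * ((1 - d / 8) * (R ^ n - A))) :=
        cube_arith d _ hd0.le (by linarith) hV
    _ ≤ (1 - d / 8) * ((1 - d / 8) * (∑ j, cap j ^ n - ∑ j, bcap j ^ n)) := by
        apply mul_le_mul_of_nonneg_left _ hd8
        apply mul_le_mul_of_nonneg_left _ hd8
        rw [hbsum]
        linarith
    _ = ∑ j, (1 - d / 8) * ((1 - d / 8) * (cap j ^ n - bcap j ^ n)) := by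
        rw [← Finset.sum_sub_distrib, Finset.mul_sum, Finset.mul_sum]
    _ ≤ ∑ j, ((1 - d / 8) * (cap j ^ n - bcap j ^ n) - (e * τ) ^ n) :=
        Finset.sum_le_sum (fun j _ =>
          bin_margin n hn d e τ (cap j) (bcap j) hd0 hd1 he0 he hτ (hb j) (hgap j))

theorem exists_bcap {N : ℕ} {β : Type} (a : Fin N → ℝ) (S : Finset (Fin N))
    (e : {i : Fin N // i ∈ S} → β) (he : Function.Injective e) :
    ∃ bcap : β → ℝ, (∀ x : {i : Fin N // i ∈ S}, bcap (e x) = a x.1) ∧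
      (∀ j, (∀ x : {i : Fin N // i ∈ S}, e x ≠ j) → bcap j = 0) := by
  classical
  refine ⟨fun j => if h : ∃ x : {i : Fin N // i ∈ S}, e x = j
    then a (Classical.choose h).1 else 0, ?_, ?_⟩
  · intro x
    have h : ∃ y : {i : Fin N // i ∈ S}, e y = e x := ⟨x, rfl⟩
    simp only [dif_pos h]
    rw [he (Classical.choose_spec h)]
  · intro j hj
    have h : ¬ ∃ x : {i : Fin N // i ∈ S}, e x = j := fun ⟨x, hx⟩ => hj x hx
    simp only [dif_neg h]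

theorem bcap_sum {N n : ℕ} (hn : 0 < n) {β : Type} [Fintype β] (a : Fin N → ℝ)
    (S : Finset (Fin N)) (e : {i : Fin N // i ∈ S} → β) (he : Function.Injective e)
    (bcap : β → ℝ) (hb1 : ∀ x : {i : Fin N // i ∈ S}, bcap (e x) = a x.1)
    (hb0 : ∀ j, (∀ x : {i : Fin N // i ∈ S}, e x ≠ j) → bcap j = 0) :
    ∑ j, bcap j ^ n = ∑ i ∈ S, a i ^ n := by
  classical
  have h1 : ∑ j ∈ Finset.univ.image e, bcap j ^ n = ∑ j, bcap j ^ n := by
    apply Finset.sum_subset (Finset.subset_univ _)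
    intro j _ hj
    have h2 : bcap j = 0 :=
      hb0 j (fun x hx => hj (Finset.mem_image.mpr ⟨x, Finset.mem_univ _, hx⟩))
    rw [h2, zero_pow (by omega)]
  rw [← h1, Finset.sum_image (fun x _ y _ h => he h),
    ← Finset.sum_coe_sort S (fun i => a i ^ n)]
  apply Finset.sum_congr rfl
  intro x _
  rw [hb1 x]

theorem bcap_nonneg {N : ℕ} {β : Type} (a : Fin N → ℝ) (ha : ∀ i, 0 < a i)
    (S : Finset (Fin N)) (e : {i : Fin N // i ∈ S} → β)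
    (bcap : β → ℝ) (hb1 : ∀ x : {i : Fin N // i ∈ S}, bcap (e x) = a x.1)
    (hb0 : ∀ j, (∀ x : {i : Fin N // i ∈ S}, e x ≠ j) → bcap j = 0) (j : β) :
    0 ≤ bcap j := by
  by_cases h : ∃ x : {i : Fin N // i ∈ S}, e x = j
  · obtain ⟨x, hx⟩ := h
    rw [← hx, hb1 x]
    exact (ha x.1).le
  · rw [hb0 j (fun x hx => h ⟨x, hx⟩)]

/-- The composition step: coarse cells of capacities `C0 ≥ C1` (one of capacity `C0`), fine
cells of capacity `τ`, the largest ball in the cell of capacity `C0`, the other balls of `S`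
in cells of capacity `C1`, the small balls distributed over the free parts. -/
theorem coarse_assemble {n : ℕ} (hn : 2 ≤ n) (d εb εd e : ℝ) (hd0 : 0 < d) (hd1 : d ≤ 1 / 2)
    (hbig : ∀ (k : ℕ) (c : ℝ) (a : Fin (k + 1) → ℝ), (∀ i, 0 < a i) → a 0 < c →
      (∀ i, i ≠ 0 → a i ≤ εb * (c - a 0)) →
      ∑ i, a i ^ n ≤ a 0 ^ n + (1 - d / 8) * (c ^ n - a 0 ^ n) → Packing n (k + 1) c a)
    (hdust : ∀ (k : ℕ) (c : ℝ), 0 < c → ∀ a : Fin k → ℝ, (∀ i, 0 < a i) →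
      (∀ i, a i ≤ εd * c) → ∑ i, a i ^ n ≤ (1 - d / 8) * c ^ n → Packing n k c a)
    (he0 : 0 < e) (heb : e ≤ εb) (hed : e ≤ εd) (hed' : e ≤ d / 16)
    {γ : Type} [Fintype γ] (C0 C1 τ R : ℝ) (hτ0 : 0 < τ) (hτC1 : τ ≤ C1) (hC10 : C1 ≤ C0)
    (hcells : PackingInto n (capOpenBall n R) (fun j : (Fin n → Fin 2) ⊕ γ =>
        Sum.elim (fun κc : Fin n → Fin 2 => if κc = 0 then C0 else C1) (fun _ => τ) j))
    {N : ℕ} (a : Fin N → ℝ) (ha : ∀ i, 0 < a i) (S : Finset (Fin N)) (hS : S.card ≤ 2 ^ n)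
    (x₀ : Fin N) (hx₀ : x₀ ∈ S) (hgap0 : a x₀ + τ ≤ C0)
    (hgap1 : ∀ i ∈ S, i ≠ x₀ → a i + τ ≤ C1)
    (hsmall : ∀ i, i ∉ S → a i ≤ e * τ)
    (hcap : R ^ n - d / 8 * (R ^ n - ∑ i ∈ S, a i ^ n) ≤
      C0 ^ n + ((2 : ℝ) ^ n - 1) * C1 ^ n + (Fintype.card γ : ℝ) * τ ^ n)
    (hV : 0 ≤ R ^ n - ∑ i ∈ S, a i ^ n)
    (hvol : ∑ i ∈ Sᶜ, a i ^ n ≤ (1 - d) * (R ^ n - ∑ i ∈ S, a i ^ n)) :
    Packing n N R a := by
  classical
  have hn0 : 0 < n := by omega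
  have hcard : Fintype.card {i : Fin N // i ∈ S} ≤ Fintype.card (Fin n → Fin 2) := by
    rw [Fintype.card_coe, Fintype.card_fun, Fintype.card_fin, Fintype.card_fin]
    exact hS
  obtain ⟨f⟩ := Function.Embedding.nonempty_of_card_le hcard
  obtain ⟨e₂, he₂, he₂0⟩ : ∃ e₂ : {i : Fin N // i ∈ S} → (Fin n → Fin 2),
      Function.Injective e₂ ∧ e₂ ⟨x₀, hx₀⟩ = 0 :=
    ⟨fun x => Equiv.swap (f ⟨x₀, hx₀⟩) 0 (f x),
      fun x y h => f.injective ((Equiv.swap _ _).injective h), Equiv.swap_apply_left _ _⟩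
  obtain ⟨ef, hefdef⟩ : ∃ ef : {i : Fin N // i ∈ S} → (Fin n → Fin 2) ⊕ γ,
      ef = fun x => Sum.inl (e₂ x) := ⟨_, rfl⟩
  have hef : Function.Injective ef := by
    rw [hefdef]
    exact fun x y h => he₂ (Sum.inl_injective h)
  obtain ⟨bcap, hb1, hb0⟩ := exists_bcap a S ef hef
  have hbnn := bcap_nonneg a ha S ef bcap hb1 hb0
  have hbsum := bcap_sum hn0 a S ef hef bcap hb1 hb0
  have hNe : Nonempty ((Fin n → Fin 2) ⊕ γ) := ⟨Sum.inl 0⟩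
  have hgap : ∀ j : (Fin n → Fin 2) ⊕ γ, bcap j + τ ≤
      Sum.elim (fun κc : Fin n → Fin 2 => if κc = 0 then C0 else C1) (fun _ => τ) j := by
    intro j
    by_cases h : ∃ x : {i : Fin N // i ∈ S}, ef x = j
    · obtain ⟨x, hx⟩ := h
      rw [← hx, hb1 x, hefdef]
      show a x.1 + τ ≤ if e₂ x = 0 then C0 else C1
      by_cases hx0 : e₂ x = 0
      · rw [if_pos hx0]
        have hxe : x = ⟨x₀, hx₀⟩ := he₂ (hx0.trans he₂0.symm)
        rw [hxe]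
        exact hgap0
      · rw [if_neg hx0]
        have hne : x.1 ≠ x₀ := by
          intro h'
          apply hx0
          have hxe : x = ⟨x₀, hx₀⟩ := Subtype.ext h'
          rw [hxe]
          exact he₂0
        exact hgap1 x.1 x.2 hne
    · rw [hb0 j (fun x hx => h ⟨x, hx⟩)]
      rcases j with κc | κ
      · show 0 + τ ≤ if κc = 0 then C0 else C1
        split_ifs <;> linarith
      · show 0 + τ ≤ τ
        linarith
  refine assemble hn0 (d / 8) εb εd (by linarith) hbig hdust (le_trans he0.le heb)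
    (le_trans he0.le hed) _ bcap R hcells a ha S ef hef τ ((e * τ) ^ n) hτ0 hb1 hb0 hgap
    ?_ ?_ (by positivity) ?_ ?_
  · intro i hi
    exact le_trans (hsmall i hi) (mul_le_mul_of_nonneg_right heb hτ0.le)
  · intro i hi
    exact le_trans (hsmall i hi) (mul_le_mul_of_nonneg_right hed hτ0.le)
  · intro i hi
    exact pow_le_pow_left₀ (ha i).le (hsmall i hi) n
  · apply vol_chain n (by omega) _ bcap d e τ R (∑ i ∈ S, a i ^ n) _ hd0 hd1 he0.le hed'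
      hτ0.le hbnn hgap hbsum _ hV hvol
    rw [cap_sum_eq]
    exact hcap

theorem scale_params (R G A θ : ℝ) (hG : 0 < G) (hGR : G ≤ R) (hA0 : 0 < A) (hA1 : A ≤ R - G)
    (hθ0 : 0 < θ) (hθ : θ ≤ 1 / 256) :
    ∃ (m' s0 s1 : ℕ) (t : ℝ), 0 < t ∧ t ≤ θ * G ∧ θ * G < 2 * t ∧ s0 + s1 = 2 * m' ∧
      s1 ≤ s0 ∧ ((2 * m' : ℕ) : ℝ) * t = R ∧ A + G / 2 < s0 * t ∧
      (s1 : ℝ) * t = R - s0 * t ∧ ((s0 : ℝ) * t ≤ R / 2 ∨ (s0 : ℝ) * t ≤ A + G / 2 + t) := by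
  have hR : 0 < R := lt_of_lt_of_le hG hGR
  have hX : 0 < θ * G := mul_pos hθ0 hG
  have hXG : θ * G ≤ 1 / 256 * G := mul_le_mul_of_nonneg_right hθ hG.le
  obtain ⟨m', hm'0, hm'1, hm'2⟩ := exists_scale R (θ * G) hX (by linarith)
  have hm'R : (0 : ℝ) < m' := by exact_mod_cast hm'0
  obtain ⟨t, htdef⟩ : ∃ t : ℝ, t = R / (2 * (m' : ℝ)) := ⟨_, rfl⟩
  rw [← htdef] at hm'1 hm'2
  have ht0 : 0 < t := by
    rw [htdef]
    positivity
  have hmt : (m' : ℝ) * t = R / 2 := by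
    rw [htdef]
    field_simp
  have hfl0 : 0 ≤ (A + G / 2) / t := by positivity
  obtain ⟨σ, hσ1, hσ2⟩ : ∃ σ : ℕ, (A + G / 2) / t < σ ∧ (σ : ℝ) ≤ (A + G / 2) / t + 1 := by
    refine ⟨⌊(A + G / 2) / t⌋₊ + 1, ?_, ?_⟩
    · exact_mod_cast Nat.lt_floor_add_one ((A + G / 2) / t)
    · push_cast
      linarith [Nat.floor_le hfl0]
  have hσ1' : A + G / 2 < σ * t := (div_lt_iff₀ ht0).mp hσ1
  have hσ2' : (σ : ℝ) * t ≤ A + G / 2 + t := by
    have h1 : (σ : ℝ) * t ≤ ((A + G / 2) / t + 1) * t := mul_le_mul_of_nonneg_right hσ2 ht0.le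
    have h2 : ((A + G / 2) / t + 1) * t = A + G / 2 + t := by field_simp
    linarith
  have hσ3 : σ ≤ 2 * m' := by
    have h1 : (σ : ℝ) * t < (2 * (m' : ℝ)) * t := by
      have h2 : (2 * (m' : ℝ)) * t = R := by linarith
      rw [h2]
      linarith
    have h3 : (σ : ℝ) < 2 * (m' : ℝ) := lt_of_mul_lt_mul_right h1 ht0.le
    have h4 : (σ : ℝ) < ((2 * m' : ℕ) : ℝ) := by
      push_cast
      exact h3
    exact le_of_lt (by exact_mod_cast h4)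
  have hs0le : max m' σ ≤ 2 * m' := max_le (by omega) hσ3
  have hcast : ((2 * m' - max m' σ : ℕ) : ℝ) = 2 * (m' : ℝ) - ((max m' σ : ℕ) : ℝ) := by
    rw [Nat.cast_sub hs0le]
    push_cast
    ring
  refine ⟨m', max m' σ, 2 * m' - max m' σ, t, ht0, hm'1, hm'2, by omega, ?_, ?_, ?_, ?_, ?_⟩
  · have h1 : m' ≤ max m' σ := le_max_left _ _
    omega
  · push_cast
    linarith
  · have h1 : (σ : ℝ) ≤ ((max m' σ : ℕ) : ℝ) := by exact_mod_cast le_max_right m' σ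
    have h2 : (σ : ℝ) * t ≤ ((max m' σ : ℕ) : ℝ) * t := mul_le_mul_of_nonneg_right h1 ht0.le
    linarith
  · rw [hcast]
    have h1 : (2 * (m' : ℝ) - ((max m' σ : ℕ) : ℝ)) * t =
        2 * ((m' : ℝ) * t) - ((max m' σ : ℕ) : ℝ) * t := by ring
    rw [h1, hmt]
    ring
  · rcases max_cases m' σ with ⟨h1, _⟩ | ⟨h1, _⟩
    · left
      rw [h1, hmt]
    · right
      rw [h1]
      exact hσ2'

theorem gap_params (R G A t s0t s1t ν : ℝ) (hG : 0 < G) (hGR : G ≤ R) (hA0 : 0 < A)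
    (hA1 : A ≤ R - G) (ht0 : 0 < t) (ht : t ≤ G / 256) (hν0 : 0 ≤ ν) (hνR : ν * R ≤ G / 32)
    (h1 : A + G / 2 < s0t) (h2 : s1t = R - s0t)
    (h3 : s0t ≤ R / 2 ∨ s0t ≤ A + G / 2 + t) :
    t ≤ s1t ∧ A + (1 - ν) * t ≤ (1 - ν) * s0t ∧
      ∀ B : ℝ, B ≤ A → A + B ≤ R - G → B + (1 - ν) * t ≤ (1 - ν) * s1t := by
  have hs1 : t ≤ s1t := by
    rcases h3 with h3 | h3 <;> linarith
  have hs0R : s0t ≤ R := by linarith
  have hs1R : s1t ≤ R := by linarith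
  have hν0t : ν * s0t ≤ ν * R := mul_le_mul_of_nonneg_left hs0R hν0
  have hν1t : ν * s1t ≤ ν * R := mul_le_mul_of_nonneg_left hs1R hν0
  have hνt : 0 ≤ ν * t := mul_nonneg hν0 ht0.le
  have e1 : (1 - ν) * t = t - ν * t := by ring
  have e2 : (1 - ν) * s0t = s0t - ν * s0t := by ring
  have e3 : (1 - ν) * s1t = s1t - ν * s1t := by ring
  refine ⟨hs1, ?_, ?_⟩
  · rw [e1, e2]
    linarith
  · intro B hBA hAB
    rw [e1, e3]
    rcases h3 with h3 | h3 <;> linarith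

/-- For every `δ > 0` there is `ε > 0` such that: if at most `2 ^ n` of the balls (those in
`S`) have capacities at most `R - G` and pairwise sums of capacities at most `R - G`, all the
other balls have capacities at most `ε * G`, and the total volume of the other balls is at most
`1 - δ` times the volume left over by the balls in `S`, then all the balls pack into the open
ball of capacity `R`. -/
theorem pow_two_dust_packing (n : ℕ) (hn : 2 ≤ n) (δ : ℝ) (hδ : 0 < δ) :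
    ∃ ε : ℝ, 0 < ε ∧ ∀ (N : ℕ) (R G : ℝ) (a : Fin N → ℝ) (S : Finset (Fin N)),
      S.card ≤ 2 ^ n → 0 < G → G ≤ R → (∀ i, 0 < a i) → (∀ i ∈ S, a i ≤ R - G) →
      (∀ i ∈ S, ∀ j ∈ S, i ≠ j → a i + a j ≤ R - G) → (∀ i, i ∉ S → a i ≤ ε * G) →
      ∑ i ∈ Sᶜ, a i ^ n ≤ (1 - δ) * (R ^ n - ∑ i ∈ S, a i ^ n) → Packing n N R a := by
  obtain ⟨δ₁, hδ₁, hδ₁le, hδ₁half⟩ : ∃ δ₁ : ℝ, 0 < δ₁ ∧ δ₁ ≤ δ ∧ δ₁ ≤ 1 / 2 :=
    ⟨min δ (1 / 2), lt_min hδ (by norm_num), min_le_left _ _, min_le_right _ _⟩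
  have hn0 : 0 < n := by omega
  have hnR : (2 : ℝ) ≤ (n : ℝ) := by exact_mod_cast hn
  obtain ⟨εm, hεm, hmed⟩ := medium_dust_packing n hn δ hδ
  obtain ⟨εb, hεb, hbig⟩ := big_dust_packing n hn (δ₁ / 8) (by positivity)
  obtain ⟨εd, hεd, hdust⟩ := dust_packing n hn (δ₁ / 8) (by positivity)
  obtain ⟨θ, hθdef⟩ : ∃ θ : ℝ, θ = δ₁ / (64 * (n : ℝ)) := ⟨_, rfl⟩
  have hθ0 : 0 < θ := by
    rw [hθdef]
    positivity
  have hθn : 64 * ((n : ℝ) * θ) = δ₁ := by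
    rw [hθdef]
    field_simp
  have hθle : θ ≤ 1 / 256 := by
    have h1 : 2 * θ ≤ (n : ℝ) * θ := mul_le_mul_of_nonneg_right hnR hθ0.le
    linarith
  obtain ⟨ε₂, hε₂0, hε₂b, hε₂d, hε₂δ⟩ : ∃ ε₂ : ℝ, 0 < ε₂ ∧ ε₂ ≤ εb ∧ ε₂ ≤ εd ∧
      ε₂ ≤ δ₁ / 16 :=
    ⟨min (min εb εd) (δ₁ / 16), lt_min (lt_min hεb hεd) (by positivity),
      le_trans (min_le_left _ _) (min_le_left _ _),
      le_trans (min_le_left _ _) (min_le_right _ _), min_le_right _ _⟩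
  refine ⟨min εm (ε₂ * θ / 4), lt_min hεm (by positivity), ?_⟩
  intro N R G a S hS hG hGR ha hbigS hpair hsmall hvol
  rcases S.eq_empty_or_nonempty with hSe | hSne
  · subst hSe
    refine hmed 1 N R G a ∅ (le_refl 1) (by simp) hG (by simpa using hGR) ha (by simp) ?_ hvol
    intro i hi
    exact le_trans (hsmall i hi) (mul_le_mul_of_nonneg_right (min_le_left _ _) hG.le)
  obtain ⟨x₀, hx₀, hmax⟩ := Finset.exists_max_image S a hSne
  have hR : 0 < R := lt_of_lt_of_le hG hGR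
  have hA1 := hbigS x₀ hx₀
  obtain ⟨m', s0, s1, t, ht0, htle, htlt, hm, hs, hMt, hs0t1, hs1t, hs0t3⟩ :=
    scale_params R G (a x₀) θ hG hGR (ha x₀) hA1 hθ0 hθle
  have hθG : θ * G ≤ 1 / 256 * G := mul_le_mul_of_nonneg_right hθle hG.le
  have ht256 : t ≤ G / 256 := by linarith
  obtain ⟨ν, hνdef⟩ : ∃ ν : ℝ, ν = δ₁ * G / (8 * (n : ℝ) * R) := ⟨_, rfl⟩
  have hν0 : 0 < ν := by
    rw [hνdef]
    positivity
  have hνR : (n : ℝ) * ν * R = δ₁ * G / 8 := by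
    rw [hνdef]
    field_simp
  have hνR32 : ν * R ≤ G / 32 := by
    have h1 : 2 * (ν * R) ≤ (n : ℝ) * (ν * R) :=
      mul_le_mul_of_nonneg_right hnR (mul_pos hν0 hR).le
    have h2 : δ₁ * G ≤ 1 / 2 * G := mul_le_mul_of_nonneg_right hδ₁half hG.le
    have h3 : (n : ℝ) * (ν * R) = δ₁ * G / 8 := by
      rw [← hνR]
      ring
    linarith
  have hν1 : ν ≤ 1 / 32 := by
    have h1 : ν * R ≤ 1 / 32 * R := by linarith
    exact le_of_mul_le_mul_right h1 hR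
  have hν1' : 0 < 1 - ν := by linarith
  obtain ⟨hts1, hgap0, hgap1⟩ := gap_params R G (a x₀) t (s0 * t) (s1 * t) ν hG hGR (ha x₀)
    hA1 ht0 ht256 hν0.le hνR32 hs0t1 hs1t hs0t3
  have hs0tpos : 0 < (s0 : ℝ) * t := by linarith [ha x₀]
  have hs1tpos : 0 < (s1 : ℝ) * t := by linarith
  have hτ0 : 0 < (1 - ν) * t := mul_pos hν1' ht0
  have hτt : (1 - ν) * t < t := by
    have h1 := mul_pos hν0 ht0
    linarith
  have hC0pos : 0 < (1 - ν) * (s0 * t) := mul_pos hν1' hs0tpos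
  have hC0lt : (1 - ν) * (s0 * t) < s0 * t := by
    have h1 := mul_pos hν0 hs0tpos
    linarith
  have hC1pos : 0 < (1 - ν) * (s1 * t) := mul_pos hν1' hs1tpos
  have hC1lt : (1 - ν) * (s1 * t) < s1 * t := by
    have h1 := mul_pos hν0 hs1tpos
    linarith
  have hτC1 : (1 - ν) * t ≤ (1 - ν) * (s1 * t) := mul_le_mul_of_nonneg_left hts1 hν1'.le
  have hC10 : (1 - ν) * (s1 * t) ≤ (1 - ν) * (s0 * t) := by
    apply mul_le_mul_of_nonneg_left _ hν1'.le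
    exact mul_le_mul_of_nonneg_right (by exact_mod_cast hs) ht0.le
  have hcells := packing_coarse_fine hn0 (2 * m') s0 s1 hm hs t ((1 - ν) * (s0 * t))
    ((1 - ν) * (s1 * t)) ((1 - ν) * t) ht0 hC0pos hC0lt hC1pos hC1lt hτ0 hτt
  rw [hMt] at hcells
  have hAle : ∑ i ∈ S, a i ^ n ≤ (R - G) ^ n :=
    big_volume_le a ha S hS R G x₀ hx₀ hmax hA1 hpair
  have hV : 0 ≤ R ^ n - ∑ i ∈ S, a i ^ n := by
    have h1 : (R - G) ^ n ≤ R ^ n :=
      pow_le_pow_left₀ (by linarith [ha x₀]) (by linarith) n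
    linarith
  have hc := coarse_fine_card n (2 * m') s0 s1 hm hs
  have hc' : (((2 * m' : ℕ) : ℝ)) ^ n + (s1 : ℝ) ^ n ≤
      (Fintype.card {κ : Fin n → Fin (2 * m') //
        (∃ p, s0 ≤ (κ p).val) ∧ (∃ p, s1 ≤ (κ p).val ∧ (κ p).val < s0)} : ℝ) +
        (s0 : ℝ) ^ n + (2 * (s1 : ℝ)) ^ n := by
    exact_mod_cast hc
  have hcs := cap_sum_ge n ν t R ((2 * m' : ℕ) : ℝ) s0 s1 _ hν1'.le ht0.le hc' hMt
  have hcl := cap_lower_arith n (by omega) δ₁ ν R G (∑ i ∈ S, a i ^ n) hδ₁.le hG.le hGR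
    (by linarith) hνR hAle
  refine coarse_assemble hn δ₁ εb εd ε₂ hδ₁ hδ₁half hbig hdust hε₂0 hε₂b hε₂d hε₂δ
    ((1 - ν) * (s0 * t)) ((1 - ν) * (s1 * t)) ((1 - ν) * t) R hτ0 hτC1 hC10 hcells a ha S hS
    x₀ hx₀ hgap0 ?_ ?_ (le_trans hcl hcs) hV ?_
  · intro i hi hne
    have h1 := hpair i hi x₀ hx₀ hne
    exact hgap1 (a i) (hmax i hi) (by linarith)
  · intro i hi
    have h1 : ν * t ≤ 1 / 32 * t := mul_le_mul_of_nonneg_right hν1 ht0.le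
    have h2 : θ * G / 4 ≤ (1 - ν) * t := by
      have h3 : (1 - ν) * t = t - ν * t := by ring
      rw [h3]
      have h4 := mul_pos hθ0 hG
      linarith
    calc a i ≤ min εm (ε₂ * θ / 4) * G := hsmall i hi
      _ ≤ ε₂ * θ / 4 * G := mul_le_mul_of_nonneg_right (min_le_right _ _) hG.le
      _ = ε₂ * (θ * G / 4) := by ring
      _ ≤ ε₂ * ((1 - ν) * t) := mul_le_mul_of_nonneg_left h2 hε₂0.le
  · calc ∑ i ∈ Sᶜ, a i ^ n ≤ (1 - δ) * (R ^ n - ∑ i ∈ S, a i ^ n) := hvol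
      _ ≤ (1 - δ₁) * (R ^ n - ∑ i ∈ S, a i ^ n) :=
          mul_le_mul_of_nonneg_right (by linarith) hV

end Vale.Agent.Lib.P209
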