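import Vale.Agent.Lib.P209.Bands

/-!
# The rank criterion: `a_0 + a_1 + a_{2^n} + a_{3^n} + ... < R` for balls in non-increasing order
-/

namespace Vale.Agent.Lib.P209

open Finset

/-- greedy choice of distinct representatives -/
theorem exists_injective_choice {X : Type*} [DecidableEq X] : ∀ k : ℕ, ∀ C : ℕ → Finset X,
    (∀ r, r < k → r + 1 ≤ (C r).card) →
    ∃ f : Fin k → X, Function.Injective f ∧ ∀ i : Fin k, f i ∈ C i.val := by
  intro k
  induction k with
  | zero =>
    intro C _
    exact ⟨fun i => i.elim0, fun i => i.elim0, fun i => i.elim0⟩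
  | succ k ih =>
    intro C hC
    obtain ⟨f, hf, hfC⟩ := ih C (fun r hr => hC r (by omega))
    have hcard : (Finset.univ.image f).card < (C k).card := by
      calc (Finset.univ.image f).card ≤ (Finset.univ : Finset (Fin k)).card :=
            Finset.card_image_le
        _ = k := by simp
        _ < (C k).card := hC k (by omega)
    obtain ⟨x, hxC, hxf⟩ := Finset.exists_mem_notMem_of_card_lt_card hcard
    have hxf' : ∀ i : Fin k, f i ≠ x := by
      intro i h
      exact hxf (h ▸ Finset.mem_image_of_mem f (Finset.mem_univ i))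
    refine ⟨fun i => if h : i.val < k then f ⟨i.val, h⟩ else x, ?_, ?_⟩
    · intro i j hij
      by_cases hi : i.val < k
      · by_cases hj : j.val < k
        · simp only [dif_pos hi, dif_pos hj] at hij
          have := hf hij
          exact Fin.ext (by simpa using congrArg Fin.val this)
        · simp only [dif_pos hi, dif_neg hj] at hij
          exact absurd hij (hxf' _)
      · by_cases hj : j.val < k
        · simp only [dif_neg hi, dif_pos hj] at hij
          exact absurd hij.symm (hxf' _)
        · exact Fin.ext (by omega)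
    · intro i
      by_cases hi : i.val < k
      · simp only [dif_pos hi]
        exact hfC ⟨i.val, hi⟩
      · simp only [dif_neg hi]
        have : i.val = k := by omega
        rw [this]
        exact hxC

/-- the integer part of the `n`-th root -/
theorem exists_root (n : ℕ) (hn : 0 < n) (r : ℕ) : ∃ j : ℕ, j ^ n ≤ r ∧ r < (j + 1) ^ n := by
  have hex : ∃ j : ℕ, r < (j + 1) ^ n := ⟨r, by
    calc r < r + 1 := Nat.lt_succ_self r
      _ = (r + 1) ^ 1 := (pow_one _).symm
      _ ≤ (r + 1) ^ n := Nat.pow_le_pow_right (Nat.succ_pos r) hn⟩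
  refine ⟨Nat.find hex, ?_, Nat.find_spec hex⟩
  rcases Nat.eq_zero_or_pos (Nat.find hex) with h0 | hpos
  · rw [h0, zero_pow (by omega)]
    exact Nat.zero_le r
  · have h4 := Nat.find_min hex (m := Nat.find hex - 1) (by omega)
    have h5 : Nat.find hex - 1 + 1 = Nat.find hex := by omega
    rw [h5] at h4
    exact not_lt.mp h4

/-- the colourings with values at most `j` are at least `(j + 1) ^ n` in number -/
theorem card_colourings_le {n m : ℕ} (j : ℕ) (hj : j < m) :
    (j + 1) ^ n ≤ (univ.filter (fun κ : Fin n → Fin m => ∀ p, (κ p).val ≤ j)).card := by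
  classical
  have h1 : (Finset.univ : Finset (Fin n → Fin (j + 1))).card = (j + 1) ^ n := by
    rw [Finset.card_univ, Fintype.card_fun, Fintype.card_fin, Fintype.card_fin]
  rw [← h1]
  apply Finset.card_le_card_of_injOn
    (fun (κ : Fin n → Fin (j + 1)) (p : Fin n) => Fin.castLE (by omega : j + 1 ≤ m) (κ p))
  · intro κ _
    apply Finset.mem_coe.mpr
    apply Finset.mem_filter.mpr
    refine ⟨Finset.mem_univ _, ?_⟩
    intro p
    have := (κ p).isLt
    simp only [Fin.val_castLE]
    omega
  · intro κ _ κ' _ h
    funext p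
    have h2 := congrFun h p
    exact Fin.ext (by simpa using congrArg Fin.val h2)

/-- The rank criterion.  For balls listed in non-increasing order of capacity, if the
capacities of the balls of ranks `0, 1, 2 ^ n, 3 ^ n, ...` sum to less than `R`, then the
balls pack into the open ball of capacity `R`. -/
theorem packing_rank {n k m : ℕ} (hn : 0 < n) (hk : k ≤ m ^ n) (R : ℝ) (a : Fin k → ℝ)
    (ha : ∀ i, 0 < a i) (hmono : Antitone a)
    (hsum : ∑ j : Fin m, (if h : j.val ^ n < k then a ⟨j.val ^ n, h⟩ else 0) < R) :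
    Packing n k R a := by
  classical
  have hn0 : n ≠ 0 := by omega
  rcases Nat.eq_zero_or_pos m with hm0 | hmpos
  · subst hm0
    rw [zero_pow hn0] at hk
    have hk0 : k = 0 := by omega
    subst hk0
    exact ⟨fun i => i.elim0, fun i => i.elim0, fun i => i.elim0, fun i => i.elim0⟩
  obtain ⟨J, hJ⟩ : ∃ J : ℕ → ℕ, ∀ r, J r ^ n ≤ r ∧ r < (J r + 1) ^ n :=
    ⟨fun r => (exists_root n hn r).choose, fun r => (exists_root n hn r).choose_spec⟩
  have hJm : ∀ r, r < k → J r < m := by
    intro r hr
    have h1 : J r ^ n < m ^ n := lt_of_le_of_lt (hJ r).1 (lt_of_lt_of_le hr hk)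
    exact (Nat.pow_lt_pow_iff_left hn0).mp h1
  obtain ⟨β, hβ⟩ : ∃ β : Fin m → ℝ,
      ∀ j, β j = if h : j.val ^ n < k then a ⟨j.val ^ n, h⟩ else 0 := ⟨_, fun _ => rfl⟩
  have hβ0 : ∀ j, 0 ≤ β j := by
    intro j
    rw [hβ]
    split_ifs
    · exact (ha _).le
    · exact le_refl _
  have hsum' : ∑ j, β j < R := by
    have : ∑ j, β j = ∑ j : Fin m, (if h : j.val ^ n < k then a ⟨j.val ^ n, h⟩ else 0) :=
      Finset.sum_congr rfl (fun j _ => hβ j)
    rw [this]
    exact hsum
  have hm' : (0 : ℝ) < m := by exact_mod_cast hmpos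
  obtain ⟨δ, hδdef⟩ : ∃ δ : ℝ, δ = (R - ∑ j, β j) / m := ⟨_, rfl⟩
  have hδ : 0 < δ := by
    rw [hδdef]
    exact div_pos (by linarith) hm'
  have hbsum : ∑ j : Fin m, (β j + δ) = R := by
    rw [Finset.sum_add_distrib, Finset.sum_const, Finset.card_univ, Fintype.card_fin,
      nsmul_eq_mul, hδdef]
    field_simp
    ring
  obtain ⟨slot, hinj, hslotC⟩ := exists_injective_choice k
    (fun r => univ.filter (fun κ : Fin n → Fin m => ∀ p, (κ p).val ≤ J r)) (by
      intro r hr
      have h1 := card_colourings_le (n := n) (J r) (hJm r hr)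
      have h2 := (hJ r).2
      omega)
  have hpack := packing_bands hn (fun j => β j + δ) (fun j => by linarith [hβ0 j]) a ha slot
    hinj (fun i => a i + δ) (fun i => by linarith) (by
      intro i p
      have h1 : ((slot i) p).val ≤ J i.val := (Finset.mem_filter.mp (hslotC i)).2 p
      have h2 : ((slot i) p).val ^ n ≤ i.val :=
        le_trans (Nat.pow_le_pow_left h1 n) (hJ i.val).1
      have h3 : ((slot i) p).val ^ n < k := lt_of_le_of_lt h2 i.isLt
      have h4 : a i ≤ β (slot i p) := by
        rw [hβ, dif_pos h3]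
        exact hmono (by
          rw [Fin.le_def]
          exact h2)
      show a i + δ ≤ β (slot i p) + δ
      linarith)
  rw [hbsum] at hpack
  exact hpack

end Vale.Agent.Lib.P209
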