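import Mathlib

namespace Vale.Agent.Lib.P209

/-- Among the maps from `Fin n` to `Fin m`, all but at most `s0 ^ n + s1 ^ n` take somewhere a
value of size at least `s0` and somewhere a value `v` with `v + s1 < m`. -/
theorem shell_card2 (n m s0 s1 : ℕ) :
    m ^ n ≤ Fintype.card {κ : Fin n → Fin m //
      (∃ p, s0 ≤ (κ p).val) ∧ (∃ p, (κ p).val + s1 < m)} + s0 ^ n + s1 ^ n := by
  let F : (Fin n → Fin m) →
      {κ : Fin n → Fin m // (∃ p, s0 ≤ (κ p).val) ∧ (∃ p, (κ p).val + s1 < m)} ⊕
        ((Fin n → Fin s0) ⊕ (Fin n → Fin s1)) :=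
    fun κ => if h : (∃ p, s0 ≤ (κ p).val) ∧ (∃ p, (κ p).val + s1 < m) then Sum.inl ⟨κ, h⟩
      else if h0 : ∃ p, s0 ≤ (κ p).val then
        Sum.inr (Sum.inr (fun p => ⟨(κ p).val + s1 - m, by
          have h2 : ¬ ((κ p).val + s1 < m) := fun h2 => h ⟨h0, ⟨p, h2⟩⟩
          have h3 := (κ p).isLt
          omega⟩))
      else Sum.inr (Sum.inl (fun p => ⟨(κ p).val, by
        by_contra hc
        exact h0 ⟨p, not_lt.mp hc⟩⟩))
  have hinj : Function.Injective F := by
    intro κ κ' hk
    by_cases h : (∃ p, s0 ≤ (κ p).val) ∧ (∃ p, (κ p).val + s1 < m)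
    · by_cases h' : (∃ p, s0 ≤ (κ' p).val) ∧ (∃ p, (κ' p).val + s1 < m)
      · simp only [F, dif_pos h, dif_pos h'] at hk
        exact congrArg Subtype.val (Sum.inl.inj hk)
      · by_cases h0' : ∃ p, s0 ≤ (κ' p).val
        · simp only [F, dif_pos h, dif_neg h', dif_pos h0'] at hk
          exact absurd hk (by simp)
        · simp only [F, dif_pos h, dif_neg h', dif_neg h0'] at hk
          exact absurd hk (by simp)
    · by_cases h0 : ∃ p, s0 ≤ (κ p).val
      · by_cases h' : (∃ p, s0 ≤ (κ' p).val) ∧ (∃ p, (κ' p).val + s1 < m)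
        · simp only [F, dif_neg h, dif_pos h0, dif_pos h'] at hk
          exact absurd hk (by simp)
        · by_cases h0' : ∃ p, s0 ≤ (κ' p).val
          · simp only [F, dif_neg h, dif_pos h0, dif_neg h', dif_pos h0'] at hk
            have h2 := Sum.inr.inj (Sum.inr.inj hk)
            funext p
            have h3 : (κ p).val + s1 - m = (κ' p).val + s1 - m :=
              congrArg Fin.val (congrFun h2 p)
            have h4 : ¬ ((κ p).val + s1 < m) := fun h4 => h ⟨h0, ⟨p, h4⟩⟩
            have h4' : ¬ ((κ' p).val + s1 < m) := fun h4 => h' ⟨h0', ⟨p, h4⟩⟩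
            apply Fin.ext
            omega
          · simp only [F, dif_neg h, dif_pos h0, dif_neg h', dif_neg h0'] at hk
            exact absurd hk (by simp)
      · by_cases h' : (∃ p, s0 ≤ (κ' p).val) ∧ (∃ p, (κ' p).val + s1 < m)
        · simp only [F, dif_neg h, dif_neg h0, dif_pos h'] at hk
          exact absurd hk (by simp)
        · by_cases h0' : ∃ p, s0 ≤ (κ' p).val
          · simp only [F, dif_neg h, dif_neg h0, dif_neg h', dif_pos h0'] at hk
            exact absurd hk (by simp)
          · simp only [F, dif_neg h, dif_neg h0, dif_neg h', dif_neg h0'] at hk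
            have h2 := Sum.inl.inj (Sum.inr.inj hk)
            funext p
            have h3 := congrArg Fin.val (congrFun h2 p)
            exact Fin.ext h3
  have hcard := Fintype.card_le_of_injective F hinj
  simp only [Fintype.card_sum, Fintype.card_fun, Fintype.card_fin] at hcard
  exact le_of_le_of_eq hcard (add_assoc _ _ _).symm

end Vale.Agent.Lib.P209
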