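import Mathlib

namespace Vale.Agent.Lib.P209

/-- Upper estimate for a difference of powers: `x^(k+1) - y^(k+1) ≤ (k+1) (x - y) R^k` for
`0 ≤ y ≤ x ≤ R`. -/
theorem sv2_pow_sub_le (k : ℕ) (x y R : ℝ) (hy : 0 ≤ y) (hxy : y ≤ x) (hxR : x ≤ R) :
    x ^ (k + 1) - y ^ (k + 1) ≤ ((k : ℝ) + 1) * (x - y) * R ^ k := by
  have hx : 0 ≤ x := le_trans hy hxy
  have hR : 0 ≤ R := le_trans hx hxR
  have h3 : 0 ≤ x - y := sub_nonneg.mpr hxy
  induction k with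
  | zero => simp
  | succ k ih =>
    have h1 : y ^ (k + 1) ≤ R ^ (k + 1) := pow_le_pow_left₀ hy (le_trans hxy hxR) _
    have h2 : 0 ≤ R ^ k := pow_nonneg hR k
    have hk : (0 : ℝ) ≤ (k : ℝ) + 1 := by positivity
    have e : x ^ (k + 1 + 1) - y ^ (k + 1 + 1)
        = x * (x ^ (k + 1) - y ^ (k + 1)) + (x - y) * y ^ (k + 1) := by ring
    have h4 : x * (x ^ (k + 1) - y ^ (k + 1)) ≤ x * (((k : ℝ) + 1) * (x - y) * R ^ k) :=
      mul_le_mul_of_nonneg_left ih hx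
    have h5 : x * (((k : ℝ) + 1) * (x - y) * R ^ k) ≤ R * (((k : ℝ) + 1) * (x - y) * R ^ k) :=
      mul_le_mul_of_nonneg_right hxR (mul_nonneg (mul_nonneg hk h3) h2)
    have h6 : (x - y) * y ^ (k + 1) ≤ (x - y) * R ^ (k + 1) :=
      mul_le_mul_of_nonneg_left h1 h3
    have e2 : (((k + 1 : ℕ) : ℝ) + 1) * (x - y) * R ^ (k + 1)
        = R * (((k : ℝ) + 1) * (x - y) * R ^ k) + (x - y) * R ^ (k + 1) := by
      push_cast
      ring
    rw [e, e2]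
    linarith

/-- Lower estimate for a difference of powers: `R^k (R - s) ≤ R^(k+1) - s^(k+1)` for
`0 ≤ s ≤ R`. -/
theorem sv2_pow_sub_ge (k : ℕ) (s R : ℝ) (hs : 0 ≤ s) (hsR : s ≤ R) :
    (R - s) * R ^ k ≤ R ^ (k + 1) - s ^ (k + 1) := by
  have h1 : s ^ k ≤ R ^ k := pow_le_pow_left₀ hs hsR k
  have h2 : s * s ^ k ≤ s * R ^ k := mul_le_mul_of_nonneg_left h1 hs
  have e : R ^ (k + 1) - s ^ (k + 1) - (R - s) * R ^ k = s * R ^ k - s * s ^ k := by ring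
  linarith

/-- Volume of a thin shell around two balls: `R^n - (b + t)^n - (c + t)^n` is at least
`1 - θ` times `R^n - b^n - c^n` when `2 n t ≤ θ (R - b - c)`. -/
theorem shell_volume2 (n : ℕ) (hn : 1 ≤ n) (R b c t θ : ℝ) (hb : 0 ≤ b) (hc : 0 ≤ c)
    (ht : 0 < t) (htR : b + c + 2 * t ≤ R) (hθ : 2 * (n : ℝ) * t ≤ θ * (R - b - c)) :
    (1 - θ) * (R ^ n - b ^ n - c ^ n) ≤ R ^ n - (b + t) ^ n - (c + t) ^ n := by
  obtain ⟨k, rfl⟩ : ∃ k, n = k + 1 := ⟨n - 1, by omega⟩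
  have hR0 : 0 ≤ R := by linarith
  have hD : 0 < R - b - c := by linarith
  have hRk : 0 ≤ R ^ k := pow_nonneg hR0 k
  have hθpos : 0 < θ := by
    by_contra hneg
    have h1 : θ * (R - b - c) ≤ 0 := mul_nonpos_of_nonpos_of_nonneg (not_lt.mp hneg) hD.le
    have h2 : 0 < 2 * ((k + 1 : ℕ) : ℝ) * t := by positivity
    linarith
  have hX := sv2_pow_sub_le k (b + t) b R hb (by linarith) (by linarith)
  have hY := sv2_pow_sub_le k (c + t) c R hc (by linarith) (by linarith)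
  have hS := sv2_pow_sub_ge k (b + c) R (by linarith) (by linarith)
  have hbc : b ^ (k + 1) + c ^ (k + 1) ≤ (b + c) ^ (k + 1) :=
    pow_add_pow_le hb hc (Nat.succ_ne_zero k)
  have hM : (R - b - c) * R ^ k ≤ R ^ (k + 1) - b ^ (k + 1) - c ^ (k + 1) := by
    have e : R - (b + c) = R - b - c := by ring
    rw [e] at hS
    linarith
  have h1 : 2 * ((k + 1 : ℕ) : ℝ) * t * R ^ k ≤ θ * (R - b - c) * R ^ k :=
    mul_le_mul_of_nonneg_right hθ hRk
  have h2 : θ * ((R - b - c) * R ^ k) ≤ θ * (R ^ (k + 1) - b ^ (k + 1) - c ^ (k + 1)) :=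
    mul_le_mul_of_nonneg_left hM hθpos.le
  have e1 : b + t - b = t := by ring
  have e2 : c + t - c = t := by ring
  rw [e1] at hX
  rw [e2] at hY
  have e3 : 2 * ((k + 1 : ℕ) : ℝ) * t * R ^ k
      = ((k : ℝ) + 1) * t * R ^ k + ((k : ℝ) + 1) * t * R ^ k := by
    push_cast
    ring
  have e4 : θ * (R - b - c) * R ^ k = θ * ((R - b - c) * R ^ k) := by ring
  have e5 : (1 - θ) * (R ^ (k + 1) - b ^ (k + 1) - c ^ (k + 1))
      = (R ^ (k + 1) - b ^ (k + 1) - c ^ (k + 1))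
        - θ * (R ^ (k + 1) - b ^ (k + 1) - c ^ (k + 1)) := by ring
  rw [e5]
  linarith

end Vale.Agent.Lib.P209
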