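import Vale.Agent.Lib.P209.Lin

/-!
# Staircase simplices

Unimodular affine maps taking the standard simplex onto the simplices of a staircase
subdivision, as compositions of three toric steps: partial sums, a permutation with a
translation, and successive differences.
-/

namespace Vale.Agent.Lib.P209

open Finset

theorem sum_succ_eq {M : Type*} [AddCommMonoid M] {n : ℕ} (f : Fin n → M) (m : Fin n) :
    ∑ j : Fin n, (if m.val = j.val + 1 then f j else 0) =
      if h : 0 < m.val then f ⟨m.val - 1, by have := m.isLt; omega⟩ else 0 := by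
  by_cases h : 0 < m.val
  · rw [dif_pos h]
    rw [Finset.sum_eq_single (⟨m.val - 1, by have := m.isLt; omega⟩ : Fin n)]
    · rw [if_pos]
      show m.val = m.val - 1 + 1
      omega
    · intro j _ hj
      rw [if_neg]
      intro h2
      apply hj
      apply Fin.ext
      show j.val = m.val - 1
      omega
    · intro h2
      exact absurd (Finset.mem_univ _) h2
  · rw [dif_neg h]
    apply Finset.sum_eq_zero
    intro j _
    rw [if_neg]
    omega

theorem sum_pred_eq {M : Type*} [AddCommMonoid M] {n : ℕ} (f : Fin n → M) (l : Fin n) :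
    ∑ j : Fin n, (if j.val = l.val + 1 then f j else 0) =
      if h : l.val + 1 < n then f ⟨l.val + 1, h⟩ else 0 := by
  by_cases h : l.val + 1 < n
  · rw [dif_pos h]
    rw [Finset.sum_eq_single (⟨l.val + 1, h⟩ : Fin n)]
    · rw [if_pos rfl]
    · intro j _ hj
      rw [if_neg]
      intro h2
      apply hj
      apply Fin.ext
      show j.val = l.val + 1
      omega
    · intro h2
      exact absurd (Finset.mem_univ _) h2
  · rw [dif_neg h]
    apply Finset.sum_eq_zero
    intro j _
    rw [if_neg]
    have := j.isLt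
    omega

/-- partial sums -/
def psum {n : ℕ} (x : Fin n → ℝ) (m : Fin n) : ℝ := ∑ l, if l ≤ m then x l else 0

/-- the zero matrix -/
def ZN (n : ℕ) : Fin n → Fin n → ℕ := fun _ _ => 0

/-! ### partial sums -/

/-- the matrix of partial sums -/
def AL (n : ℕ) : Fin n → Fin n → ℤ := fun m l => if l ≤ m then 1 else 0

/-- positive part of the inverse transpose of `AL` -/
def PL (n : ℕ) : Fin n → Fin n → ℕ := fun j m => if m = j then 1 else 0

/-- negative part of the inverse transpose of `AL` -/
def NL (n : ℕ) : Fin n → Fin n → ℕ := fun j m => if m.val = j.val + 1 then 1 else 0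

theorem unimod_L (n : ℕ) : Unimod (AL n) (PL n) (NL n) := by
  intro l m
  have h1 : ∀ j : Fin n, AL n j l * ((PL n j m : ℤ) - (NL n j m : ℤ)) =
      (if m = j then (if l ≤ j then (1 : ℤ) else 0) else 0) -
        (if m.val = j.val + 1 then (if l ≤ j then (1 : ℤ) else 0) else 0) := by
    intro j
    simp only [AL, PL, NL]
    split_ifs <;> simp
  rw [Finset.sum_congr rfl (fun j _ => h1 j), Finset.sum_sub_distrib, Finset.sum_ite_eq,
    sum_succ_eq]
  simp only [Finset.mem_univ, if_true, Fin.le_def, Fin.ext_iff]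
  split_ifs <;> omega

theorem linMom_L {n : ℕ} (x : Fin n → ℝ) : linMom (AL n) (fun _ => 0) x = psum x := by
  funext m
  unfold linMom psum AL
  rw [add_zero]
  apply Finset.sum_congr rfl
  intro l _
  split_ifs <;> simp

/-- increasing sequences with values in `(0, δ)` -/
def incSet (n : ℕ) (δ : ℝ) : Set (Fin n → ℝ) :=
  {w | (∀ m, 0 < w m) ∧ (∀ m, w m < δ) ∧ StrictMono w}

theorem psum_mem_incSet {n : ℕ} {δ : ℝ} {X : Fin n → ℝ} (hX : X ∈ simplexO n δ) :
    psum X ∈ incSet n δ := by
  obtain ⟨hpos, hsum⟩ := hX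
  have hterm : ∀ (m l : Fin n), 0 ≤ (if l ≤ m then X l else 0) := by
    intro m l
    split_ifs
    · exact (hpos l).le
    · exact le_refl _
  refine ⟨fun m => ?_, fun m => ?_, ?_⟩
  · have h1 : (if m ≤ m then X m else 0) ≤ psum X m :=
      Finset.single_le_sum (f := fun l => if l ≤ m then X l else 0) (fun l _ => hterm m l)
        (Finset.mem_univ m)
    rw [if_pos (le_refl m)] at h1
    linarith [hpos m]
  · have h1 : psum X m ≤ ∑ l, X l := by
      apply Finset.sum_le_sum
      intro l _
      split_ifs
      · exact le_refl _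
      · exact (hpos l).le
    linarith
  · intro m m' hmm'
    apply Finset.sum_lt_sum
    · intro l _
      by_cases h : l ≤ m
      · rw [if_pos h, if_pos (h.trans hmm'.le)]
      · rw [if_neg h]
        exact hterm m' l
    · refine ⟨m', Finset.mem_univ _, ?_⟩
      rw [if_neg (not_le.mpr hmm'), if_pos (le_refl m')]
      exact hpos m'

/-! ### permutation and translation -/

/-- permutation matrix -/
def AP {n : ℕ} (ρ : Equiv.Perm (Fin n)) : Fin n → Fin n → ℤ :=
  fun i m => if m = ρ i then 1 else 0

/-- permutation matrix, with natural entries -/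
def PP {n : ℕ} (ρ : Equiv.Perm (Fin n)) : Fin n → Fin n → ℕ :=
  fun i m => if m = ρ i then 1 else 0

theorem unimod_P {n : ℕ} (ρ : Equiv.Perm (Fin n)) : Unimod (AP ρ) (PP ρ) (ZN n) := by
  intro l m
  have h1 : ∀ j : Fin n, AP ρ j l * ((PP ρ j m : ℤ) - (ZN n j m : ℤ)) =
      (fun x : Fin n => if l = x then (if m = x then (1 : ℤ) else 0) else 0) (ρ j) := by
    intro j
    simp only [AP, PP, ZN]
    split_ifs <;> simp
  rw [Finset.sum_congr rfl (fun j _ => h1 j),
    Equiv.sum_comp ρ (fun x : Fin n => if l = x then (if m = x then (1 : ℤ) else 0) else 0),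
    Finset.sum_ite_eq]
  simp only [Finset.mem_univ, if_true]
  by_cases h : l = m
  · subst h
    simp
  · rw [if_neg h, if_neg (Ne.symm h)]

theorem linMom_P {n : ℕ} (ρ : Equiv.Perm (Fin n)) (t w : Fin n → ℝ) (i : Fin n) :
    linMom (AP ρ) t w i = w (ρ i) + t i := by
  unfold linMom AP
  congr 1
  have h1 : ∀ l : Fin n, (((if l = ρ i then 1 else 0 : ℤ)) : ℝ) * w l =
      if l = ρ i then w l else 0 := by
    intro l
    split_ifs <;> simp
  rw [Finset.sum_congr rfl (fun l _ => h1 l), Finset.sum_ite_eq']
  simp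

/-- the translation vector: `b - δ` on the first `a` coordinates and `b` on the others -/
def tvec (n : ℕ) (b δ : ℝ) (a : ℕ) : Fin n → ℝ := fun i => if i.val < a then b - δ else b

/-- the simplex in partial-sum coordinates -/
def midSet (n : ℕ) (b δ : ℝ) (a : ℕ) (ρ : Equiv.Perm (Fin n)) : Set (Fin n → ℝ) :=
  {y | ∃ w ∈ incSet n δ, ∀ i, y i = w (ρ i) + tvec n b δ a i}

/-! ### successive differences -/

/-- the matrix of successive differences -/
def AD (n : ℕ) : Fin n → Fin n → ℤ :=
  fun i l => (if l = i then 1 else 0) - (if i.val = l.val + 1 then 1 else 0)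

/-- the inverse transpose of `AD` -/
def PD (n : ℕ) : Fin n → Fin n → ℕ := fun j m => if j ≤ m then 1 else 0

theorem unimod_D (n : ℕ) : Unimod (AD n) (PD n) (ZN n) := by
  intro l m
  have h1 : ∀ j : Fin n, AD n j l * ((PD n j m : ℤ) - (ZN n j m : ℤ)) =
      (if l = j then (if j ≤ m then (1 : ℤ) else 0) else 0) -
        (if j.val = l.val + 1 then (if j ≤ m then (1 : ℤ) else 0) else 0) := by
    intro j
    simp only [AD, PD, ZN]
    split_ifs <;> simp
  rw [Finset.sum_congr rfl (fun j _ => h1 j), Finset.sum_sub_distrib, Finset.sum_ite_eq,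
    sum_pred_eq]
  have := m.isLt
  simp only [Finset.mem_univ, if_true, Fin.le_def, Fin.ext_iff]
  split_ifs <;> omega

/-- successive differences -/
def dmap {n : ℕ} (y : Fin n → ℝ) (i : Fin n) : ℝ :=
  y i - (if h : 0 < i.val then y ⟨i.val - 1, by have := i.isLt; omega⟩ else 0)

theorem linMom_D {n : ℕ} (y : Fin n → ℝ) : linMom (AD n) (fun _ => 0) y = dmap y := by
  funext i
  unfold linMom dmap AD
  rw [add_zero]
  have h1 : ∀ l : Fin n,
      ((((if l = i then 1 else 0) - (if i.val = l.val + 1 then 1 else 0) : ℤ)) : ℝ) * y l =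
      (if l = i then y l else 0) - (if i.val = l.val + 1 then y l else 0) := by
    intro l
    split_ifs <;> simp
  rw [Finset.sum_congr rfl (fun l _ => h1 l), Finset.sum_sub_distrib, Finset.sum_ite_eq',
    sum_succ_eq]
  simp

theorem psum_dmap {n : ℕ} (y : Fin n → ℝ) : psum (dmap y) = y := by
  funext m
  have h1 := unimod_left (unimod_D n) y m
  rw [← h1]
  unfold psum
  apply Finset.sum_congr rfl
  intro j _
  have h2 : ∑ l, (AD n j l : ℝ) * y l = dmap y j := by
    have := congrFun (linMom_D y) j
    unfold linMom at this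
    rw [add_zero] at this
    exact this
  rw [h2]
  simp only [PD, ZN]
  split_ifs <;> simp

theorem dmap_injective {n : ℕ} : Function.Injective (dmap (n := n)) := by
  intro y y' h
  rw [← psum_dmap y, ← psum_dmap y', h]

/-- the staircase simplex in moment coordinates -/
def stairSet (n : ℕ) (b δ : ℝ) (a : ℕ) (ρ : Equiv.Perm (Fin n)) : Set (Fin n → ℝ) :=
  dmap '' midSet n b δ a ρ

end Vale.Agent.Lib.P209
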