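import Vale.Agent.Lib.P209.Stair

/-!
# Staircase simplices: positivity, disjointness, embeddings, shuffles
-/

namespace Vale.Agent.Lib.P209

open Finset

/-- `ρ` is increasing on the first `a` indices and on the remaining ones -/
def BlockMono {n : ℕ} (a : ℕ) (ρ : Equiv.Perm (Fin n)) : Prop :=
  ∀ i j : Fin n, i < j → (j.val < a ∨ a ≤ i.val) → ρ i < ρ j

theorem dmap_pos {n : ℕ} {b δ : ℝ} (hδb : δ ≤ b) {a : ℕ} {ρ : Equiv.Perm (Fin n)}
    (hρ : BlockMono a ρ) {y : Fin n → ℝ} (hy : y ∈ midSet n b δ a ρ) (i : Fin n) :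
    0 < dmap y i := by
  obtain ⟨w, ⟨hw0, hwδ, hwm⟩, hyw⟩ := hy
  unfold dmap
  by_cases h : 0 < i.val
  · rw [dif_pos h]
    have hi'lt : i.val - 1 < n := by
      have := i.isLt
      omega
    rw [hyw i, hyw ⟨i.val - 1, hi'lt⟩]
    unfold tvec
    have hlt : (⟨i.val - 1, hi'lt⟩ : Fin n) < i := by
      rw [Fin.lt_def]
      show i.val - 1 < i.val
      omega
    by_cases h1 : i.val < a
    · have h2 : i.val - 1 < a := by omega
      rw [if_pos h1, if_pos h2]
      have := hwm (hρ ⟨i.val - 1, hi'lt⟩ i hlt (Or.inl h1))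
      linarith
    · by_cases h2 : i.val - 1 < a
      · rw [if_neg h1, if_pos h2]
        linarith [hw0 (ρ i), hwδ (ρ ⟨i.val - 1, hi'lt⟩)]
      · rw [if_neg h1, if_neg h2]
        have := hwm (hρ ⟨i.val - 1, hi'lt⟩ i hlt (Or.inr (by show a ≤ i.val - 1; omega)))
        linarith
  · rw [dif_neg h, hyw i]
    unfold tvec
    split_ifs <;> linarith [hw0 (ρ i), hwδ (ρ i)]

theorem sum_eq_psum_last {n : ℕ} (hn : 0 < n) (x : Fin n → ℝ) :
    ∑ i, x i = psum x ⟨n - 1, by omega⟩ := by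
  unfold psum
  apply Finset.sum_congr rfl
  intro l _
  rw [if_pos]
  rw [Fin.le_def]
  have := l.isLt
  show l.val ≤ n - 1
  omega

theorem stairSet_sub {n : ℕ} (hn : 0 < n) {b δ : ℝ} (hδ : 0 < δ) (hδb : δ ≤ b) {a : ℕ}
    {ρ : Equiv.Perm (Fin n)} (hρ : BlockMono a ρ) {x : Fin n → ℝ}
    (hx : x ∈ stairSet n b δ a ρ) :
    (∀ j, 0 < x j) ∧ ∑ j, x j < b + δ ∧ (a < n → b < ∑ j, x j) := by
  obtain ⟨y, hy, rfl⟩ := hx
  refine ⟨dmap_pos hδb hρ hy, ?_, ?_⟩
  · rw [sum_eq_psum_last hn, psum_dmap]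
    obtain ⟨w, ⟨hw0, hwδ, hwm⟩, hyw⟩ := hy
    rw [hyw]
    unfold tvec
    split_ifs <;> linarith [hwδ (ρ ⟨n - 1, by omega⟩)]
  · intro han
    rw [sum_eq_psum_last hn, psum_dmap]
    obtain ⟨w, ⟨hw0, hwδ, hwm⟩, hyw⟩ := hy
    rw [hyw]
    unfold tvec
    rw [if_neg (by show ¬ (n - 1 < a); omega)]
    linarith [hw0 (ρ ⟨n - 1, by omega⟩)]

theorem midSet_disjoint {n : ℕ} {b δ : ℝ} {a a' : ℕ} (ha : a ≤ n) (ha' : a' ≤ n)
    {ρ ρ' : Equiv.Perm (Fin n)} (hne : ¬ (a = a' ∧ ρ = ρ')) :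
    Disjoint (midSet n b δ a ρ) (midSet n b δ a' ρ') := by
  rw [Set.disjoint_left]
  rintro y ⟨w, ⟨hw0, hwδ, hwm⟩, hyw⟩ ⟨w', ⟨hw0', hwδ', hwm'⟩, hyw'⟩
  apply hne
  have key : ∀ (a a' : ℕ) (ρ ρ' : Equiv.Perm (Fin n)) (w w' : Fin n → ℝ), (∀ m, w m < δ) →
      (∀ m, 0 < w' m) → (∀ i, y i = w (ρ i) + tvec n b δ a i) →
      (∀ i, y i = w' (ρ' i) + tvec n b δ a' i) → ∀ i : Fin n, i.val < a → i.val < a' := by
    intro a a' ρ ρ' w w' hwδ hw0' hyw hyw' i hi
    by_contra hi'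
    have h1 := hyw i
    have h2 := hyw' i
    unfold tvec at h1 h2
    rw [if_pos hi] at h1
    rw [if_neg hi'] at h2
    linarith [hwδ (ρ i), hw0' (ρ' i)]
  have h12 := key a a' ρ ρ' w w' hwδ hw0' hyw hyw'
  have h21 := key a' a ρ' ρ w' w hwδ' hw0 hyw' hyw
  have haa' : a = a' := by
    by_contra hne'
    rcases lt_or_gt_of_ne hne' with h | h
    · have h3 := h21 ⟨a, by omega⟩ h
      exact lt_irrefl _ h3
    · have h3 := h12 ⟨a', by omega⟩ h
      exact lt_irrefl _ h3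
  subst haa'
  refine ⟨rfl, ?_⟩
  have hww : ∀ i, w (ρ i) = w' (ρ' i) := by
    intro i
    have h1 := hyw i
    have h2 := hyw' i
    linarith
  have hiff : ∀ i j, ρ i < ρ j → ρ' i < ρ' j := by
    intro i j hij
    have h1 := hwm hij
    rw [hww i, hww j] at h1
    exact hwm'.lt_iff_lt.mp h1
  have hσ : StrictMono (fun x => ρ' (ρ.symm x)) := by
    intro x y hxy
    apply hiff
    simpa using hxy
  apply Equiv.ext
  intro i
  have h1 : ρ' (ρ.symm (ρ i)) = ρ i := le_antisymm hσ.apply_le hσ.le_apply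
  simpa using h1.symm

theorem stairSet_disjoint {n : ℕ} {b δ : ℝ} {a a' : ℕ} (ha : a ≤ n) (ha' : a' ≤ n)
    {ρ ρ' : Equiv.Perm (Fin n)} (hne : ¬ (a = a' ∧ ρ = ρ')) :
    Disjoint (stairSet n b δ a ρ) (stairSet n b δ a' ρ') := by
  rw [Set.disjoint_left]
  rintro x ⟨y, hy, rfl⟩ ⟨y', hy', hxy⟩
  have h1 := dmap_injective hxy
  subst h1
  exact Set.disjoint_left.mp (midSet_disjoint (b := b) (δ := δ) ha ha' hne) hy hy'

theorem goodEmb_stair {n : ℕ} {r b δ : ℝ} (hr : 0 ≤ r) (hrδ : r < δ) (hδb : δ ≤ b) {a : ℕ}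
    {ρ : Equiv.Perm (Fin n)} (hρ : BlockMono a ρ) :
    ∃ Ψ, GoodEmb n r Ψ (stairSet n b δ a ρ) := by
  have hδ : 0 < δ := lt_of_le_of_lt hr hrδ
  obtain ⟨Ψ0, h0⟩ := goodEmb_base n hr hrδ
  have h1 := (h0.stepLin (unimod_L n) (fun _ => 0) (fun X hX j => hX.1 j) (by
    intro X hX j
    rw [linMom_L]
    exact (psum_mem_incSet hX).1 j)).mono (S' := incSet n δ) (by
    rintro _ ⟨X, hX, rfl⟩
    rw [linMom_L]
    exact psum_mem_incSet hX)
  have h2 := (h1.stepLin (unimod_P ρ) (tvec n b δ a) (fun w hw j => hw.1 j) (by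
    intro w hw j
    rw [linMom_P]
    have := hw.1 (ρ j)
    unfold tvec
    split_ifs <;> linarith)).mono (S' := midSet n b δ a ρ) (by
    rintro _ ⟨w, hw, rfl⟩
    exact ⟨w, hw, fun i => linMom_P ρ _ w i⟩)
  have h3 := h2.stepLin (unimod_D n) (fun _ => 0) (by
    intro y hy j
    obtain ⟨w, hw, hyw⟩ := hy
    rw [hyw]
    have := hw.1 (ρ j)
    unfold tvec
    split_ifs <;> linarith) (by
    intro y hy j
    rw [linMom_D]
    exact dmap_pos hδb hρ hy j)
  refine ⟨_, h3.mono ?_⟩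
  rintro _ ⟨y, hy, rfl⟩
  exact ⟨y, hy, (linMom_D y).symm⟩

/-! ### shuffles -/

/-- the shuffle of a subset `T`: the first `T.card` indices go increasingly onto `T`, the
others increasingly onto the complement -/
noncomputable def shufFun {n : ℕ} (T : Finset (Fin n)) (i : Fin n) : Fin n :=
  if h : i.val < T.card then T.orderEmbOfFin rfl ⟨i.val, h⟩
  else Tᶜ.orderEmbOfFin rfl ⟨i.val - T.card, by
    have h1 := Finset.card_compl T
    rw [Fintype.card_fin] at h1
    have := i.isLt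
    omega⟩

theorem shufFun_mem {n : ℕ} (T : Finset (Fin n)) (i : Fin n) :
    shufFun T i ∈ T ↔ i.val < T.card := by
  unfold shufFun
  by_cases h : i.val < T.card
  · rw [dif_pos h]
    exact iff_of_true (Finset.orderEmbOfFin_mem T rfl _) h
  · rw [dif_neg h]
    refine iff_of_false ?_ h
    exact Finset.mem_compl.mp (Finset.orderEmbOfFin_mem Tᶜ rfl _)

theorem shufFun_injective {n : ℕ} (T : Finset (Fin n)) : Function.Injective (shufFun T) := by
  intro i j hij
  by_cases hi : i.val < T.card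
  · have hj : j.val < T.card := by
      rw [← shufFun_mem, ← hij, shufFun_mem]
      exact hi
    unfold shufFun at hij
    rw [dif_pos hi, dif_pos hj] at hij
    have h1 := (T.orderEmbOfFin rfl).injective hij
    have h2 := congrArg Fin.val h1
    exact Fin.ext h2
  · have hj : ¬ j.val < T.card := by
      rw [← shufFun_mem, ← hij, shufFun_mem]
      exact hi
    unfold shufFun at hij
    rw [dif_neg hi, dif_neg hj] at hij
    have h1 := (Tᶜ.orderEmbOfFin rfl).injective hij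
    have h2 : i.val - T.card = j.val - T.card := congrArg Fin.val h1
    apply Fin.ext
    omega

/-- the shuffle of a subset, as a permutation -/
noncomputable def shuf {n : ℕ} (T : Finset (Fin n)) : Equiv.Perm (Fin n) :=
  Equiv.ofBijective (shufFun T)
    ⟨shufFun_injective T, Finite.injective_iff_surjective.mp (shufFun_injective T)⟩

theorem shuf_apply {n : ℕ} (T : Finset (Fin n)) (i : Fin n) : shuf T i = shufFun T i := rfl

theorem blockMono_shuf {n : ℕ} (T : Finset (Fin n)) : BlockMono T.card (shuf T) := by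
  intro i j hij hcase
  rw [shuf_apply, shuf_apply]
  have hij' : i.val < j.val := Fin.lt_def.mp hij
  unfold shufFun
  rcases hcase with h | h
  · have hi : i.val < T.card := by omega
    rw [dif_pos hi, dif_pos h]
    apply (T.orderEmbOfFin rfl).strictMono
    rw [Fin.lt_def]
    exact hij'
  · have hi : ¬ i.val < T.card := by omega
    have hj : ¬ j.val < T.card := by omega
    rw [dif_neg hi, dif_neg hj]
    apply (Tᶜ.orderEmbOfFin rfl).strictMono
    rw [Fin.lt_def]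
    show i.val - T.card < j.val - T.card
    omega

theorem shuf_injective {n : ℕ} {T T' : Finset (Fin n)} (hc : T.card = T'.card)
    (hs : shuf T = shuf T') : T = T' := by
  ext x
  obtain ⟨i, rfl⟩ := (shuf T).surjective x
  have h1 : shuf T i ∈ T ↔ i.val < T.card := shufFun_mem T i
  have h2 : shuf T' i ∈ T' ↔ i.val < T'.card := shufFun_mem T' i
  rw [← hs, ← hc] at h2
  exact h1.trans h2.symm

end Vale.Agent.Lib.P209
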