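import Vale.Agent.Lib.P209.Defs

/-!
# Pointwise symplectic maps: composition and products
-/

namespace Vale.Agent.Lib.P209

/-- the standard area form on `ℂ` -/
def omega1 (u w : ℂ) : ℝ := u.re * w.im - u.im * w.re

theorem omega_eq_sum (n : ℕ) (u w : Fin n → ℂ) : omega n u w = ∑ j, omega1 (u j) (w j) := rfl

theorem omega1_mul (c a b : ℂ) : omega1 (c * a) (c * b) = ‖c‖ ^ 2 * omega1 a b := by
  rw [Complex.sq_norm, Complex.normSq_apply]
  simp only [omega1, Complex.mul_re, Complex.mul_im]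
  ring

/-- `f` is differentiable at `z` with a derivative preserving the area form. -/
def SympAt1 (f : ℂ → ℂ) (z : ℂ) : Prop :=
  ∃ f' : ℂ →L[ℝ] ℂ, HasFDerivAt f f' z ∧ ∀ u w, omega1 (f' u) (f' w) = omega1 u w

/-- `f` is differentiable at `z` with a derivative preserving the symplectic form. -/
def SympAt {n : ℕ} (f : (Fin n → ℂ) → (Fin n → ℂ)) (z : Fin n → ℂ) : Prop :=
  ∃ f' : (Fin n → ℂ) →L[ℝ] (Fin n → ℂ), HasFDerivAt f f' z ∧
    ∀ u w, omega n (f' u) (f' w) = omega n u w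

theorem SympAt.fderiv_eq {n : ℕ} {f : (Fin n → ℂ) → (Fin n → ℂ)} {z : Fin n → ℂ}
    (h : SympAt f z) (u w : Fin n → ℂ) :
    omega n (fderiv ℝ f z u) (fderiv ℝ f z w) = omega n u w := by
  obtain ⟨f', hf', hω⟩ := h
  rw [hf'.fderiv]
  exact hω u w

theorem SympAt.comp {n : ℕ} {f g : (Fin n → ℂ) → (Fin n → ℂ)} {z : Fin n → ℂ}
    (hg : SympAt g (f z)) (hf : SympAt f z) : SympAt (g ∘ f) z := by
  obtain ⟨f', hf', hωf⟩ := hf
  obtain ⟨g', hg', hωg⟩ := hg
  refine ⟨g'.comp f', hg'.comp z hf', ?_⟩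
  intro u w
  simp only [ContinuousLinearMap.comp_apply]
  rw [hωg, hωf]

/-- the coordinatewise product of area-preserving maps is symplectic -/
theorem sympAt_pi {n : ℕ} {σ : ℂ → ℂ} {z : Fin n → ℂ} (h : ∀ j, SympAt1 σ (z j)) :
    SympAt (fun (z : Fin n → ℂ) j => σ (z j)) z := by
  choose f' hf' hω using h
  refine ⟨ContinuousLinearMap.pi (fun j => (f' j).comp (ContinuousLinearMap.proj j)), ?_, ?_⟩
  · rw [hasFDerivAt_pi]
    intro j
    exact (hf' j).comp z (hasFDerivAt_apply j z)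
  · intro u w
    rw [omega_eq_sum, omega_eq_sum]
    apply Finset.sum_congr rfl
    intro j _
    simp only [ContinuousLinearMap.pi_apply, ContinuousLinearMap.comp_apply,
      ContinuousLinearMap.proj_apply]
    exact hω j (u j) (w j)

end Vale.Agent.Lib.P209
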