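import Vale.Agent.Lib.P209.BigDust
import Vale.Agent.Lib.P209.ShellCount2
import Vale.Agent.Lib.P209.ShellVol2

/-!
# Two balls of arbitrary sizes together with many small balls

The two big balls are mapped onto the corner simplices at two vertices of the moment simplex;
both corners are unions of cells of the subdivision into `m ^ n` unimodular simplices, and
the small balls are distributed among the remaining cells.
-/

namespace Vale.Agent.Lib.P209

open Finset

/-- a ball of capacity `a < c` embeds over every translate of the open simplex of size `c`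
by a vector with non-negative entries -/
theorem goodEmb_translate {n : ℕ} {a c : ℝ} (ha : 0 ≤ a) (hac : a < c) (v : Fin n → ℝ)
    (hv : ∀ j, 0 ≤ v j) :
    ∃ Ψ, GoodEmb n a Ψ ((fun (X : Fin n → ℝ) (j : Fin n) => X j + v j) '' simplexO n c) := by
  obtain ⟨Ψ0, h0⟩ := goodEmb_base n ha hac
  have h1 := h0.stepLin (unimod_P (1 : Equiv.Perm (Fin n))) v (fun X hX j => hX.1 j) (by
    intro X hX j
    rw [linMom_P]
    have h2 := hX.1 ((1 : Equiv.Perm (Fin n)) j)
    linarith [hv j])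
  refine ⟨_, h1.mono ?_⟩
  rintro _ ⟨X, hX, rfl⟩
  refine ⟨X, hX, ?_⟩
  funext j
  rw [linMom_P]
  rfl

theorem sum_ite_val_zero {n : ℕ} (hn : 0 < n) (V : ℝ) :
    ∑ j : Fin n, (if j.val = 0 then V else 0) = V := by
  rw [Finset.sum_eq_single (⟨0, hn⟩ : Fin n)]
  · simp
  · intro j _ hj
    rw [if_neg]
    intro h
    exact hj (Fin.ext h)
  · intro h
    exact absurd (Finset.mem_univ _) h

/-- the first coordinate of every point of the simplex of a colouring lies before the right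
end of every band which the colouring uses -/
theorem bandSet_first_lt {n m : ℕ} (hn : 0 < n) {b : Fin m → ℝ} (hb : ∀ j, 0 ≤ b j)
    {κ : Fin n → Fin m} {s : ℝ} (hs : ∀ p, s ≤ b (κ p)) {x : Fin n → ℝ}
    (hx : x ∈ bandSet b κ s) (p : Fin n) : x ⟨0, hn⟩ < bandOff b (κ p) + b (κ p) := by
  obtain ⟨y, hy, rfl⟩ := hx
  have h1 := (band_pos hs hy ⟨0, hn⟩).2
  have h2 : κ (Tuple.sort κ ⟨0, hn⟩) ≤ κ p := by
    have hle : (⟨0, hn⟩ : Fin n) ≤ (Tuple.sort κ).symm p := by
      rw [Fin.le_def]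
      exact Nat.zero_le _
    have h3 := sort_mono κ hle
    simpa using h3
  have h4 : bandOff b (κ (Tuple.sort κ ⟨0, hn⟩)) + b (κ (Tuple.sort κ ⟨0, hn⟩)) ≤
      bandOff b (κ p) + b (κ p) := by
    rcases eq_or_lt_of_le h2 with h5 | h5
    · rw [h5]
    · have h6 := bandOff_add_le hb h5
      linarith [hb (κ p)]
  have h7 : dmap y ⟨0, hn⟩ = y ⟨0, hn⟩ := by
    unfold dmap
    rw [dif_neg (by simp)]
    ring
  rw [h7]
  linarith

/-- The corner simplices of sizes `s0 * t` and `s1 * t` at two vertices together with all the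
cells of size `t` outside of them. -/
theorem packing_two_corners_shell {n : ℕ} (hn : 0 < n) (m s0 s1 : ℕ) (hsm : s0 + s1 ≤ m)
    (t b0 b1 τ : ℝ) (ht : 0 < t) (hb0 : 0 < b0) (hb0s : b0 < s0 * t) (hb1 : 0 < b1)
    (hb1s : b1 < s1 * t) (hτ0 : 0 < τ) (hτ : τ < t) :
    PackingInto n (capOpenBall n (m * t))
      (fun o : Option (Option {κ : Fin n → Fin m //
          (∃ p, s0 ≤ (κ p).val) ∧ (∃ p, (κ p).val + s1 < m)}) =>
        o.elim b0 (fun o' => o'.elim b1 (fun _ => τ))) := by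
  have hb : ∀ j : Fin m, 0 ≤ (fun _ : Fin m => t) j := fun _ => ht.le
  have hsum : ∑ _j : Fin m, t = m * t := by
    rw [Finset.sum_const, Finset.card_univ, Fintype.card_fin, nsmul_eq_mul]
  have hs1m : (s1 : ℝ) ≤ m := by
    exact_mod_cast (by omega : s1 ≤ m)
  have hsmR : (s0 : ℝ) + s1 ≤ m := by
    exact_mod_cast hsm
  obtain ⟨v, hv⟩ : ∃ v : Fin n → ℝ, ∀ j, v j = if j.val = 0 then ((m : ℝ) - s1) * t else 0 :=
    ⟨_, fun _ => rfl⟩
  have hv0 : ∀ j, 0 ≤ v j := by
    intro j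
    rw [hv]
    split_ifs
    · exact mul_nonneg (by linarith) ht.le
    · exact le_refl _
  have hvsum : ∑ j, v j = ((m : ℝ) - s1) * t := by
    rw [Finset.sum_congr rfl (fun j _ => hv j)]
    exact sum_ite_val_zero hn _
  -- properties of the points of the far corner
  have hfar : ∀ X : Fin n → ℝ,
      X ∈ (fun (Y : Fin n → ℝ) (j : Fin n) => Y j + v j) '' simplexO n (s1 * t) →
      ∑ j, X j < m * t ∧ ((m : ℝ) - s1) * t < X ⟨0, hn⟩ ∧ ((m : ℝ) - s1) * t < ∑ j, X j := by
    rintro _ ⟨Y, hY, rfl⟩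
    have h1 : ∑ j, (Y j + v j) = ∑ j, Y j + ((m : ℝ) - s1) * t := by
      rw [Finset.sum_add_distrib, hvsum]
    have h2 : ∑ j, Y j < s1 * t := hY.2
    have h3 : 0 < ∑ j, Y j :=
      Finset.sum_pos (fun j _ => hY.1 j) ⟨⟨0, hn⟩, Finset.mem_univ _⟩
    have h4 : v ⟨0, hn⟩ = ((m : ℝ) - s1) * t := by
      rw [hv, if_pos rfl]
    have h5 := hY.1 ⟨0, hn⟩
    refine ⟨?_, ?_, ?_⟩
    · rw [h1]
      nlinarith
    · show ((m : ℝ) - s1) * t < Y ⟨0, hn⟩ + v ⟨0, hn⟩
      rw [h4]
      linarith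
    · rw [h1]
      linarith
  have key : ∀ (κ : {κ : Fin n → Fin m // (∃ p, s0 ≤ (κ p).val) ∧ (∃ p, (κ p).val + s1 < m)})
      (X : Fin n → ℝ), X ∈ simplexO n (s0 * t) →
      X ∈ bandSet (fun _ : Fin m => t) κ.1 t → False := by
    intro κ X hX hX'
    obtain ⟨p, hp⟩ := κ.2.1
    have h1 := bandSet_sum_gt hn hb (fun _ => le_refl t) hX' p
    rw [bandOff_const] at h1
    have h2 : ∑ j, X j < s0 * t := hX.2
    have h3 : (s0 : ℝ) * t ≤ ((κ.1 p).val : ℝ) * t := by
      apply mul_le_mul_of_nonneg_right _ ht.le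
      exact_mod_cast hp
    linarith
  have key2 : ∀ (κ : {κ : Fin n → Fin m // (∃ p, s0 ≤ (κ p).val) ∧ (∃ p, (κ p).val + s1 < m)})
      (X : Fin n → ℝ),
      X ∈ (fun (Y : Fin n → ℝ) (j : Fin n) => Y j + v j) '' simplexO n (s1 * t) →
      X ∈ bandSet (fun _ : Fin m => t) κ.1 t → False := by
    intro κ X hX hX'
    obtain ⟨p, hp⟩ := κ.2.2
    have h1 := bandSet_first_lt hn hb (fun _ => le_refl t) hX' p
    rw [bandOff_const] at h1
    have h2 := (hfar X hX).2.1
    have h3 : ((κ.1 p).val : ℝ) + 1 ≤ (m : ℝ) - s1 := by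
      have h4 : (κ.1 p).val + 1 + s1 ≤ m := by omega
      have h5 : (((κ.1 p).val + 1 + s1 : ℕ) : ℝ) ≤ (m : ℝ) := by exact_mod_cast h4
      push_cast at h5
      linarith
    have h6 : (((κ.1 p).val : ℝ) + 1) * t ≤ ((m : ℝ) - s1) * t :=
      mul_le_mul_of_nonneg_right h3 ht.le
    linarith
  have key3 : ∀ X : Fin n → ℝ, X ∈ simplexO n (s0 * t) →
      X ∈ (fun (Y : Fin n → ℝ) (j : Fin n) => Y j + v j) '' simplexO n (s1 * t) → False := by
    intro X hX hX'
    have h1 : ∑ j, X j < s0 * t := hX.2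
    have h2 := (hfar X hX').2.2
    have h3 : (s0 : ℝ) * t ≤ ((m : ℝ) - s1) * t :=
      mul_le_mul_of_nonneg_right (by linarith) ht.le
    linarith
  apply packingInto_of_goodEmb
    (fun o : Option (Option {κ : Fin n → Fin m //
        (∃ p, s0 ≤ (κ p).val) ∧ (∃ p, (κ p).val + s1 < m)}) =>
      o.elim (simplexO n (s0 * t)) (fun o' =>
        o'.elim ((fun (Y : Fin n → ℝ) (j : Fin n) => Y j + v j) '' simplexO n (s1 * t))
          (fun κ => bandSet (fun _ : Fin m => t) κ.1 t)))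
  · intro o
    cases o with
    | none => exact goodEmb_base n hb0.le hb0s
    | some o' =>
      cases o' with
      | none => exact goodEmb_translate hb1.le hb1s v hv0
      | some κ => exact goodEmb_band hb hτ0.le hτ (fun _ => le_refl t)
  · intro o X hX
    cases o with
    | none =>
      have h1 : ∑ j, X j < s0 * t := (show X ∈ simplexO n (s0 * t) from hX).2
      have h2 : (s0 : ℝ) * t ≤ m * t :=
        mul_le_mul_of_nonneg_right (by linarith [Nat.cast_nonneg (α := ℝ) s1]) ht.le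
      linarith
    | some o' =>
      cases o' with
      | none => exact (hfar X hX).1
      | some κ =>
        have h1 := (bandSet_sub hn hb (fun _ => le_refl t)
          (show X ∈ bandSet (fun _ : Fin m => t) κ.1 t from hX)).2
        rw [hsum] at h1
        exact h1
  · intro o o' hne
    rw [Set.disjoint_left]
    intro X hX hX'
    cases o with
    | none =>
      cases o' with
      | none => exact hne rfl
      | some o2' =>
        cases o2' with
        | none => exact key3 X hX hX'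
        | some κ' => exact key κ' X hX hX'
    | some o2 =>
      cases o2 with
      | none =>
        cases o' with
        | none => exact key3 X hX' hX
        | some o2' =>
          cases o2' with
          | none => exact hne rfl
          | some κ' => exact key2 κ' X hX hX'
      | some κ =>
        cases o' with
        | none => exact key κ X hX' hX
        | some o2' =>
          cases o2' with
          | none => exact key2 κ X hX' hX
          | some κ' =>
            have hd := bandSet_disjoint hb (κ := κ.1) (κ' := κ'.1) (fun _ => le_refl t)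
              (fun _ => le_refl t) (fun h => hne (by rw [Subtype.ext h]))
            exact Set.disjoint_left.mp hd hX hX'

/-- Two big balls in two corners and small balls distributed among the cells of size `t`
outside of the corners. -/
theorem two_dust_explicit {n : ℕ} (hn : 0 < n) (δd εd : ℝ)
    (hdust : ∀ (k : ℕ) (c : ℝ), 0 < c → ∀ a : Fin k → ℝ, (∀ i, 0 < a i) →
      (∀ i, a i ≤ εd * c) → ∑ i, a i ^ n ≤ (1 - δd) * c ^ n → Packing n k c a)
    (m s0 s1 : ℕ) (hsm : s0 + s1 ≤ m) (t τ R wmax : ℝ) (ht : 0 < t) (hmt : (m : ℝ) * t = R)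
    (hτ0 : 0 < τ) (hτ : τ < t) (hwmax : 0 ≤ wmax)
    {k : ℕ} (a : Fin (k + 2) → ℝ) (ha : ∀ i, 0 < a i) (ha0 : a 0 < s0 * t)
    (ha1 : a 1 < s1 * t)
    (hsmall : ∀ i, i ≠ 0 → i ≠ 1 → a i ≤ εd * τ)
    (hsmall' : ∀ i, i ≠ 0 → i ≠ 1 → a i ^ n ≤ wmax)
    (hne : Nonempty {κ : Fin n → Fin m //
      (∃ p, s0 ≤ (κ p).val) ∧ (∃ p, (κ p).val + s1 < m)})
    (hvol : ∑ i, a i ^ n - a 0 ^ n - a 1 ^ n ≤
      (Fintype.card {κ : Fin n → Fin m //
        (∃ p, s0 ≤ (κ p).val) ∧ (∃ p, (κ p).val + s1 < m)} : ℝ) *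
        ((1 - δd) * τ ^ n - wmax)) :
    Packing n (k + 2) R a := by
  classical
  rw [packing_iff_packingInto, ← hmt]
  have hcells := packing_two_corners_shell hn m s0 s1 hsm t (a 0) (a 1) τ ht (ha 0) ha0
    (ha 1) ha1 hτ0 hτ
  have h01 : (0 : Fin (k + 2)) ≠ 1 := by
    intro h
    have h2 := congrArg Fin.val h
    simp at h2
  obtain ⟨w, hw⟩ : ∃ w : Fin (k + 2) → ℝ,
      ∀ i, w i = if i = 0 ∨ i = 1 then 0 else a i ^ n := ⟨_, fun _ => rfl⟩
  have hw0 : ∀ i, 0 ≤ w i := by
    intro i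
    rw [hw]
    split_ifs
    · exact le_refl _
    · exact pow_nonneg (ha i).le n
  have hwη : ∀ i, w i ≤ wmax := by
    intro i
    rw [hw]
    split_ifs with h
    · exact hwmax
    · exact hsmall' i (fun h0 => h (Or.inl h0)) (fun h1 => h (Or.inr h1))
  have hwsum : ∑ i, w i = ∑ i, a i ^ n - a 0 ^ n - a 1 ^ n := by
    have hg : ∀ i, a i ^ n =
        w i + ((if i = 0 then a 0 ^ n else 0) + (if i = 1 then a 1 ^ n else 0)) := by
      intro i
      rw [hw]
      by_cases h0 : i = 0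
      · have h1 : i ≠ 1 := by
          rw [h0]
          exact h01
        rw [if_pos (Or.inl h0), if_pos h0, if_neg h1, h0]
        ring
      · by_cases h1 : i = 1
        · rw [if_pos (Or.inr h1), if_neg h0, if_pos h1, h1]
          ring
        · rw [if_neg (not_or.mpr ⟨h0, h1⟩), if_neg h0, if_neg h1]
          ring
    have hs : ∑ i, a i ^ n = ∑ i, w i + (a 0 ^ n + a 1 ^ n) := by
      rw [Finset.sum_congr rfl (fun i _ => hg i), Finset.sum_add_distrib,
        Finset.sum_add_distrib]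
      congr 1
      congr 1
      · simp
      · simp
    linarith
  obtain ⟨φ0, hφ0⟩ := bin_assign w wmax ((1 - δd) * τ ^ n) hw0 hwη
    (by rw [hwsum]; exact hvol) hwmax
  obtain ⟨φ, hφ⟩ : ∃ φ : Fin (k + 2) → Option (Option {κ : Fin n → Fin m //
        (∃ p, s0 ≤ (κ p).val) ∧ (∃ p, (κ p).val + s1 < m)}),
      ∀ i, φ i = if i = 0 then none else if i = 1 then some none else some (some (φ0 i)) :=
    ⟨_, fun _ => rfl⟩
  apply PackingInto.refine hcells φ
  intro o
  cases o with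
  | none =>
    have hfib : ∀ x : {i : Fin (k + 2) // φ i = none}, x.1 = 0 := by
      intro x
      by_contra h
      have h1 := x.2
      rw [hφ, if_neg h] at h1
      by_cases h' : x.1 = 1
      · rw [if_pos h'] at h1
        exact Option.some_ne_none _ h1
      · rw [if_neg h'] at h1
        exact Option.some_ne_none _ h1
    have hsub : Subsingleton {i : Fin (k + 2) // φ i = none} :=
      ⟨fun x x' => Subtype.ext (by rw [hfib x, hfib x'])⟩
    apply PackingInto.of_subsingleton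
    intro x
    show capBall n (a x.1) ⊆ capBall n (a 0)
    rw [hfib x]
  | some o' =>
    cases o' with
    | none =>
      have hfib : ∀ x : {i : Fin (k + 2) // φ i = some none}, x.1 = 1 := by
        intro x
        by_contra h
        have h1 := x.2
        rw [hφ] at h1
        by_cases h0 : x.1 = 0
        · rw [if_pos h0] at h1
          exact Option.some_ne_none _ h1.symm
        · rw [if_neg h0, if_neg h] at h1
          exact Option.some_ne_none _ (Option.some.inj h1)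
      have hsub : Subsingleton {i : Fin (k + 2) // φ i = some none} :=
        ⟨fun x x' => Subtype.ext (by rw [hfib x, hfib x'])⟩
      apply PackingInto.of_subsingleton
      intro x
      show capBall n (a x.1) ⊆ capBall n (a 1)
      rw [hfib x]
    | some j =>
      show PackingInto n (capBall n τ)
        (fun x : {i : Fin (k + 2) // φ i = some (some j)} => a x.1)
      have hfib : ∀ i : Fin (k + 2), φ i = some (some j) → i ≠ 0 ∧ i ≠ 1 ∧ φ0 i = j := by
        intro i h1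
        rw [hφ] at h1
        by_cases h0 : i = 0
        · rw [if_pos h0] at h1
          exact absurd h1.symm (Option.some_ne_none _)
        · rw [if_neg h0] at h1
          by_cases h1' : i = 1
          · rw [if_pos h1'] at h1
            exact absurd (Option.some.inj h1).symm (Option.some_ne_none _)
          · rw [if_neg h1'] at h1
            exact ⟨h0, h1', Option.some.inj (Option.some.inj h1)⟩
      apply packingInto_of_fin
      apply hdust _ τ hτ0
      · intro i
        exact ha _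
      · intro i
        have hx := hfib _
          ((Fintype.equivFin {i : Fin (k + 2) // φ i = some (some j)}).symm i).2
        exact hsmall _ hx.1 hx.2.1
      · have h5 : ∑ i, ((fun x : {i : Fin (k + 2) // φ i = some (some j)} => a x.1) ∘
            (Fintype.equivFin {i : Fin (k + 2) // φ i = some (some j)}).symm) i ^ n =
            ∑ x : {i : Fin (k + 2) // φ i = some (some j)}, a x.1 ^ n :=
          Equiv.sum_comp (Fintype.equivFin {i : Fin (k + 2) // φ i = some (some j)}).symm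
            (fun x => a x.1 ^ n)
        rw [h5]
        calc ∑ x : {i : Fin (k + 2) // φ i = some (some j)}, a x.1 ^ n
            = ∑ i ∈ Finset.univ.filter (fun i => φ i = some (some j)), a i ^ n :=
              (Finset.sum_subtype (Finset.univ.filter (fun i => φ i = some (some j)))
                (fun x => by simp) (fun i => a i ^ n)).symm
          _ = ∑ i ∈ Finset.univ.filter (fun i => φ i = some (some j)), w i := by
              apply Finset.sum_congr rfl
              intro i hi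
              have hi' := hfib i (Finset.mem_filter.mp hi).2
              rw [hw, if_neg (not_or.mpr ⟨hi'.1, hi'.2.1⟩)]
          _ ≤ ∑ i ∈ Finset.univ.filter (fun i => φ0 i = j), w i := by
              apply Finset.sum_le_sum_of_subset_of_nonneg
              · intro i hi
                have hi' := hfib i (Finset.mem_filter.mp hi).2
                exact Finset.mem_filter.mpr ⟨Finset.mem_univ _, hi'.2.2⟩
              · intro i _ _
                exact hw0 i
          _ ≤ (1 - δd) * τ ^ n := hφ0 j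

/-- Two balls of arbitrary capacities `a 0 + a 1 < R` together with any number of small
balls: for every `δ > 0` there is `ε > 0` such that the balls pack as soon as the small ones
have capacities at most `ε * (R - a 0 - a 1)` and total volume at most `1 - δ` times the
volume left over by the two big balls. -/
theorem two_dust_packing (n : ℕ) (hn : 2 ≤ n) (δ : ℝ) (hδ : 0 < δ) :
    ∃ ε : ℝ, 0 < ε ∧ ∀ (k : ℕ) (R : ℝ) (a : Fin (k + 2) → ℝ), (∀ i, 0 < a i) →
      a 0 + a 1 < R → (∀ i, i ≠ 0 → i ≠ 1 → a i ≤ ε * (R - a 0 - a 1)) →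
      ∑ i, a i ^ n ≤ a 0 ^ n + a 1 ^ n + (1 - δ) * (R ^ n - a 0 ^ n - a 1 ^ n) →
      Packing n (k + 2) R a := by
  obtain ⟨δ₁, hδ₁, hδ₁le, hδ₁half⟩ : ∃ δ₁ : ℝ, 0 < δ₁ ∧ δ₁ ≤ δ ∧ δ₁ ≤ 1 / 2 :=
    ⟨min δ (1 / 2), lt_min hδ (by norm_num), min_le_left _ _, min_le_right _ _⟩
  obtain ⟨εd, hεd, hdust⟩ := dust_packing n hn (δ₁ / 4) (by positivity)
  have hn0 : 0 < n := by omega
  have hnR : (2 : ℝ) ≤ n := by exact_mod_cast hn
  obtain ⟨θ, hθdef⟩ : ∃ θ : ℝ, θ = δ₁ / (8 * n) := ⟨_, rfl⟩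
  have hθ0 : 0 < θ := by
    rw [hθdef]
    positivity
  have hnθ : (n : ℝ) * θ = δ₁ / 8 := by
    rw [hθdef]
    field_simp
  have hθle : θ ≤ 1 / 32 := by
    nlinarith [mul_nonneg (sub_nonneg.mpr hnR) hθ0.le]
  obtain ⟨ε₁, hε₁0, hε₁a, hε₁b⟩ : ∃ ε₁ : ℝ, 0 < ε₁ ∧ ε₁ ≤ δ₁ / 8 ∧ ε₁ ≤ εd * (1 - θ) :=
    ⟨min (δ₁ / 8) (εd * (1 - θ)), lt_min (by positivity) (mul_pos hεd (by linarith)),
      min_le_left _ _, min_le_right _ _⟩
  refine ⟨θ * ε₁ / 2, by positivity, ?_⟩
  intro k R a ha haR hsmall hvol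
  have ha0 := ha 0
  have ha1 := ha 1
  have hD : 0 < R - a 0 - a 1 := by linarith
  have hR : 0 < R := by linarith
  obtain ⟨X, hXdef⟩ : ∃ X : ℝ, X = θ * (R - a 0 - a 1) := ⟨_, rfl⟩
  have hX0 : 0 < X := by
    rw [hXdef]
    positivity
  have hX32 : 32 * X ≤ R - a 0 - a 1 := by
    rw [hXdef]
    nlinarith [mul_le_mul_of_nonneg_right hθle hD.le]
  have hXR : X ≤ R := by linarith
  obtain ⟨m, hm1, hm2⟩ : ∃ m : ℕ, R / X ≤ m ∧ (m : ℝ) < R / X + 1 :=
    ⟨⌈R / X⌉₊, Nat.le_ceil _, Nat.ceil_lt_add_one (by positivity)⟩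
  have hRX : 1 ≤ R / X := by
    rw [le_div_iff₀ hX0]
    linarith
  have hmpos : (0 : ℝ) < m := by linarith
  have hmX1 : R ≤ m * X := (div_le_iff₀ hX0).mp hm1
  have hmX2 : (m : ℝ) * X < R + X := by
    have h1 : (m : ℝ) * X < (R / X + 1) * X := mul_lt_mul_of_pos_right hm2 hX0
    have h2 : (R / X + 1) * X = R + X := by field_simp
    linarith
  obtain ⟨t, htdef⟩ : ∃ t : ℝ, t = R / m := ⟨_, rfl⟩
  have ht : 0 < t := by
    rw [htdef]
    positivity
  have hmt : (m : ℝ) * t = R := by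
    rw [htdef]
    field_simp
  have htX : t ≤ X := by
    have h1 : (m : ℝ) * t ≤ m * X := by
      rw [hmt]
      exact hmX1
    exact le_of_mul_le_mul_left h1 hmpos
  have hXt : X ≤ 2 * t := by
    have h1 : (m : ℝ) * X ≤ m * (2 * t) := by
      have h2 : (m : ℝ) * (2 * t) = 2 * R := by
        rw [← hmt]
        ring
      rw [h2]
      linarith
    exact le_of_mul_le_mul_left h1 hmpos
  have hfloor : ∀ x : ℝ, 0 < x → ∃ s : ℕ, x < s * t ∧ (s : ℝ) * t ≤ x + t := by
    intro x hx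
    refine ⟨⌊x / t⌋₊ + 1, ?_, ?_⟩
    · have h1 := Nat.lt_floor_add_one (x / t)
      rw [div_lt_iff₀ ht] at h1
      push_cast
      exact h1
    · have h1 := Nat.floor_le (div_nonneg hx.le ht.le)
      rw [le_div_iff₀ ht] at h1
      push_cast
      linarith
  obtain ⟨s0, hs01, hs02⟩ := hfloor (a 0) ha0
  obtain ⟨s1, hs11, hs12⟩ := hfloor (a 1) ha1
  have hsm1 : s0 + s1 + 1 ≤ m := by
    have h1 : (s0 : ℝ) * t + s1 * t + t ≤ m * t := by
      rw [hmt]
      linarith
    have h2 : ((s0 : ℝ) + s1 + 1) * t ≤ m * t := by linarith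
    have h3 : (s0 : ℝ) + s1 + 1 ≤ m := le_of_mul_le_mul_right h2 ht
    exact_mod_cast h3
  have hne : Nonempty {κ : Fin n → Fin m //
      (∃ p, s0 ≤ (κ p).val) ∧ (∃ p, (κ p).val + s1 < m)} :=
    ⟨⟨fun _ => ⟨s0, by omega⟩, ⟨⟨0, hn0⟩, le_refl _⟩, ⟨⟨0, hn0⟩, by
      show s0 + s1 < m
      omega⟩⟩⟩
  obtain ⟨τ, hτdef⟩ : ∃ τ : ℝ, τ = (1 - θ) * t := ⟨_, rfl⟩
  have hτ0 : 0 < τ := by
    rw [hτdef]
    exact mul_pos (by linarith) ht
  have hτt : τ < t := by
    rw [hτdef]
    nlinarith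
  have htn : 0 < t ^ n := pow_pos ht n
  have hsmall1 : ∀ i, i ≠ 0 → i ≠ 1 → a i ≤ ε₁ * t := by
    intro i hi hi'
    calc a i ≤ θ * ε₁ / 2 * (R - a 0 - a 1) := hsmall i hi hi'
      _ = ε₁ * (X / 2) := by
          rw [hXdef]
          ring
      _ ≤ ε₁ * t := mul_le_mul_of_nonneg_left (by linarith) hε₁0.le
  refine two_dust_explicit hn0 (δ₁ / 4) εd hdust m s0 s1 (by omega) t τ R (δ₁ / 8 * t ^ n) ht
    hmt hτ0 hτt (by positivity) a ha hs01 hs11 ?_ ?_ hne ?_
  · intro i hi hi'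
    calc a i ≤ ε₁ * t := hsmall1 i hi hi'
      _ ≤ εd * (1 - θ) * t := mul_le_mul_of_nonneg_right hε₁b ht.le
      _ = εd * τ := by
          rw [hτdef]
          ring
  · intro i hi hi'
    calc a i ^ n ≤ (ε₁ * t) ^ n := pow_le_pow_left₀ (ha i).le (hsmall1 i hi hi') n
      _ = ε₁ ^ n * t ^ n := mul_pow _ _ _
      _ ≤ ε₁ * t ^ n :=
          mul_le_mul_of_nonneg_right (pow_le_of_le_one hε₁0.le (by linarith) (by omega)) htn.le
      _ ≤ δ₁ / 8 * t ^ n := mul_le_mul_of_nonneg_right hε₁a htn.le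
  · have hRa : 0 ≤ R ^ n - a 0 ^ n - a 1 ^ n := by
      have h0 := pow_add_pow_le ha0.le ha1.le (show n ≠ 0 by omega)
      have h0' := pow_le_pow_left₀ (by linarith : 0 ≤ a 0 + a 1) haR.le n
      linarith
    have h1 : ∑ i, a i ^ n - a 0 ^ n - a 1 ^ n ≤ (1 - δ₁) * (R ^ n - a 0 ^ n - a 1 ^ n) := by
      have h0 : (1 - δ) * (R ^ n - a 0 ^ n - a 1 ^ n) ≤
          (1 - δ₁) * (R ^ n - a 0 ^ n - a 1 ^ n) :=
        mul_le_mul_of_nonneg_right (by linarith) hRa
      linarith
    have h2 := shell_volume2 n (by omega) R (a 0) (a 1) t (δ₁ / 4) ha0.le ha1.le ht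
      (by linarith) (by
      calc 2 * (n : ℝ) * t ≤ 2 * n * X :=
            mul_le_mul_of_nonneg_left htX (by positivity)
        _ = 2 * (n * θ) * (R - a 0 - a 1) := by
            rw [hXdef]
            ring
        _ = δ₁ / 4 * (R - a 0 - a 1) := by
            rw [hnθ]
            ring)
    have h3 := shell_card2 n m s0 s1
    obtain ⟨N, hN⟩ : ∃ N : ℝ, N = (Fintype.card {κ : Fin n → Fin m //
        (∃ p, s0 ≤ (κ p).val) ∧ (∃ p, (κ p).val + s1 < m)} : ℝ) := ⟨_, rfl⟩
    have h3' : (m : ℝ) ^ n ≤ N + (s0 : ℝ) ^ n + (s1 : ℝ) ^ n := by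
      rw [hN]
      exact_mod_cast h3
    have hN0 : 0 ≤ N := by
      rw [hN]
      positivity
    have h4 : R ^ n - (a 0 + t) ^ n - (a 1 + t) ^ n ≤ N * t ^ n := by
      have e1 : R ^ n = (m : ℝ) ^ n * t ^ n := by rw [← mul_pow, hmt]
      have e2 : ((s0 : ℝ) * t) ^ n ≤ (a 0 + t) ^ n := pow_le_pow_left₀ (by positivity) hs02 n
      have e3 : ((s0 : ℝ) * t) ^ n = (s0 : ℝ) ^ n * t ^ n := mul_pow _ _ _
      have e2' : ((s1 : ℝ) * t) ^ n ≤ (a 1 + t) ^ n := pow_le_pow_left₀ (by positivity) hs12 n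
      have e3' : ((s1 : ℝ) * t) ^ n = (s1 : ℝ) ^ n * t ^ n := mul_pow _ _ _
      have e4 := mul_le_mul_of_nonneg_right h3' htn.le
      linarith
    have h5 : (1 - δ₁ / 2) * t ^ n ≤ (1 - δ₁ / 4) * τ ^ n - δ₁ / 8 * t ^ n := by
      have hb : 1 + (n : ℝ) * (-θ) ≤ (1 + (-θ)) ^ n := one_add_mul_le_pow (by linarith) n
      have hb' : 1 - δ₁ / 8 ≤ (1 - θ) ^ n := by
        have e1 : 1 + (n : ℝ) * (-θ) = 1 - δ₁ / 8 := by
          rw [mul_neg, hnθ]
          ring
        have e2 : (1 + (-θ)) = 1 - θ := by ring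
        rw [e1, e2] at hb
        exact hb
      have e3 : τ ^ n = (1 - θ) ^ n * t ^ n := by rw [hτdef, mul_pow]
      rw [e3]
      have e4 : (1 - δ₁ / 4) * (1 - δ₁ / 8) ≤ (1 - δ₁ / 4) * (1 - θ) ^ n :=
        mul_le_mul_of_nonneg_left hb' (by linarith)
      have e5 : (1 - δ₁ / 2) ≤ (1 - δ₁ / 4) * (1 - θ) ^ n - δ₁ / 8 := by
        linarith only [e4, big_dust_arith1 δ₁]
      calc (1 - δ₁ / 2) * t ^ n ≤ ((1 - δ₁ / 4) * (1 - θ) ^ n - δ₁ / 8) * t ^ n :=
            mul_le_mul_of_nonneg_right e5 htn.le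
        _ = (1 - δ₁ / 4) * ((1 - θ) ^ n * t ^ n) - δ₁ / 8 * t ^ n := by ring
    rw [← hN]
    calc ∑ i, a i ^ n - a 0 ^ n - a 1 ^ n ≤ (1 - δ₁) * (R ^ n - a 0 ^ n - a 1 ^ n) := h1
      _ ≤ (1 - δ₁ / 2) * ((1 - δ₁ / 4) * (R ^ n - a 0 ^ n - a 1 ^ n)) :=
          big_dust_arith2 δ₁ (R ^ n - a 0 ^ n - a 1 ^ n) hδ₁.le hRa
      _ ≤ (1 - δ₁ / 2) * (R ^ n - (a 0 + t) ^ n - (a 1 + t) ^ n) :=
          mul_le_mul_of_nonneg_left h2 (by linarith)
      _ ≤ (1 - δ₁ / 2) * (N * t ^ n) := mul_le_mul_of_nonneg_left h4 (by linarith)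
      _ = N * ((1 - δ₁ / 2) * t ^ n) := by ring
      _ ≤ N * ((1 - δ₁ / 4) * τ ^ n - δ₁ / 8 * t ^ n) := mul_le_mul_of_nonneg_left h5 hN0

end Vale.Agent.Lib.P209
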